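import Crest.Agent.X212.Dgr80.Tr
import Crest.Agent.X212.Mp86.C0G

/-!
# Row 212, DGR (helper80): product necks and the local energy identity
-/

set_option autoImplicit false
set_option linter.unusedSectionVars false
noncomputable section
open scoped Manifold ContDiff Topology InnerProductSpace
open MeasureTheory Set Function Filter

namespace Crest.Agent.X212.Dgr80
open An Wz78 Sob92

variable {E : Type} [NormedAddCommGroup E] [NormedSpace ℝ E] [FiniteDimensional ℝ E]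
  [MeasurableSpace E] [BorelSpace E]
  {HM : Type} [TopologicalSpace HM] {I : ModelWithCorners ℝ E HM}
  {M : Type} [TopologicalSpace M] [ChartedSpace HM M] [IsManifold I ∞ M]
  [MeasurableSpace M] [T2Space M] [BorelSpace M] {ι : Type} [Fintype ι] {lam : Type} [Fintype lam]
  {r n : ℕ}

section defs
variable (F : Fr I M ι) (c : Cfg M ι lam r) (τ : M → ℝ)

/-- Clifford multiplication by `dτ` -/
def cT (x : M) : En (Fin c.m.N) := ∑ a, F.D a τ x • c.m.ρ a x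

/-- `dτ ⊗ α` -/
def oT {A : Type} [NormedAddCommGroup A] [NormedSpace ℝ A] (x : M) (α : Fm ι A) :
    Fm (ι × ι) A := WithLp.toLp 2 fun s => F.D s.1 τ x • α s.2

/-- the Dirac operator of the cross-section applied to `Φ` -/
def dY (x : M) : c.m.V := -cT F c τ x (dir I F.e c.m.ρ c.W c.Φ x) - xP F c τ x

/-- the work done by a perturbation -/
def wk (σ : Pt M ι lam r n) (x : M) : ℝ :=
  ⟪σ.C c x, oT F τ x (xA F c τ x)⟫_ℝ / 2 - ⟪cT F c τ x (σ.D c x), xP F c τ x⟫_ℝ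

theorem wk_add (σ σ' : Pt M ι lam r n) (x : M) :
    wk F c τ (σ.add σ') x = wk F c τ σ x + wk F c τ σ' x := by
  simp only [wk, Pt.add, inner_add_left, map_add]; ring

theorem en_nonneg (x : M) : 0 ≤ en F c τ x := by unfold en; positivity

end defs

theorem o_five {B : Base M ι lam} (hB : B.OK I) (x : M) (e a b c d : ι) :
    B.P e e x * B.o a b c d x = B.P e a x * B.o e b c d x + B.P e b x * B.o a e c d x +
      B.P e c x * B.o a b e d x + B.P e d x * B.o a b c e x := by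
  obtain ⟨U, h⟩ := b_on hB x
  have h1 := h.vol
  have h2 := h.pr
  simp only [h1, ← h2, vol, Ind95.E4_eq, Fin.sum_univ_four]
  ring

variable [DecidableEq ι] {τ : M → ℝ} {a₀ : ι} {O : Set M} {x : M}

namespace Prd
variable {F : Fr I M ι} (P : Prd F τ a₀ O)
include P

theorem ev (hx : x ∈ O) : ∀ᶠ y in 𝓝 x, y ∈ O := P.op.mem_nhds hx

theorem D_zero {N : Type} [NormedAddCommGroup N] [NormedSpace ℝ N] {f : M → N} {v : N}
    (h : ∀ y ∈ O, f y = v) (hx : x ∈ O) (a : ι) : F.D a f x = 0 := by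
  rw [Pre.D_def, dv_congr (v := fun _ => v) ((P.ev hx).mono h), dv_const]; rfl

theorem gam0 (hx : x ∈ O) (b k : ι) : F.Gam a₀ b k x = 0 := by
  rw [Fr.Gam, P.dP x hx, P.D_zero (fun y hy => P.P y hy k) hx, P.D_zero (fun y hy => P.P y hy b) hx,
    P.c1 x hx, P.c1 x hx, P.c3 x hx]; simp

theorem gam1 (hx : x ∈ O) (a k : ι) : F.Gam a a₀ k x = 0 := by
  rw [Fr.Gam, P.dP x hx, P.D_zero (fun y hy => P.P y hy k) hx,
    P.D_zero (fun y hy => (F.P_symm a a₀ y).trans (P.P y hy a)) hx, P.c1 x hx, P.c2 x hx, P.c3 x hx]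
  simp

theorem gam2 (hx : x ∈ O) (a b : ι) : F.Gam a b a₀ x = 0 := by
  rw [Fr.Gam, P.dP x hx, P.D_zero (fun y hy => (F.P_symm b a₀ y).trans (P.P y hy b)) hx,
    P.D_zero (fun y hy => (F.P_symm a a₀ y).trans (P.P y hy a)) hx, P.c2 x hx, P.c2 x hx, P.c3 x hx]
  simp

theorem rm0 (hx : x ∈ O) (b k l : ι) : Rm I F.e F.c F.Gam a₀ b k l x = 0 := by
  rw [((lc_gam F).curvT (frm F) (sep F) x).pair]
  have h : ∀ a b k, Sob92.dv I (F.e a) (F.Gam b a₀ k) x = 0 := fun a b k =>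
    P.D_zero (fun y hy => P.gam1 hy b k) hx a
  simp [Rm, h, P.gam1 hx]

theorem sum_dτ {N : Type} [AddCommMonoid N] [Module ℝ N] (hx : x ∈ O) (f : ι → N) :
    ∑ a, F.D a τ x • f a = f a₀ := by simp [P.dτ x hx]

theorem D_comp {g : ℝ → ℝ} {g' : ℝ} (hg : HasDerivAt g g' (τ x)) (a : ι) :
    F.D a (fun y => g (τ y)) x = g' * F.D a τ x := by
  rw [Pre.D_def, dv_comp (P.sτ.mdifferentiableAt (by simp)) hg.hasFDerivAt]
  simp [mul_comm, Pre.D_def]

variable (c : Cfg M ι lam r)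

theorem xA_eq (hx : x ∈ O) (a : ι) : xA F c τ x a = c.m.Fg F c.W x (a₀, a) :=
  P.sum_dτ hx fun k => c.m.Fg F c.W x (k, a)

theorem xP_eq (hx : x ∈ O) : xP F c τ x = nab I F.e c.W a₀ c.Φ x :=
  P.sum_dτ hx fun k => nab I F.e c.W k c.Φ x

theorem cT_eq (hx : x ∈ O) : cT F c τ x = c.m.ρ a₀ x := P.sum_dτ hx fun k => c.m.ρ k x

theorem inner_oT {A : Type} [NormedAddCommGroup A] [InnerProductSpace ℝ A] (hx : x ∈ O)
    (η : Fm (ι × ι) A) (α : Fm ι A) : ⟪η, oT F τ x α⟫_ℝ = ∑ b, ⟪η (a₀, b), α b⟫_ℝ := by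
  rw [PiLp.inner_apply, Fintype.sum_prod_type, Finset.sum_comm]
  simp only [oT, real_inner_smul_right, ← smul_eq_mul, P.sum_dτ hx]

theorem norm_oT {A : Type} [NormedAddCommGroup A] [InnerProductSpace ℝ A] (hx : x ∈ O)
    (α : Fm ι A) : ‖oT F τ x α‖ = ‖α‖ := by
  rw [← sq_eq_sq₀ (norm_nonneg _) (norm_nonneg _), ← real_inner_self_eq_norm_sq, P.inner_oT hx,
    ← real_inner_self_eq_norm_sq, PiLp.inner_apply]
  simp [oT, P.dτ x hx]

end Prd

section geo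
variable {B : Base M ι lam} {G : Geo I M ι lam} {c : Cfg M ι lam r}

/-- a product neck on which the connection of the line is time independent -/
structure PN (B : Base M ι lam) (G : Geo I M ι lam) (τ : M → ℝ) (a₀ : ι) (O : Set M) : Prop
    extends Prd G.F τ a₀ O where
  hB : B.OK I
  hG : G.OK B
  fL : ∀ x ∈ O, ∀ a, fL B G x (a₀, a) = 0

namespace PN
variable (P : PN B G τ a₀ O)
include P

theorem BP (hx : x ∈ O) (a : ι) : B.P a₀ a x = if a = a₀ then 1 else 0 := by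
  rw [← P.hG.P]; exact P.P x hx a

theorem BP' (hx : x ∈ O) (a : ι) : B.P a a₀ x = if a = a₀ then 1 else 0 := by
  rw [(P.hB.pr x).symm]; exact P.BP hx a

variable (A : c.Adm B G)
include A

theorem curv0 (hx : x ∈ O) (a : ι) {v : c.m.V} (hv : c.m.p x v = v) :
    curv I G.F.e G.F.c c.W a₀ a x v = opL (xA G.F c τ x a) v := by
  rw [P.toPrd.xA_eq c hx, ← hv, ← mul_apply_eq_comp, curv_eq P.hB P.hG A.ok A.conn, P.fL x hx, hv]
  simp [spin, P.toPrd.rm0 hx]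

theorem rho0 (hx : x ∈ O) (a : ι) : nabE I G.F.e c.W a (c.m.ρ a₀) x = 0 :=
  (A.conn.cc.comp a a₀ x).trans (by simp [P.toPrd.gam1 hx])

theorem rho1 (hx : x ∈ O) (b : ι) : nabE I G.F.e c.W a₀ (c.m.ρ b) x = 0 :=
  (A.conn.cc.comp a₀ b x).trans (by simp [P.toPrd.gam0 hx])

theorem xA_mem (x : M) (a : ι) : xA G.F c τ x a ∈ c.m.gS x :=
  Submodule.sum_mem _ fun _ _ => Submodule.smul_mem _ _ (Fg_mem _ _)

theorem xA0 (hx : x ∈ O) : xA G.F c τ x a₀ = 0 := by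
  have h := Fg_swap P.hG A.conn (x := x) (a₀, a₀)
  rw [Prod.swap_prod_mk, eq_neg_iff_add_eq_zero, ← two_smul ℝ] at h
  rw [P.toPrd.xA_eq c hx]
  exact (smul_eq_zero.1 h).resolve_left two_ne_zero

theorem xA_proj (hx : x ∈ O) (a : ι) : ∑ k, B.P a k x • xA G.F c τ x k = xA G.F c τ x a := by
  have h := fun k => Fg_swap P.hG A.conn (x := x) (k, a₀)
  simp only [Prod.swap_prod_mk] at h
  simp only [P.toPrd.xA_eq c hx, h, smul_neg, Finset.sum_neg_distrib, Fg_proj P.hG A.conn]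

/-- the Chern-Weil density on a product -/
theorem kd_eq (hx : x ∈ O) : ‖xA G.F c τ x‖ ^ 2 / 4 = 8 * Real.pi ^ 2 * c.m.kd B G.F c.W x +
    ⟪c.m.p2 B x (c.m.Fg G.F c.W x), oT G.F τ x (xA G.F c τ x)⟫_ℝ / 2 := by
  set Fg := c.m.Fg G.F c.W x with hF
  have sw : ∀ a b, Fg (a, b) = -Fg (b, a) := fun a b => Fg_swap P.hG A.conn (b, a)
  set X := ∑ b, ∑ k, ∑ l, B.o a₀ b k l x * ⟪Fg (a₀, b), Fg (k, l)⟫_ℝ with hX
  have h1 : ⟪c.m.p2 B x Fg, oT G.F τ x (xA G.F c τ x)⟫_ℝ = ‖xA G.F c τ x‖ ^ 2 / 2 + X / 4 := by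
    rw [P.toPrd.inner_oT hx, ← real_inner_self_eq_norm_sq, PiLp.inner_apply, hX, Finset.sum_div,
      Finset.sum_div, ← Finset.sum_add_distrib]
    refine Finset.sum_congr rfl fun b _ => ?_
    simp only [Md.p2, idx_apply, hF, pg_of_mem (Fg_mem _ _), Base.sd, div_eq_inv_mul, mul_smul,
      ← Finset.smul_sum, add_smul, Finset.sum_add_distrib, a2_Fg P.hG A.conn, P.toPrd.xA_eq c hx,
      real_inner_smul_right, inner_add_right, Base.st, inner_sum, Fintype.sum_prod_type,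
      smul_add, real_inner_comm (c.m.Fg G.F c.W x (a₀, b))]
    ring
  have h2 : ⟪Fg, idx (B.st x) (ContinuousLinearMap.id ℝ c.m.A) Fg⟫_ℝ = 2 * X := by
    have o5 := fun a b k l => o_five P.hB x a₀ a b k l
    simp only [P.BP hx, if_true, one_mul] at o5
    have e0 : ⟪Fg, idx (B.st x) (ContinuousLinearMap.id ℝ c.m.A) Fg⟫_ℝ =
        (∑ a, ∑ b, ∑ k, ∑ l, B.o a b k l x * ⟪Fg (a, b), Fg (k, l)⟫_ℝ) / 2 := by
      rw [PiLp.inner_apply]
      simp only [idx_apply, inner_sum, real_inner_smul_right, Base.st,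
        Fintype.sum_prod_type, Finset.sum_div, ContinuousLinearMap.id_apply]
      exact Finset.sum_congr rfl fun _ _ => Finset.sum_congr rfl fun _ _ =>
        Finset.sum_congr rfl fun _ _ => Finset.sum_congr rfl fun _ _ => by ring
    have e1 : ∑ a, ∑ k, ∑ l, B.o a a₀ k l x * ⟪Fg (a, a₀), Fg (k, l)⟫_ℝ = X := by
      simp only [hX, fun a => sw a a₀, fun a k l => P.hB.o12 a a₀ k l x, inner_neg_left, neg_mul_neg]
    have e2 : ∑ a, ∑ b, ∑ l, B.o a b a₀ l x * ⟪Fg (a, b), Fg (a₀, l)⟫_ℝ = X := by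
      rw [hX, Finset.sum_congr rfl fun a _ => Finset.sum_comm, Finset.sum_comm]
      simp only [fun a b l => o_pair P.hB a b a₀ l x, real_inner_comm (Fg (a₀, _))]
    have e3 : ∑ a, ∑ b, ∑ k, B.o a b k a₀ x * ⟪Fg (a, b), Fg (k, a₀)⟫_ℝ = X := by
      simp only [← e2, fun a => sw a a₀, fun a b k => P.hB.o34 a b k a₀ x, inner_neg_right,
        neg_mul_neg]
    rw [e0, Finset.sum_congr rfl fun a _ => Finset.sum_congr rfl fun b _ =>
      Finset.sum_congr rfl fun k _ => Finset.sum_congr rfl fun l _ => by rw [o5 a b k l]]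
    simp only [add_mul, Finset.sum_add_distrib, ite_mul, one_mul, zero_mul, Finset.sum_ite_eq',
      Finset.mem_univ, if_true, Finset.sum_ite_irrel, Finset.sum_const_zero, e1, e2, e3, ← hX]
    ring
  rw [h1, Md.kd, ← hF, h2]
  field_simp
  ring

theorem p_Phi (x : M) : c.m.p x (c.Φ x) = c.Φ x := by
  rw [← A.pos x, ← mul_apply_eq_comp, p_pp A.ok]

theorem p_nab (a : ι) {u : M → c.m.V} (hu : Sm I u) (x : M) :
    nab I G.F.e c.W a (fun y => c.m.p y (u y)) x = c.m.p x (nab I G.F.e c.W a u x) := by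
  rw [nab_app' a (A.ok.sp x) (hu x), show nabE I G.F.e c.W a c.m.p x = 0 from A.conn.cc.par a x]
  simp

theorem p_xP (hx : x ∈ O) : c.m.p x (xP G.F c τ x) = xP G.F c τ x := by
  rw [P.toPrd.xP_eq c hx, ← P.p_nab A a₀ A.sm]; simp only [P.p_Phi A]

theorem pp_xP (hx : x ∈ O) : c.m.pp B x (xP G.F c τ x) = xP G.F c τ x := by
  rw [P.toPrd.xP_eq c hx, ← pp_nab P.hB A.ok A.conn a₀ (A.sm x)]; simp only [A.pos]

theorem mc : Mp86.Mc I c.W := ⟨fun a x => A.conn.cc.sm a x, A.conn.sk⟩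

end PN

variable (G c a₀) in
/-- the Dirac operator of the cross-section -/
def dy (u : M → c.m.V) (x : M) : c.m.V := -∑ b, rb c.m x (a₀, b) (nab I G.F.e c.W b u x)

namespace PN
variable (P : PN B G τ a₀ O) (A : c.Adm B G)
include P A

theorem dy_eq (hx : x ∈ O) (u : M → c.m.V) : dy a₀ G c u x =
    -c.m.ρ a₀ x (dir I G.F.e c.m.ρ c.W u x) - c.m.p x (nab I G.F.e c.W a₀ u x) := by
  simp only [dy, rb_eq A.ok, dir, Finset.sum_add_distrib, add_apply, smul_apply, map_sum,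
    mul_apply_eq_comp]
  simp only [P.BP hx, ite_smul, one_smul, zero_smul, Finset.sum_ite_eq', Finset.mem_univ, if_true]
  abel

theorem dY_eq (hx : x ∈ O) : dY G.F c τ x = dy a₀ G c c.Φ x := by
  rw [P.dy_eq A hx, dY, P.toPrd.cT_eq c hx, ← P.toPrd.xP_eq c hx, P.p_xP A hx]

theorem sm_dy {u : M → c.m.V} (hu : Sm I u) : Sm I (dy a₀ G c u) :=
  (sm_sum _ fun b => (sm_rb A.ok _).clm_apply (sm_nab (P.mc A).sm b hu)).neg

theorem ts_dy {w : M → c.m.V} (hw : Ts I O w) : Ts I O (dy a₀ G c w) := by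
  refine hw.of_supp (P.sm_dy A hw.sm) (closure_minimal (fun x hx => by_contra fun h => hx ?_)
    (isClosed_tsupport _))
  simp [dy, nab, dv_eq_zero_of_notMem h, image_eq_zero_of_notMem_tsupport h]

theorem dy_smul {θ : M → ℝ} (hθ : Sm I θ) (hθ0 : ∀ a x, a ≠ a₀ → G.F.D a θ x = 0) {u : M → c.m.V}
    (hu : Sm I u) (x : M) : dy a₀ G c (fun y => θ y • u y) x = θ x • dy a₀ G c u x := by
  simp only [dy, smul_neg, Finset.smul_sum]
  congr 1
  refine Finset.sum_congr rfl fun b _ => ?_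
  rw [nab_smul b (hθ x) (hu x), map_add, map_smul, map_smul]
  by_cases hb : b = a₀
  · simp [hb, rb]
  · rw [← Pre.D_def, hθ0 b x hb]; simp

theorem nab_dy (hx : x ∈ O) {u : M → c.m.V} (hu : Sm I u) :
    nab I G.F.e c.W a₀ (dy a₀ G c u) x = dy a₀ G c (nab I G.F.e c.W a₀ u) x -
      ∑ b, rb c.m x (a₀, b) (curv I G.F.e G.F.c c.W a₀ b x (u x)) := by
  have hs := fun b => sm_nab (F := G.F) (P.mc A).sm b hu
  have h1 : ∀ b, nabE I G.F.e c.W a₀ (fun y => rb c.m y (a₀, b)) x = 0 := fun b => by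
    have r : ∀ a, SA I (c.m.ρ a) x := fun a => A.ok.sρ a x
    unfold rb
    rw [nabE_smul a₀ contMDiffAt_const (((r _).mul (r _)).sub ((r _).mul (r _))),
      nabE_sub a₀ ((r _).mul (r _)) ((r _).mul (r _)), nabE_mul a₀ (r _) (r _),
      nabE_mul a₀ (r _) (r _), P.rho1 A hx, P.rho1 A hx]
    simp
  have h2 : dy a₀ G c u = fun y => (-1 : ℝ) • ∑ b, rb c.m y (a₀, b) (nab I G.F.e c.W b u y) :=
    funext fun y => by simp [dy]
  have h3 := fun b => ((sm_rb A.ok (a₀, b)).clm_apply (hs b)) x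
  rw [h2, nab_smul a₀ contMDiffAt_const (SA.sum _ fun b _ => h3 b), nab_sum a₀ _ h3]
  simp only [fun b => nab_app' (e := G.F.e) (A := c.W) a₀ (sm_rb A.ok (a₀, b) x) (hs b x), h1, dy,
    nab_comm0 (P.mc A) (P.c1 x hx) hu, map_sub, Finset.sum_sub_distrib]
  simp

variable [I.Boundaryless]

theorem dy_symm {u w : M → c.m.V} (hu : Sm I u) (hw : Ts I O w) :
    ∫ x, ⟪dy a₀ G c u x, w x⟫_ℝ ∂G.F.μ = ∫ x, ⟪u x, dy a₀ G c w x⟫_ℝ ∂G.F.μ := by
  have w1 : Ts I O fun y => c.m.ρ a₀ y (w y) :=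
    hw.of_zero ((A.ok.sρ a₀).clm_apply hw.sm) fun x hx => by simp [hx]
  have w2 : Ts I O fun y => c.m.p y (w y) :=
    hw.of_zero (A.ok.sp.clm_apply hw.sm) fun x hx => by simp [hx]
  have cc : CC I G.F.e G.F.P G.F.Gam c.m.p c.m.ρ c.W := P.hG.P ▸ A.conn.cc
  have sd : ∀ {u : M → c.m.V}, Sm I u → Sm I (dir I G.F.e c.m.ρ c.W u) := fun h x =>
    cc.dir_sm (frm G.F) (h x)
  have h1 := integral_dir cc (lc_gam G.F) (riem_of_vol P.hG.vol) A.conn.sk A.ok.ρsk hu w1.sm w1.hc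
  have h2 := ibp0 (F := G.F) (P.mc A) P.dv hu w2
  have w3 : Ts I O (dir I G.F.e c.m.ρ c.W fun y => c.m.ρ a₀ y (w y)) :=
    w1.of_supp (sd w1.sm) (closure_minimal (fun x hx => by_contra fun h => hx (by
      simp [dir, nab, dv_eq_zero_of_notMem h, image_eq_zero_of_notMem_tsupport h]))
      (isClosed_tsupport _))
  have e1 : ∀ x, ⟪dy a₀ G c u x, w x⟫_ℝ = ⟪dir I G.F.e c.m.ρ c.W u x, c.m.ρ a₀ x (w x)⟫_ℝ -
      ⟪nab I G.F.e c.W a₀ u x, c.m.p x (w x)⟫_ℝ := fun x => by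
    by_cases hx : x ∈ O
    · rw [P.dy_eq A hx, inner_sub_left, inner_neg_left, A.ok.ρsk, A.ok.psym, neg_neg]
    · simp [hw.zero hx]
  simp only [e1]
  rw [integral_sub ((w1.inner (sd hu)).int _) ((w2.inner (sm_nab (P.mc A).sm a₀ hu)).int _), h1, h2,
    sub_neg_eq_add, ← integral_add ((w3.inner hu).int _) (((w2.nab (P.mc A).sm a₀).inner hu).int _)]
  congr 1; funext x
  rw [← inner_add_right]
  congr 1
  by_cases hx : x ∈ O
  · rw [P.dy_eq A hx, P.p_nab A a₀ hw.sm]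
    simp only [dir, fun b => nab_app' (e := G.F.e) (A := c.W) b (A.ok.sρ a₀ x) (hw.sm x),
      P.rho0 A hx, zero_apply, zero_add, ← mul_apply_eq_comp, fun b => (A.ok.cl x).swap a₀ b,
      sub_apply, neg_apply, smul_apply, Finset.sum_sub_distrib, map_sum, Finset.sum_neg_distrib]
    simp only [P.BP hx, mul_ite, ite_smul, mul_zero, zero_smul, Finset.sum_ite_eq',
      Finset.mem_univ, if_true]
    module
  · rw [w3.zero hx, (w2.nab (P.mc A).sm a₀).zero hx, (P.ts_dy A hw).zero hx, add_zero]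

/-- the Dirac term is a time derivative -/
theorem dirac_id {θ : M → ℝ} (hθ : Ts I O θ) (hθ0 : ∀ a x, a ≠ a₀ → G.F.D a θ x = 0) :
    ∫ x, θ x * (⟪c.m.mu B x (c.Φ x) (c.Φ x), oT G.F τ x (xA G.F c τ x)⟫_ℝ / 2 -
      ⟪dY G.F c τ x, xP G.F c τ x⟫_ℝ) ∂G.F.μ =
      (∫ x, G.F.D a₀ θ x * ⟪dY G.F c τ x, c.Φ x⟫_ℝ ∂G.F.μ) / 2 := by
  have s0 := sm_nab (F := G.F) (P.mc A).sm a₀ A.sm
  have s1 := P.sm_dy A A.sm
  have h1 := ibp0_fun (F := G.F) P.dv (hθ.mul (sm_inner s1 A.sm))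
  have h2 := P.dy_symm A s0 (hθ.smul A.sm)
  have i1 := ((hθ.smul A.sm).inner (P.sm_dy A s0)).int G.F
  have i2 := ((P.ts_dy A (hθ.smul A.sm)).inner s0).int G.F
  have i3 := (((hθ.mul (sm_inner s1 A.sm)).D (F := G.F) a₀)).int G.F
  have i4 := ((hθ.D (F := G.F) a₀).mul (sm_inner s1 A.sm)).int G.F
  have e : ∀ x, θ x * (⟪c.m.mu B x (c.Φ x) (c.Φ x), oT G.F τ x (xA G.F c τ x)⟫_ℝ / 2 -
      ⟪dY G.F c τ x, xP G.F c τ x⟫_ℝ) =
      (G.F.D a₀ θ x * ⟪dy a₀ G c c.Φ x, c.Φ x⟫_ℝ -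
        G.F.D a₀ (fun y => θ y * ⟪dy a₀ G c c.Φ y, c.Φ y⟫_ℝ) x +
        (⟪dy a₀ G c (nab I G.F.e c.W a₀ c.Φ) x, θ x • c.Φ x⟫_ℝ -
          ⟪nab I G.F.e c.W a₀ c.Φ x, dy a₀ G c (fun y => θ y • c.Φ y) x⟫_ℝ)) / 2 := fun x => by
    by_cases hx : x ∈ O
    · rw [Pre.D_def _ a₀ (fun y => θ y * _), dv_mul (hθ.sm x) (sm_inner s1 A.sm x),
        dv_inner a₀ (A.conn.sk a₀ x) (s1 x) (A.sm x), P.nab_dy A hx A.sm, P.dy_smul A hθ.sm hθ0 A.sm,
        P.dY_eq A hx, P.toPrd.xP_eq c hx, P.toPrd.inner_oT hx, Pre.D_def]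
      have : ∀ b, ⟪c.m.mu B x (c.Φ x) (c.Φ x) (a₀, b), xA G.F c τ x b⟫_ℝ =
          ⟪rb c.m x (a₀, b) (curv I G.F.e G.F.c c.W a₀ b x (c.Φ x)), c.Φ x⟫_ℝ := fun b => by
        rw [real_inner_comm, mu_apply P.hB A.ok, inner_q' (P.xA_mem A x b),
          P.curv0 A hx b (P.p_Phi A x), rp, mul_apply_eq_comp, A.pos, ← mul_apply_eq_comp,
          rb_comm fun a => (g_ρ (P.xA_mem A x b) a).symm, mul_apply_eq_comp]
      simp only [this, inner_sub_left, sum_inner, real_inner_smul_right,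
        real_inner_comm (dy a₀ G c c.Φ x)]
      ring
    · rw [hθ.zero hx, (hθ.D (F := G.F) a₀).zero hx, ((hθ.mul (sm_inner s1 A.sm)).D a₀).zero hx,
        (P.ts_dy A (hθ.smul A.sm)).zero hx]
      simp
  have e2 : ∀ x, G.F.D a₀ θ x * ⟪dY G.F c τ x, c.Φ x⟫_ℝ =
      G.F.D a₀ θ x * ⟪dy a₀ G c c.Φ x, c.Φ x⟫_ℝ := fun x => by
    by_cases hx : x ∈ O
    · rw [P.dY_eq A hx]
    · rw [(hθ.D (F := G.F) a₀).zero hx]; simp
  simp only [e, e2]
  rw [integral_div, integral_add (i4.sub' i3) (i1.sub' i2), integral_sub i4 i3, integral_sub i1 i2,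
    h1, h2]
  simp

end PN

/-- the pointwise energy identity -/
theorem en_pw (P : PN B G τ a₀ O) {σ : Pt M ι lam r n} (S : c.Sol B G σ) (hx : x ∈ O) :
    en G.F c τ x = 8 * Real.pi ^ 2 * c.m.kd B G.F c.W x +
      (⟪c.m.mu B x (c.Φ x) (c.Φ x), oT G.F τ x (xA G.F c τ x)⟫_ℝ / 2 -
        ⟪dY G.F c τ x, xP G.F c τ x⟫_ℝ) + wk G.F c τ σ x := by
  have h1 := S.C x
  have h2 := S.D x
  rw [Cfg.eC, sub_sub, sub_eq_zero] at h1
  rw [Cfg.eD, sub_eq_zero] at h2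
  rw [en, P.kd_eq S.toAdm hx, h1, dY, h2, wk, inner_add_left, inner_sub_left, inner_neg_left,
    real_inner_self_eq_norm_sq]
  ring

section sm
variable {F : Fr I M ι}

theorem sm_app {α' N : Type} [Fintype α'] [NormedAddCommGroup N] [InnerProductSpace ℝ N]
    {f : M → Fm α' N} (hf : Sm I f) (a : α') : Sm I fun x => f x a :=
  (PiLp.proj (𝕜 := ℝ) 2 (fun _ : α' => N) a).contMDiff.comp hf

theorem sm_oT {N : Type} [NormedAddCommGroup N] [InnerProductSpace ℝ N] (hτ : Sm I τ)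
    {α : M → Fm ι N} (hα : Sm I α) : Sm I fun x => oT F τ x (α x) :=
  sm_toLp fun s => (F.sm_D hτ s.1).smul (sm_app hα s.2)

end sm

namespace PN
variable (P : PN B G τ a₀ O) (A : c.Adm B G)
include P A

theorem sm_xA : Sm I (xA G.F c τ) := sm_toLp fun a => sm_sum _ fun k =>
  (G.F.sm_D P.sτ k).smul (sm_app (Mp86.sm_Fg P.hB P.hG A.ok A.conn) (k, a))

theorem sm_xP : Sm I (xP G.F c τ) := sm_sum _ fun k =>
  (G.F.sm_D P.sτ k).smul (sm_nab (P.mc A).sm k A.sm)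

theorem sm_en : Sm I (en G.F c τ) := by
  have : en G.F c τ = fun x => ⟪xA G.F c τ x, xA G.F c τ x⟫_ℝ * 4⁻¹ +
      ⟪xP G.F c τ x, xP G.F c τ x⟫_ℝ := funext fun x => by
    simp only [en, real_inner_self_eq_norm_sq, div_eq_mul_inv]
  rw [this]
  exact ((sm_inner (P.sm_xA A) (P.sm_xA A)).mul contMDiff_const).add
    (sm_inner (P.sm_xP A) (P.sm_xP A))

theorem sm_kd : Sm I (c.m.kd B G.F c.W) := by
  have h := Mp86.sm_Fg P.hB P.hG A.ok A.conn
  refine contMDiff_const.mul (sm_inner h ?_)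
  have : (fun x => idx (B.st x) (ContinuousLinearMap.id ℝ c.m.A) (c.m.Fg G.F c.W x)) = fun x =>
      WithLp.toLp 2 fun s => ∑ t, (B.o s.1 s.2 t.1 t.2 x * 2⁻¹) • c.m.Fg G.F c.W x t :=
    funext fun x => by ext1 s; simp [Base.st, div_eq_mul_inv]
  rw [this]
  exact sm_toLp fun s => sm_sum _ fun t => ((P.hB.so _ _ _ _).mul contMDiff_const).smul (sm_app h t)

theorem sm_dY : Sm I (dY G.F c τ) :=
  ((sm_sum _ fun a => (G.F.sm_D P.sτ a).smul (A.ok.sρ a)).clm_apply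
    fun x => A.conn.cc.dir_sm (gfrm P.hG) (A.sm x)).neg.sub (P.sm_xP A)

theorem ts_mu {θ : M → ℝ} (hθ : Ts I O θ) : Ts I O fun x => θ x *
    (⟪c.m.mu B x (c.Φ x) (c.Φ x), oT G.F τ x (xA G.F c τ x)⟫_ℝ / 2 -
      ⟪dY G.F c τ x, xP G.F c τ x⟫_ℝ) := by
  have s1 : Sm I fun x => ∑ s, ⟪opL (oT G.F τ x (xA G.F c τ x) s) (rp c.m B x s (c.Φ x)), c.Φ x⟫_ℝ :=
    sm_sum _ fun s => sm_inner ((opL.contMDiff.comp (sm_app (sm_oT P.sτ (P.sm_xA A)) s)).clm_apply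
      ((sm_rp P.hB A.ok s).clm_apply A.sm)) A.sm
  convert hθ.mul ((s1.mul (contMDiff_const (c := (2⁻¹ : ℝ)))).sub
    (sm_inner (P.sm_dY A) (P.sm_xP A))) using 4 with x
  rw [real_inner_comm, inner_mu P.hB A.ok, div_eq_mul_inv, Pi.mul_apply]
  simp only [oT, fun (s : ι × ι) (t : ℝ) =>
    pg_of_mem (Submodule.smul_mem _ t (P.xA_mem A x s.2))]

end PN

variable [I.Boundaryless] {θ : M → ℝ} {σ : Pt M ι lam r n}

theorem ts_wk (P : PN B G τ a₀ O) (S : c.Sol B G σ) (hθ : Ts I O θ) :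
    Ts I O fun x => θ x * wk G.F c τ σ x := by
  have h := ((hθ.mul (P.sm_en S.toAdm)).add (hθ.mul ((contMDiff_const (c := -(8 * Real.pi ^ 2))).mul
    (P.sm_kd S.toAdm)))).add ((P.ts_mu S.toAdm hθ).mul (contMDiff_const (c := -1)))
  convert h using 2 with x
  by_cases hx : x ∈ O
  · rw [en_pw P S hx, Pi.mul_apply]; ring
  · simp [hθ.zero hx]

/-- **local energy identity** -/
theorem en_id (P : PN B G τ a₀ O) (S : c.Sol B G σ) (hθ : Ts I O θ)
    (hθ0 : ∀ a x, a ≠ a₀ → G.F.D a θ x = 0) :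
    ∫ x, θ x * en G.F c τ x ∂G.F.μ = 8 * Real.pi ^ 2 * ∫ x, θ x * c.m.kd B G.F c.W x ∂G.F.μ +
      (∫ x, G.F.D a₀ θ x * ⟪dY G.F c τ x, c.Φ x⟫_ℝ ∂G.F.μ) / 2 +
      ∫ x, θ x * wk G.F c τ σ x ∂G.F.μ := by
  have i1 := ((hθ.mul (P.sm_kd S.toAdm)).int G.F).const_mul (8 * Real.pi ^ 2)
  have i2 := (P.ts_mu S.toAdm hθ).int G.F
  rw [← P.dirac_id S.toAdm hθ hθ0, ← integral_const_mul, ← integral_add i1 i2,
    ← integral_add (i1.fun_add i2) ((ts_wk P S hθ).int G.F)]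
  congr 1; funext x
  by_cases hx : x ∈ O
  · rw [en_pw P S hx]; ring
  · simp [hθ.zero hx]

end geo

end Crest.Agent.X212.Dgr80
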