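import Mathlib

/-!
# Row 212, DGR (helper80): the logistic window `b δ` and window integrals
-/

set_option autoImplicit false
set_option linter.unusedSectionVars false
noncomputable section
open scoped Topology ContDiff
open MeasureTheory Set Filter Real

namespace Crest.Agent.X212.Dgr80

/-- the logistic window, a probability density with `|b'| ≤ δ b` -/
def b (δ s : ℝ) : ℝ := δ * (sigmoid (δ * s) * (1 - sigmoid (δ * s)))

variable {δ : ℝ}

theorem b_pos (hδ : 0 < δ) (s : ℝ) : 0 < b δ s :=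
  mul_pos hδ (mul_pos (sigmoid_pos _) (sub_pos.2 (sigmoid_lt_one _)))

theorem b_le (hδ : 0 < δ) (s : ℝ) : b δ s ≤ δ := by
  have h1 := sigmoid_pos (δ * s)
  have h2 := sigmoid_lt_one (δ * s)
  have : sigmoid (δ * s) * (1 - sigmoid (δ * s)) ≤ 1 := by nlinarith
  simpa [b] using mul_le_mul_of_nonneg_left this hδ.le

theorem b_neg (δ s : ℝ) : b δ (-s) = b δ s := by
  simp only [b, mul_neg, sigmoid_neg]; ring

theorem hasDerivAt_sg (δ s : ℝ) : HasDerivAt (fun s => sigmoid (δ * s)) (b δ s) s := by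
  have h := (hasDerivAt_sigmoid (δ * s)).comp s ((hasDerivAt_id s).const_mul δ)
  exact h.congr_deriv (by simp only [b]; ring)

theorem contDiff_sg (δ : ℝ) : ContDiff ℝ ∞ fun s => sigmoid (δ * s) :=
  (contDiff_sigmoid.of_le le_top).comp (contDiff_const.mul contDiff_id)

theorem contDiff_b (δ : ℝ) : ContDiff ℝ ∞ (b δ) :=
  contDiff_const.mul ((contDiff_sg δ).mul (contDiff_const.sub (contDiff_sg δ)))

theorem continuous_b (δ : ℝ) : Continuous (b δ) := (contDiff_b δ).continuous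

theorem hasDerivAt_b (δ s : ℝ) :
    HasDerivAt (b δ) (δ * (1 - 2 * sigmoid (δ * s)) * b δ s) s := by
  have h := ((hasDerivAt_sg δ s).mul ((hasDerivAt_sg δ s).const_sub 1)).const_mul δ
  exact h.congr_deriv (by simp only [b]; ring)

theorem abs_deriv_b_le (hδ : 0 < δ) (s : ℝ) :
    |δ * (1 - 2 * sigmoid (δ * s)) * b δ s| ≤ δ * b δ s := by
  have h1 := sigmoid_pos (δ * s)
  have h2 := sigmoid_lt_one (δ * s)
  have h3 : |1 - 2 * sigmoid (δ * s)| ≤ 1 := abs_le.2 ⟨by linarith, by linarith⟩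
  rw [abs_mul, abs_mul, abs_of_pos hδ, abs_of_pos (b_pos hδ s)]
  exact mul_le_mul_of_nonneg_right (by nlinarith) (b_pos hδ s).le

/-- the polynomials `q` with `b^{(k)} = q(σ) b` -/
def bq (δ : ℝ) : ℕ → Polynomial ℝ
  | 0 => 1
  | k + 1 => Polynomial.C δ * ((bq δ k).derivative * (Polynomial.X * (1 - Polynomial.X)) +
      bq δ k * (1 - 2 * Polynomial.X))

/-- the `k`-th derivative of the window -/
def bd (δ : ℝ) (k : ℕ) (s : ℝ) : ℝ := (bq δ k).eval (sigmoid (δ * s)) * b δ s

theorem bd_zero (δ : ℝ) : bd δ 0 = b δ := funext fun s => by simp [bd, bq]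

theorem hasDerivAt_bd (δ : ℝ) (k : ℕ) (s : ℝ) : HasDerivAt (bd δ k) (bd δ (k + 1) s) s := by
  have h := (((bq δ k).hasDerivAt (sigmoid (δ * s))).comp s (hasDerivAt_sg δ s)).mul
    (hasDerivAt_b δ s)
  refine h.congr_deriv ?_
  simp only [bd, bq, Polynomial.eval_mul, Polynomial.eval_C, Polynomial.eval_add,
    Polynomial.eval_X, Polynomial.eval_sub, Polynomial.eval_one, Polynomial.eval_ofNat,
    Function.comp_apply, b]
  ring

theorem continuous_bd (δ : ℝ) (k : ℕ) : Continuous (bd δ k) :=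
  continuous_iff_continuousAt.2 fun s => (hasDerivAt_bd δ k s).continuousAt

theorem exists_bd_le (hδ : 0 < δ) (k : ℕ) : ∃ C, 0 ≤ C ∧ ∀ s, |bd δ k s| ≤ C * b δ s := by
  obtain ⟨C, hC⟩ := (isCompact_Icc (a := (0 : ℝ)) (b := 1)).exists_bound_of_continuousOn
    (f := fun x => (bq δ k).eval x) (bq δ k).continuous.continuousOn
  refine ⟨max C 0, le_max_right _ _, fun s => ?_⟩
  rw [bd, abs_mul, abs_of_pos (b_pos hδ s)]
  refine mul_le_mul_of_nonneg_right ?_ (b_pos hδ s).le
  exact (hC _ ⟨(sigmoid_pos _).le, (sigmoid_lt_one _).le⟩).trans (le_max_left _ _)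

/-- the constant in `|b^{(k)}| ≤ cb δ k * b` -/
def cb (δ : ℝ) (k : ℕ) : ℝ :=
  if h : 0 < δ then (exists_bd_le h k).choose else 0

theorem cb_nonneg (δ : ℝ) (k : ℕ) : 0 ≤ cb δ k := by
  unfold cb; split_ifs with h
  exacts [(exists_bd_le h k).choose_spec.1, le_rfl]

theorem abs_bd_le (hδ : 0 < δ) (k : ℕ) (s : ℝ) : |bd δ k s| ≤ cb δ k * b δ s := by
  rw [cb, dif_pos hδ]; exact (exists_bd_le hδ k).choose_spec.2 s

theorem abs_bd_one_le (hδ : 0 < δ) (s : ℝ) : |bd δ 1 s| ≤ δ * b δ s := by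
  have : bd δ 1 s = δ * (1 - 2 * sigmoid (δ * s)) * b δ s := by simp [bd, bq]
  rw [this]; exact abs_deriv_b_le hδ s

theorem tendsto_sg_atTop (hδ : 0 < δ) : Tendsto (fun s => sigmoid (δ * s)) atTop (𝓝 1) :=
  tendsto_sigmoid_atTop.comp (tendsto_id.const_mul_atTop hδ)

theorem tendsto_sg_atBot (hδ : 0 < δ) : Tendsto (fun s => sigmoid (δ * s)) atBot (𝓝 0) :=
  tendsto_sigmoid_atBot.comp (tendsto_id.const_mul_atBot hδ)

theorem tendsto_b_atTop (hδ : 0 < δ) : Tendsto (b δ) atTop (𝓝 0) := by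
  have h := tendsto_sg_atTop hδ
  have := (h.mul (h.const_sub 1)).const_mul δ
  rw [sub_self, mul_zero, mul_zero] at this
  exact this

theorem tendsto_b_atBot (hδ : 0 < δ) : Tendsto (b δ) atBot (𝓝 0) := by
  have h := tendsto_sg_atBot hδ
  have := (h.mul (h.const_sub 1)).const_mul δ
  rw [zero_mul, mul_zero] at this
  exact this

theorem integrableOn_b_Ioi (hδ : 0 < δ) (a : ℝ) : IntegrableOn (b δ) (Ioi a) :=
  integrableOn_Ioi_deriv_of_nonneg' (fun x _ => hasDerivAt_sg δ x)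
    (fun x _ => (b_pos hδ x).le) (tendsto_sg_atTop hδ)

theorem integrable_b (hδ : 0 < δ) : Integrable (b δ) := by
  have h1 := integrableOn_b_Ioi hδ 0
  have h2 : IntegrableOn (b δ) (Iic 0) := by
    have h3 := (Measure.measurePreserving_neg (volume : Measure ℝ)).integrableOn_comp_preimage
      (Homeomorph.neg ℝ).measurableEmbedding (f := b δ) (s := Ioi 0)
    have h4 := h3.2 h1
    rw [integrableOn_Iic_iff_integrableOn_Iio]
    have e : b δ ∘ Neg.neg = b δ := funext (b_neg δ)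
    rw [e] at h4
    simpa using h4
  have := h2.union h1
  rwa [Iic_union_Ioi, integrableOn_univ] at this

theorem integral_b (hδ : 0 < δ) : ∫ s, b δ s = 1 := by
  have := integral_of_hasDerivAt_of_tendsto (hasDerivAt_sg δ) (integrable_b hδ)
    (tendsto_sg_atBot hδ) (tendsto_sg_atTop hδ)
  simpa using this

theorem integrable_b_sub (hδ : 0 < δ) (s : ℝ) : Integrable fun t => b δ (s - t) :=
  (integrable_b hδ).comp_sub_left s

theorem integral_b_sub (hδ : 0 < δ) (s : ℝ) : ∫ t, b δ (s - t) = 1 := by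
  rw [integral_sub_left_eq_self (b δ) volume s, integral_b hδ]

/-- the window is log-Lipschitz -/
theorem b_add_le (hδ : 0 < δ) (s u : ℝ) : b δ (s + u) ≤ exp (δ * |u|) * b δ s := by
  have key : ∀ s u : ℝ, 0 ≤ u → b δ (s + u) ≤ exp (δ * u) * b δ s := by
    intro s u hu
    have hd : ∀ x, HasDerivAt (fun x => exp (-(δ * x)) * b δ x)
        (exp (-(δ * x)) * (-δ) * b δ x +
          exp (-(δ * x)) * (δ * (1 - 2 * sigmoid (δ * x)) * b δ x)) x := fun x => by
      have h1 : HasDerivAt (fun x => -(δ * x)) (-δ) x :=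
        ((hasDerivAt_id x).const_mul δ).neg.congr_deriv (by ring)
      exact h1.exp.mul (hasDerivAt_b δ x)
    have ha : Antitone fun x => exp (-(δ * x)) * b δ x := by
      refine antitone_of_deriv_nonpos (fun x => (hd x).differentiableAt) fun x => ?_
      rw [(hd x).deriv]
      have h1 := (abs_le.1 (abs_deriv_b_le hδ x)).2
      have h2 := exp_pos (-(δ * x))
      nlinarith
    have h := ha (show s ≤ s + u by linarith)
    simp only at h
    have e : exp (-(δ * s)) = exp (-(δ * (s + u))) * exp (δ * u) := by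
      rw [← exp_add]; congr 1; ring
    rw [e, mul_assoc] at h
    exact le_of_mul_le_mul_left h (exp_pos _)
  rcases le_total 0 u with hu | hu
  · rw [abs_of_nonneg hu]; exact key s u hu
  · rw [abs_of_nonpos hu, ← b_neg δ s, ← b_neg δ (s + u)]
    have := key (-s) (-u) (by linarith)
    rwa [← neg_add] at this

theorem b_zero (δ : ℝ) : b δ 0 = δ / 4 := by simp [b]; ring

theorem b_ge (hδ : 0 < δ) (s : ℝ) : δ / 4 * exp (-(δ * |s|)) ≤ b δ s := by
  have h := b_add_le hδ s (-s)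
  rw [add_neg_cancel, b_zero, abs_neg] at h
  rw [exp_neg, ← div_eq_mul_inv, div_le_iff₀ (exp_pos _), mul_comm]
  exact h

theorem b_le_exp (hδ : 0 < δ) (s : ℝ) : b δ s ≤ δ * exp (-(δ * |s|)) := by
  have key : ∀ s : ℝ, b δ s ≤ δ * exp (-(δ * s)) := fun s => by
    rw [b, ← sigmoid_neg, ← sigmoid_mul_rexp_neg]
    refine mul_le_mul_of_nonneg_left ?_ hδ.le
    have h1 := sigmoid_pos (δ * s)
    have h2 := sigmoid_lt_one (δ * s)
    have h3 := exp_pos (-(δ * s))
    have : sigmoid (δ * s) * sigmoid (δ * s) ≤ 1 := by nlinarith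
    nlinarith
  rcases le_total 0 s with hs | hs
  · rw [abs_of_nonneg hs]; exact key s
  · rw [abs_of_nonpos hs, ← b_neg]; exact key (-s)

section wn
variable {M : Type*} [MeasurableSpace M] {μ : Measure M} {τ : M → ℝ} {N : Type*}
  [NormedAddCommGroup N] [NormedSpace ℝ N]

variable (μ τ) in
/-- the window integral of `h` at time `t` (and its derivatives) -/
def wnd (δ : ℝ) (k : ℕ) (h : M → N) (t : ℝ) : N := ∫ x, ((-1) ^ k * bd δ k (τ x - t)) • h x ∂μ

variable (μ τ) in
/-- the window integral of `h` at time `t` -/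
def wn (δ : ℝ) (h : M → N) (t : ℝ) : N := ∫ x, b δ (τ x - t) • h x ∂μ

theorem wnd_zero (h : M → N) : wnd μ τ δ 0 h = wn μ τ δ h :=
  funext fun t => by simp [wnd, wn, bd_zero]

variable (μ τ) in
/-- window integrable -/
structure WI (δ : ℝ) (h : M → N) : Prop where
  τm : AEStronglyMeasurable τ μ
  m : AEStronglyMeasurable h μ
  i : Integrable (fun x => b δ (τ x) * ‖h x‖) μ

theorem WI.int_norm (hδ : 0 < δ) {h : M → N} (hh : WI μ τ δ h) (t : ℝ) :
    Integrable (fun x => b δ (τ x - t) * ‖h x‖) μ := by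
  refine (hh.i.const_mul (exp (δ * |t|))).mono'
    (((continuous_b δ).comp_aestronglyMeasurable (hh.τm.sub aestronglyMeasurable_const)).mul
      hh.m.norm) (.of_forall fun x => ?_)
  rw [Real.norm_of_nonneg (mul_nonneg (b_pos hδ _).le (norm_nonneg _)), ← mul_assoc]
  refine mul_le_mul_of_nonneg_right ?_ (norm_nonneg _)
  have := b_add_le hδ (τ x) (-t)
  rwa [abs_neg, ← sub_eq_add_neg] at this

theorem WI.norm {h : M → N} (hh : WI μ τ δ h) : WI μ τ δ fun x => ‖h x‖ :=
  ⟨hh.τm, hh.m.norm, by simpa using hh.i⟩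

theorem WI.meas {h : M → N} (hh : WI μ τ δ h) {g : ℝ → ℝ} (hg : Continuous g) (t : ℝ) :
    AEStronglyMeasurable (fun x => g (τ x - t) • h x) μ :=
  (hg.comp_aestronglyMeasurable (hh.τm.sub aestronglyMeasurable_const)).smul hh.m

/-- integrability against any kernel dominated by the window -/
theorem WI.int_ker (hδ : 0 < δ) {h : M → N} (hh : WI μ τ δ h) {g : ℝ → ℝ} (hg : Continuous g)
    {C : ℝ} (hC : ∀ s, |g s| ≤ C * b δ s) (t : ℝ) :
    Integrable (fun x => g (τ x - t) • h x) μ := by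
  refine ((hh.int_norm hδ t).const_mul C).mono' (hh.meas hg t) (.of_forall fun x => ?_)
  rw [norm_smul, ← mul_assoc]
  exact mul_le_mul_of_nonneg_right (hC _) (norm_nonneg _)

theorem WI.int (hδ : 0 < δ) {h : M → N} (hh : WI μ τ δ h) (t : ℝ) :
    Integrable (fun x => b δ (τ x - t) • h x) μ :=
  hh.int_ker hδ (continuous_b δ) (C := 1) (fun s => by rw [abs_of_pos (b_pos hδ s), one_mul]) t

theorem WI.of_integrable (hδ : 0 < δ) (hτ : AEStronglyMeasurable τ μ) {h : M → N}
    (hh : Integrable h μ) : WI μ τ δ h :=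
  ⟨hτ, hh.1, (hh.norm.const_mul δ).mono'
    (((continuous_b δ).comp_aestronglyMeasurable hτ).mul hh.1.norm) (.of_forall fun x => by
      rw [Real.norm_of_nonneg (mul_nonneg (b_pos hδ _).le (norm_nonneg _))]
      exact mul_le_mul_of_nonneg_right (b_le hδ _) (norm_nonneg _))⟩

theorem WI.mono {N' : Type*} [NormedAddCommGroup N'] (hδ : 0 < δ) {h : M → N} {g : M → N'}
    (hh : WI μ τ δ h) (hg : AEStronglyMeasurable g μ) {C : ℝ} (hC : ∀ x, ‖g x‖ ≤ C * ‖h x‖) :
    WI μ τ δ g :=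
  ⟨hh.τm, hg, (hh.i.const_mul C).mono'
    (((continuous_b δ).comp_aestronglyMeasurable hh.τm).mul hg.norm) (.of_forall fun x => by
      rw [Real.norm_of_nonneg (mul_nonneg (b_pos hδ _).le (norm_nonneg _)), mul_left_comm]
      exact mul_le_mul_of_nonneg_left (hC x) (b_pos hδ _).le)⟩

theorem abs_sg_bd (hδ : 0 < δ) (k : ℕ) (s : ℝ) : |(-1) ^ k * bd δ k s| ≤ cb δ k * b δ s := by
  rw [abs_mul, abs_pow, abs_neg, abs_one, one_pow, one_mul]; exact abs_bd_le hδ k s

theorem WI.norm_wnd_le (hδ : 0 < δ) {h : M → N} (hh : WI μ τ δ h) (k : ℕ) (t : ℝ) :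
    ‖wnd μ τ δ k h t‖ ≤ cb δ k * wn μ τ δ (fun x => ‖h x‖) t := by
  rw [wn, ← integral_const_mul]
  refine norm_integral_le_of_norm_le ((hh.norm.int hδ t).const_mul _) (.of_forall fun x => ?_)
  rw [norm_smul, smul_eq_mul, ← mul_assoc]
  exact mul_le_mul_of_nonneg_right (abs_sg_bd hδ k _) (norm_nonneg _)

theorem WI.norm_wn_le (hδ : 0 < δ) {h : M → N} (hh : WI μ τ δ h) (t : ℝ) :
    ‖wn μ τ δ h t‖ ≤ wn μ τ δ (fun x => ‖h x‖) t := by
  refine norm_integral_le_of_norm_le (hh.norm.int hδ t) (.of_forall fun x => ?_)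
  rw [norm_smul, smul_eq_mul, Real.norm_of_nonneg (b_pos hδ _).le]

theorem WI.hasDerivAt_wnd [CompleteSpace N] (hδ : 0 < δ) {h : M → N} (hh : WI μ τ δ h) (k : ℕ)
    (t : ℝ) : HasDerivAt (wnd μ τ δ k h) (wnd μ τ δ (k + 1) h t) t := by
  have hc : ∀ k : ℕ, Continuous fun s => (-1) ^ k * bd δ k s := fun k =>
    continuous_const.mul (continuous_bd δ k)
  refine (hasDerivAt_integral_of_dominated_loc_of_deriv_le (s := Metric.ball t 1)
    (F' := fun t x => ((-1) ^ (k + 1) * bd δ (k + 1) (τ x - t)) • h x)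
    (bound := fun x => cb δ (k + 1) * exp δ * (b δ (τ x - t) * ‖h x‖))
    (Metric.ball_mem_nhds t one_pos) (.of_forall fun t => hh.meas (hc k) t)
    (hh.int_ker hδ (hc k) (abs_sg_bd hδ k) t) (hh.meas (hc (k + 1)) t)
    (.of_forall fun x t' ht' => ?_) ((hh.int_norm hδ t).const_mul _)
    (.of_forall fun x t' _ => ?_)).2
  · rw [norm_smul, ← mul_assoc]
    refine mul_le_mul_of_nonneg_right ((abs_sg_bd hδ _ _).trans ?_) (norm_nonneg _)
    rw [mul_assoc]
    refine mul_le_mul_of_nonneg_left ?_ (cb_nonneg _ _)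
    have h1 := b_add_le hδ (τ x - t) (t - t')
    rw [sub_add_sub_cancel] at h1
    refine h1.trans (mul_le_mul_of_nonneg_right (exp_le_exp.2 ?_) (b_pos hδ _).le)
    have : |t - t'| ≤ 1 := by
      rw [abs_sub_comm]; exact (mem_ball_iff_norm.1 ht').le
    nlinarith
  · have h1 := ((hasDerivAt_bd δ k (τ x - t')).comp t'
      ((hasDerivAt_id t').const_sub (τ x))).const_mul ((-1) ^ k)
    exact (h1.smul_const (h x)).congr_deriv (by congr 1; ring)

theorem WI.hasDerivAt_wn [CompleteSpace N] (hδ : 0 < δ) {h : M → N} (hh : WI μ τ δ h) (t : ℝ) :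
    HasDerivAt (wn μ τ δ h) (wnd μ τ δ 1 h t) t := by
  rw [← wnd_zero]; exact hh.hasDerivAt_wnd hδ 0 t

theorem WI.iteratedDeriv_wn [CompleteSpace N] (hδ : 0 < δ) {h : M → N} (hh : WI μ τ δ h)
    (k : ℕ) : iteratedDeriv k (wn μ τ δ h) = wnd μ τ δ k h := by
  induction k with
  | zero => rw [iteratedDeriv_zero, wnd_zero]
  | succ k ih =>
    rw [iteratedDeriv_succ, ih]
    exact funext fun t => (hh.hasDerivAt_wnd hδ k t).deriv

theorem WI.contDiff_wnd [CompleteSpace N] (hδ : 0 < δ) {h : M → N} (hh : WI μ τ δ h) (k : ℕ) :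
    ContDiff ℝ ∞ (wnd μ τ δ k h) := by
  have key : ∀ n k : ℕ, ContDiff ℝ n (wnd μ τ δ k h) := by
    intro n
    induction n with
    | zero => exact fun k => contDiff_zero.2 (continuous_iff_continuousAt.2 fun t =>
        (hh.hasDerivAt_wnd hδ k t).continuousAt)
    | succ n ih =>
      intro k
      rw [Nat.cast_succ, contDiff_succ_iff_deriv]
      refine ⟨fun t => (hh.hasDerivAt_wnd hδ k t).differentiableAt, by simp, ?_⟩
      rw [funext fun t => (hh.hasDerivAt_wnd hδ k t).deriv]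
      exact ih (k + 1)
  exact contDiff_infty.2 fun n => key n k

theorem WI.contDiff_wn [CompleteSpace N] (hδ : 0 < δ) {h : M → N} (hh : WI μ τ δ h) :
    ContDiff ℝ ∞ (wn μ τ δ h) := by
  rw [← wnd_zero]; exact hh.contDiff_wnd hδ 0

theorem wn_nonneg (hδ : 0 < δ) {h : M → ℝ} (h0 : ∀ x, 0 ≤ h x) (t : ℝ) : 0 ≤ wn μ τ δ h t :=
  integral_nonneg fun x => mul_nonneg (b_pos hδ _).le (h0 x)

theorem WI.wn_mono (hδ : 0 < δ) {h g : M → ℝ} (hh : WI μ τ δ h) (hg : WI μ τ δ g)
    (hle : ∀ x, h x ≤ g x) (t : ℝ) : wn μ τ δ h t ≤ wn μ τ δ g t :=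
  integral_mono (hh.int hδ t) (hg.int hδ t) fun x =>
    mul_le_mul_of_nonneg_left (hle x) (b_pos hδ _).le

theorem WI.wn_add_le (hδ : 0 < δ) {h : M → ℝ} (hh : WI μ τ δ h) (h0 : ∀ x, 0 ≤ h x) (t u : ℝ) :
    wn μ τ δ h (t + u) ≤ exp (δ * |u|) * wn μ τ δ h t := by
  rw [wn, wn, ← integral_const_mul]
  refine integral_mono (hh.int hδ _) ((hh.int hδ t).const_mul _) fun x => ?_
  simp only [smul_eq_mul]
  rw [← mul_assoc]
  refine mul_le_mul_of_nonneg_right ?_ (h0 x)
  have := b_add_le hδ (τ x - t) (-u)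
  rwa [abs_neg, ← sub_eq_add_neg, sub_sub] at this

/-- a window integral of a nonnegative function vanishes only if the function does -/
theorem WI.eq_zero_of_wn (hδ : 0 < δ) {h : M → ℝ} (hh : WI μ τ δ h) (h0 : ∀ x, 0 ≤ h x) {t : ℝ}
    (ht : wn μ τ δ h t = 0) : h =ᵐ[μ] 0 := by
  have := (integral_eq_zero_iff_of_nonneg (fun x => mul_nonneg (b_pos hδ _).le (h0 x))
    (hh.int hδ t)).1 ht
  filter_upwards [this] with x hx
  exact (mul_eq_zero.1 hx).resolve_left (b_pos hδ _).ne'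

theorem tendsto_wn (hδ : 0 < δ) (hτ : AEStronglyMeasurable τ μ) {h : M → N} (hh : Integrable h μ)
    {l : Filter ℝ} [l.IsCountablyGenerated] (hl : ∀ s, Tendsto (fun t => b δ (s - t)) l (𝓝 0)) :
    Tendsto (wn μ τ δ h) l (𝓝 0) := by
  have hw := WI.of_integrable hδ hτ hh
  have := tendsto_integral_filter_of_dominated_convergence (μ := μ) (l := l)
    (F := fun t x => b δ (τ x - t) • h x) (f := fun _ => 0) (fun x => δ * ‖h x‖)
    (.of_forall fun t => hw.meas (continuous_b δ) t)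
    (.of_forall fun t => .of_forall fun x => by
      rw [norm_smul, Real.norm_of_nonneg (b_pos hδ _).le]
      exact mul_le_mul_of_nonneg_right (b_le hδ _) (norm_nonneg _))
    (hh.norm.const_mul δ) (.of_forall fun x => by simpa using (hl (τ x)).smul_const (h x))
  rw [integral_zero] at this
  exact this

theorem tendsto_wn_atTop (hδ : 0 < δ) (hτ : AEStronglyMeasurable τ μ) {h : M → N}
    (hh : Integrable h μ) : Tendsto (wn μ τ δ h) atTop (𝓝 0) :=
  tendsto_wn hδ hτ hh fun s => (tendsto_b_atBot hδ).comp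
    (tendsto_atBot_add_const_left _ s tendsto_neg_atTop_atBot)

theorem tendsto_wn_atBot (hδ : 0 < δ) (hτ : AEStronglyMeasurable τ μ) {h : M → N}
    (hh : Integrable h μ) : Tendsto (wn μ τ δ h) atBot (𝓝 0) :=
  tendsto_wn hδ hτ hh fun s => (tendsto_b_atTop hδ).comp
    (tendsto_atTop_add_const_left _ s tendsto_neg_atBot_atTop)

theorem integrable_wn_prod [SFinite μ] (hδ : 0 < δ) (hτ : AEStronglyMeasurable τ μ) {h : M → N}
    (hh : Integrable h μ) {c : ℝ → ℝ} (hc : AEStronglyMeasurable c volume) {C : ℝ}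
    (hC : ∀ t, |c t| ≤ C) :
    Integrable (fun z : M × ℝ => (c z.2 * b δ (τ z.1 - z.2)) • h z.1) (μ.prod volume) := by
  have hm : AEStronglyMeasurable (fun z : M × ℝ => (c z.2 * b δ (τ z.1 - z.2)) • h z.1)
      (μ.prod volume) :=
    (hc.comp_snd.mul ((continuous_b δ).comp_aestronglyMeasurable
      (hτ.comp_fst.sub measurable_snd.aestronglyMeasurable))).smul hh.1.comp_fst
  have hi : ∀ s, Integrable fun t => c t * b δ (s - t) := fun s =>
    (integrable_b_sub hδ s).bdd_mul hc (.of_forall hC)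
  rw [integrable_prod_iff hm]
  refine ⟨.of_forall fun x => (hi (τ x)).smul_const (h x), ?_⟩
  refine (hh.norm.const_mul C).mono' hm.norm.integral_prod_right' (.of_forall fun x => ?_)
  rw [Real.norm_of_nonneg (integral_nonneg fun _ => norm_nonneg _)]
  calc ∫ t, ‖(c t * b δ (τ x - t)) • h x‖ ≤ ∫ t, C * ‖h x‖ * b δ (τ x - t) := by
        refine integral_mono ((hi (τ x)).smul_const _).norm
          ((integrable_b_sub hδ _).const_mul _) fun t => ?_
        simp only
        rw [norm_smul, norm_mul, Real.norm_of_nonneg (b_pos hδ _).le, mul_right_comm]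
        refine mul_le_mul_of_nonneg_right ?_ (b_pos hδ _).le
        exact mul_le_mul_of_nonneg_right (hC t) (norm_nonneg _)
    _ = C * ‖h x‖ := by rw [integral_const_mul, integral_b_sub hδ, mul_one]

/-- convolution of a function of time with the window -/
def cv (δ : ℝ) (c : ℝ → ℝ) (s : ℝ) : ℝ := ∫ t, c t * b δ (s - t)

/-- Fubini: `∫ c(t) wn h t dt = ∫ (b * c)(τ x) h x` -/
theorem integral_mul_wn [SFinite μ] [CompleteSpace N] (hδ : 0 < δ)
    (hτ : AEStronglyMeasurable τ μ) {h : M → N} (hh : Integrable h μ) {c : ℝ → ℝ}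
    (hc : AEStronglyMeasurable c volume) {C : ℝ} (hC : ∀ t, |c t| ≤ C) :
    Integrable (fun t => c t • wn μ τ δ h t) ∧
      ∫ t, c t • wn μ τ δ h t = ∫ x, cv δ c (τ x) • h x ∂μ := by
  have hi := integrable_wn_prod hδ hτ hh hc hC
  have e : ∀ t, c t • wn μ τ δ h t = ∫ x, (c t * b δ (τ x - t)) • h x ∂μ := fun t => by
    rw [wn, ← integral_smul]; simp only [mul_smul]
  simp only [e]
  refine ⟨hi.integral_prod_right, ?_⟩
  rw [← integral_integral_swap (f := fun x t => (c t * b δ (τ x - t)) • h x) hi]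
  simp only [integral_smul_const, cv]

theorem cv_one (hδ : 0 < δ) (s : ℝ) : cv δ (fun _ => 1) s = 1 := by
  simp only [cv, one_mul, integral_b_sub hδ]

theorem integral_wn [SFinite μ] [CompleteSpace N] (hδ : 0 < δ) (hτ : AEStronglyMeasurable τ μ)
    {h : M → N} (hh : Integrable h μ) :
    Integrable (wn μ τ δ h) ∧ ∫ t, wn μ τ δ h t = ∫ x, h x ∂μ := by
  have := integral_mul_wn hδ hτ hh (c := fun _ => 1) aestronglyMeasurable_const (C := 1)
    (fun _ => by simp)
  simpa only [one_smul, cv_one hδ] using this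

end wn

theorem cv_eq_wn (c : ℝ → ℝ) : cv δ c = wn volume id δ c := funext fun s => by
  simp only [cv, wn, id, smul_eq_mul]
  congr 1; funext t; rw [← b_neg, neg_sub, mul_comm]

theorem wi_of_bdd (hδ : 0 < δ) {c : ℝ → ℝ} (hc : AEStronglyMeasurable c volume) {C : ℝ}
    (hC : ∀ t, |c t| ≤ C) : WI volume id δ c :=
  ⟨aestronglyMeasurable_id, hc, (integrable_b hδ).mul_bdd hc.norm (c := C)
    (.of_forall fun t => by simpa using hC t)⟩

theorem wn_abs_le (hδ : 0 < δ) {c : ℝ → ℝ} (hc : AEStronglyMeasurable c volume) {C : ℝ}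
    (hC : ∀ t, |c t| ≤ C) (s : ℝ) : wn volume id δ (fun t => ‖c t‖) s ≤ C := by
  have h1 := wi_of_bdd hδ (c := fun _ => C) aestronglyMeasurable_const (C := |C|) fun _ => le_rfl
  refine ((wi_of_bdd hδ hc hC).norm.wn_mono hδ h1 hC s).trans_eq ?_
  rw [← cv_eq_wn, cv, integral_const_mul, integral_b_sub hδ, mul_one]

/-- all derivatives of a convolution are bounded by the sup norm -/
theorem cv_bounds (hδ : 0 < δ) {c : ℝ → ℝ} (hc : AEStronglyMeasurable c volume) {C : ℝ}
    (hC : ∀ t, |c t| ≤ C) : ContDiff ℝ ∞ (cv δ c) ∧ (∀ s, |cv δ c s| ≤ C) ∧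
      ∀ k s, |iteratedDeriv k (cv δ c) s| ≤ cb δ k * C := by
  have hw := wi_of_bdd hδ hc hC
  rw [cv_eq_wn]
  refine ⟨hw.contDiff_wn hδ, fun s => (hw.norm_wn_le hδ s).trans (wn_abs_le hδ hc hC s),
    fun k s => ?_⟩
  rw [hw.iteratedDeriv_wn hδ]
  exact (hw.norm_wnd_le hδ k s).trans
    (mul_le_mul_of_nonneg_left (wn_abs_le hδ hc hC s) (cb_nonneg _ _))

/-- a nonzero function tending to zero at `+∞` has no period: its translates separate times -/
theorem eq_of_translate {g : ℝ → ℝ} (hg : Continuous g) (h0 : Tendsto g atTop (𝓝 0))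
    {t₀ : ℝ} (hne : g t₀ ≠ 0) {t t' : ℝ} (h : ∀ s : ℚ, g (t + s) = g (t' + s)) : t = t' := by
  have hall : ∀ s : ℝ, g (t + s) = g (t' + s) := fun s => congrFun
    (Rat.denseRange_cast.equalizer (hg.comp (continuous_const.add continuous_id))
      (hg.comp (continuous_const.add continuous_id)) (funext h)) s
  have key : ∀ p : ℝ, 0 < p → Function.Periodic g p → False := fun p hp hper => by
    have h1 : Tendsto (fun n : ℕ => t₀ + n * p) atTop atTop :=
      tendsto_atTop_add_const_left _ _ (tendsto_natCast_atTop_atTop.atTop_mul_const hp)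
    have h2 := h0.comp h1
    have h3 : (g ∘ fun n : ℕ => t₀ + n * p) = fun _ => g t₀ := funext fun n => hper.nat_mul n t₀
    rw [h3] at h2
    exact hne (tendsto_nhds_unique tendsto_const_nhds h2)
  have hper : Function.Periodic g (t' - t) := fun x => by
    have := hall (x - t)
    rw [add_sub_cancel] at this
    rw [this]; congr 1; ring
  rcases lt_trichotomy t t' with hlt | heq | hgt
  · exact (key _ (sub_pos.2 hlt) hper).elim
  · exact heq
  · exact (key _ (sub_pos.2 hgt) (by simpa using hper.neg)).elim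

end Crest.Agent.X212.Dgr80
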