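import Crest.Agent.X212.An.Gauge
import Crest.Agent.X212.Dgr80.Win

/-!
# Row 212, DGR (helper80): the neck terms `q1` (delay gradient) and `q2`

The metric on tangent vectors `(α, φ)` is `¼ |α|² + |φ|²`.  On a product neck the equation with the
perturbation `q1` reads `ẋ + grad L + grad 𝔉 = 0`, `𝔉 = ∫ cut(t) φ(I(t)) dt`.
-/

set_option autoImplicit false
set_option linter.unusedSectionVars false
noncomputable section
open scoped Manifold ContDiff Topology InnerProductSpace
open MeasureTheory Set Function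

namespace Crest.Agent.X212.Dgr80
open An
open Wz78 (nab curv dir lap)
open Wrd81 (wd)

variable {E : Type} [NormedAddCommGroup E] [NormedSpace ℝ E] [FiniteDimensional ℝ E]
  [MeasurableSpace E] [BorelSpace E]
  {HM : Type} [TopologicalSpace HM] {I : ModelWithCorners ℝ E HM}
  {M : Type} [TopologicalSpace M] [ChartedSpace HM M] [IsManifold I ∞ M]
  [MeasurableSpace M] {ι : Type} [Fintype ι] {lam : Type} [Fintype lam]

/-! ### the engine: words in one bundle and their adjoint differentials -/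

/-- semantic letters: a field of endomorphisms or the resolvent -/
inductive SL (M V : Type) [NormedAddCommGroup V] [NormedSpace ℝ V]
  | op (T : M → CL V V)
  | G

section engine
variable {V U : Type} [NormedAddCommGroup V] [InnerProductSpace ℝ V] [CompleteSpace V]
  [NormedAddCommGroup U] [InnerProductSpace ℝ U] [CompleteSpace U]
  (F : Fr I M ι) (A : ι → M → CL V V) (r : CL U (CL V V))

/-- action of a letter -/
def sl : SL M V → (M → V) → M → V
  | .op T, u => fun x => T x (u x)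
  | .G, u => F.res A u

/-- action of the transposed letter -/
def slT : SL M V → (M → V) → M → V
  | .op T, l => fun x => ContinuousLinearMap.adjoint (T x) (l x)
  | .G, l => F.res A l

/-- the test section transported to the seed -/
def bk : List (SL M V) → (M → V) → M → V
  | [], l => l
  | t :: w, l => bk w (slT F A t l)

/-- `⟪tp r v w, ξ⟫ = ⟪w, r ξ v⟫` -/
def tp (v w : V) : U := ContinuousLinearMap.adjoint (r.flip v) w

/-- the current: `⟪cur v l, α⟫ = ∑ ⟪r αₐ v, ∇ₐ l⟫ + ⟪∇ₐ v, r αₐ l⟫`, the variation of `⟪∇*∇ v, l⟫`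
under `A ↦ A + r α` -/
def cur (v l : M → V) (x : M) : Fm ι U := WithLp.toLp 2 fun a =>
  tp r (v x) (nab I F.e A a l x) + tp r (l x) (nab I F.e A a v x)

/-- the gradient of `∫ ⟪w s, l⟫` with respect to the connection, the seed `s` being fixed -/
def gc (s : M → V) : List (SL M V) → (M → V) → M → Fm ι U
  | [], _ => 0
  | .op T :: w, l => gc s w (slT F A (.op T) l)
  | .G :: w, l => fun x =>
      gc s w (F.res A l) x - cur F A r (F.res A (wd (sl F A) s w)) (F.res A l) x

end engine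

/-! ### densities with gradients -/

variable (M ι lam) in
/-- a density `h` and the `L²` gradient `(gA f, gP f)` of `∫ f h` (not yet projected to `T₀ ⊗ g`
and `V⁺`) -/
structure Den (r : ℕ) where
  h : Cfg M ι lam r → M → ℝ
  gA : (c : Cfg M ι lam r) → (M → ℝ) → M → Fm ι c.m.A
  gP : (c : Cfg M ι lam r) → (M → ℝ) → M → c.m.V

variable (M lam) in
/-- symmetric pairings: `1`, `j s`, `J j s` -/
inductive Pk
  | one
  | re (s : M → Eu lam)
  | im (s : M → Eu lam)

section sem
variable {r n : ℕ} (F : Fr I M ι) (c : Cfg M ι lam r)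

/-- the symmetric endomorphism of a pairing -/
def pk : Pk M lam → M → En (Fin c.m.N)
  | .one => fun _ => 1
  | .re s => fun x => c.m.j x (s x)
  | .im s => fun x => c.m.J * c.m.j x (s x)

/-- the letters of spinor words -/
def ltS : Lt M → SL M c.m.V
  | .mul f => .op fun x => f x • (1 : En (Fin c.m.N))
  | .cl g => .op fun x => ∑ a, F.D a g x • c.m.ρ a x
  | .im => .op fun _ => c.m.J
  | .G => .G

/-- the letters of adjoint words -/
def laS : La M → SL M c.m.A
  | .mul f => .op fun x => f x • (1 : En (Fin c.m.N × Fin c.m.N))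
  | .G => .G

theorem adc_apply {κ : Type} [Fintype κ] [DecidableEq κ] (A : En κ) (ζ : HS κ) :
    adc A ζ = hsL (A * opL ζ - opL ζ * A) := rfl

/-- the adjoint representation -/
def adR (κ : Type) [Fintype κ] [DecidableEq κ] : CL (HS κ) (En (κ × κ)) :=
  LinearMap.toContinuousLinearMap
    { toFun := fun ξ => adc (opL ξ)
      map_add' := fun ξ η => ContinuousLinearMap.ext fun ζ => by
        rw [adc_apply, add_apply, adc_apply, adc_apply, ← map_add, map_add opL,
          add_mul, mul_add]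
        congr 1; abel
      map_smul' := fun t ξ => ContinuousLinearMap.ext fun ζ => by
        rw [adc_apply, RingHom.id_apply, smul_apply, adc_apply, ← map_smul,
          map_smul opL, smul_mul_assoc, mul_smul_comm, smul_sub] }

/-- the bounded seed `Φ / √(1 + |Φ|²)` -/
def nP : M → c.m.V := fun x => (√(1 + ‖c.Φ x‖ ^ 2))⁻¹ • c.Φ x

/-- the (symmetric) differential of `Φ ↦ Φ / √(1 + |Φ|²)` -/
def dn (l : M → c.m.V) : M → c.m.V := fun x => (√(1 + ‖c.Φ x‖ ^ 2))⁻¹ • l x -
  ((√(1 + ‖c.Φ x‖ ^ 2))⁻¹ ^ 3 * ⟪c.Φ x, l x⟫_ℝ) • c.Φ x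

/-- spinor words on the bounded seed -/
def nw (u : SW M) : M → c.m.V := wd (c.lt F) (nP c) u

/-- gradient of `∫ ⟪nw u, l⟫`: connection part -/
def swA (u : SW M) (l : M → c.m.V) : M → Fm ι c.m.A := gc F c.W opL (nP c) (u.map (ltS F c)) l

/-- gradient of `∫ ⟪nw u, l⟫`: spinor part -/
def swP (u : SW M) (l : M → c.m.V) : M → c.m.V := dn c (bk F c.W (u.map (ltS F c)) l)

/-- covariant derivative along the gradient of `τ` -/
def nt {V : Type} [NormedAddCommGroup V] [NormedSpace ℝ V] (A : ι → M → CL V V) (τ : M → ℝ)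
    (u : M → V) (x : M) : V := ∑ a, F.D a τ x • nab I F.e A a u x

/-- `ẋ`, connection part: `ι_{∇τ} F` -/
def xA (τ : M → ℝ) (x : M) : Fm ι c.m.A :=
  WithLp.toLp 2 fun a => ∑ k, F.D k τ x • c.m.Fg F c.W x (k, a)

/-- `ẋ`, spinor part -/
def xP (τ : M → ℝ) : M → c.m.V := nt F c.W τ c.Φ

/-- the energy density `¼ |ι F|² + |∇ₜ Φ|²` -/
def en (τ : M → ℝ) (x : M) : ℝ := ‖xA F c τ x‖ ^ 2 / 4 + ‖xP F c τ x‖ ^ 2

end sem

section den
variable {r : ℕ} (F : Fr I M ι)

/-- the density `⟪T u, v⟫` of two spinor words -/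
def Den.sw (T : Pk M lam) (u v : SW M) : Den M ι lam r where
  h c x := ⟪pk c T x (nw F c u x), nw F c v x⟫_ℝ
  gA c f x := swA F c u (fun y => f y • pk c T y (nw F c v y)) x +
    swA F c v (fun y => f y • pk c T y (nw F c u y)) x
  gP c f x := swP F c u (fun y => f y • pk c T y (nw F c v y)) x +
    swP F c v (fun y => f y • pk c T y (nw F c u y)) x

variable (M ι lam) in
/-- a seed of adjoint words with the gradient `(sA l, sP l)` of `∫ ⟪s, l⟫` -/
structure Sed (r : ℕ) where
  s : (c : Cfg M ι lam r) → M → c.m.A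
  sA : (c : Cfg M ι lam r) → (M → c.m.A) → M → Fm ι c.m.A
  sP : (c : Cfg M ι lam r) → (M → c.m.A) → M → c.m.V

/-- adjoint words on a seed are seeds -/
def Sed.wd (S : Sed M ι lam r) (w : List (La M)) : Sed M ι lam r where
  s c := Wrd81.wd (c.la F) (S.s c) w
  sA c l x := gc F (c.m.adW c.W) (adR (Fin c.m.N)) (S.s c) (w.map (laS c)) l x +
    S.sA c (bk F (c.m.adW c.W) (w.map (laS c)) l) x
  sP c l := S.sP c (bk F (c.m.adW c.W) (w.map (laS c)) l)

/-- the density `⟪s, s'⟫` of two seeds -/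
def Den.sed (S S' : Sed M ι lam r) : Den M ι lam r where
  h c x := ⟪S.s c x, S'.s c x⟫_ℝ
  gA c f x := S.sA c (fun y => f y • S'.s c y) x + S'.sA c (fun y => f y • S.s c y) x
  gP c f x := S.sP c (fun y => f y • S'.s c y) x + S'.sP c (fun y => f y • S.s c y) x

end den

/-! ### the neck terms -/

variable (M ι lam) in
/-- data of the delay gradient: time `τ`, cut-off, densities with their windows, function `φ` -/
structure DG (r : ℕ) (J : Type) where
  τ : M → ℝ
  cut : ℝ → ℝ
  d : J → Den M ι lam r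
  δ : J → ℝ
  φ : (J → ℝ) → ℝ

namespace DG
variable {r n : ℕ} {J : Type} [Fintype J] [DecidableEq J] (N : DG M ι lam r J) (B : Base M ι lam)
  (F : Fr I M ι) (c : Cfg M ι lam r)

/-- the window invariants -/
def Iv (t : ℝ) : J → ℝ := fun j => wn F.μ N.τ (N.δ j) ((N.d j).h c) t

def co (j : J) (t : ℝ) : ℝ := N.cut t * fderiv ℝ N.φ (N.Iv F c t) (Pi.single j 1)

/-- the coefficient functions of time -/
def β (j : J) : ℝ → ℝ := cv (N.δ j) (N.co F c j)

/-- the gradient of `𝔉`, connection part -/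
def gA (x : M) : Fm ι c.m.A := ∑ j, (N.d j).gA c (fun y => N.β F c j (N.τ y)) x

/-- the gradient of `𝔉`, spinor part -/
def gP (x : M) : c.m.V := ∑ j, (N.d j).gP c (fun y => N.β F c j (N.τ y)) x

/-- the delay gradient as a perturbation -/
def q1 : Pt M ι lam r n where
  D c x := -∑ a, F.D a N.τ x • c.m.ρ a x (c.m.pp B x (N.gP F c x))
  C c x := (-8 : ℝ) • c.m.p2 B x (WithLp.toLp 2 fun s => F.D s.1 N.τ x • N.gA F c x s.2)
  S _ _ := 0

end DG

variable (M ι lam) in
/-- a coefficient function of time: a function `k` of window invariants at shifted times -/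
structure TC (r : ℕ) where
  m : ℕ
  h : Fin m → Cfg M ι lam r → M → ℝ
  s : Fin m → ℝ
  k : (Fin m → ℝ) → ℝ
  /-- the cut-off of the letter -/
  χ : M → ℝ

/-- pointwise normalisation -/
def nrm {V : Type} [NormedAddCommGroup V] [InnerProductSpace ℝ V] (v : V) : V :=
  (√(1 + ‖v‖ ^ 2))⁻¹ • v

/-- the value of a coefficient function -/
def TC.val {r : ℕ} (C : TC M ι lam r) (F : Fr I M ι) (τ : M → ℝ) (δ : ℝ) (c : Cfg M ι lam r)
    (t : ℝ) : ℝ := C.k fun i => wn F.μ τ δ (C.h i c) (t + C.s i)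

/-- the smoothed energy density; the `d (y i)` span the cotangent spaces of the cross-section and
`χ` is the cut-off of the neck.  It is continuous under Uhlenbeck limits. -/
def ew {r : ℕ} {K : Type} [Fintype K] (F : Fr I M ι) (τ χ : M → ℝ) (y : K → M → ℝ)
    (c : Cfg M ι lam r) (x : M) : ℝ :=
  ∑ i, ‖c.sd F (.cv χ τ (y i)) x‖ ^ 2 + ‖χ x • nt F c.W τ c.Φ x‖ ^ 2

variable (M ι lam) in
/-- letters of spinor words, with coefficient functions of time -/
abbrev TL (r : ℕ) : Type := Lt M ⊕ TC M ι lam r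

variable (M ι lam) in
/-- letters of adjoint words, with coefficient functions of time -/
abbrev TA (r : ℕ) : Type := La M ⊕ TC M ι lam r

variable (M ι lam) in
/-- terms of `q2` -/
inductive TT (r : ℕ)
  | lin (u : List (TL M ι lam r))
  | ad (g h : M → ℝ) (u v : List (TL M ι lam r)) (l : List (TA M ι lam r))

section tt
variable {r : ℕ} (F : Fr I M ι) (τ : M → ℝ) (δ : ℝ) (c : Cfg M ι lam r)

def tl : TL M ι lam r → Lt M
  | .inl t => t
  | .inr C => .mul fun x => C.χ x * C.val F τ δ c (τ x)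

def ta : TA M ι lam r → La M
  | .inl t => t
  | .inr C => .mul fun x => C.χ x * C.val F τ δ c (τ x)

/-- the term of `An/Gauge` obtained by evaluating the coefficient functions at `c` -/
def TT.tm (n : ℕ) : TT M ι lam r → Tm M lam r n
  | .lin u => .lin (u.map (tl F τ δ c))
  | .ad g h u v l => .ad g h ⟨.q (u.map (tl F τ δ c)) (v.map (tl F τ δ c)), l.map (ta F τ δ c)⟩

end tt

/-- the non-gradient term `∑ w k • cut(t) C_k(t) T_k` -/
def q2 {r n : ℕ} {K : Type} [Fintype K] (B : Base M ι lam) (F : Fr I M ι) (τ : M → ℝ)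
    (cut : ℝ → ℝ) (δ : ℝ) (C : K → TC M ι lam r) (T : K → TT M ι lam r) (w : K → ℝ) :
    Pt M ι lam r n where
  D c x := ∑ k, (w k * (cut (τ x) * (C k).val F τ δ c (τ x))) • c.tD B F ((T k).tm F τ δ c n) x
  C c x := ∑ k, (w k * (cut (τ x) * (C k).val F τ δ c (τ x))) • c.tC B F ((T k).tm F τ δ c n) x
  S _ _ := 0

/-! ### product necks -/

/-- over the open set `O` the frame field `e a₀` is `∂/∂τ` and the metric is a product -/
structure Prd (F : Fr I M ι) [DecidableEq ι] (τ : M → ℝ) (a₀ : ι) (O : Set M) : Prop where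
  op : IsOpen O
  sτ : Sm I τ
  dτ : ∀ x ∈ O, ∀ a, F.D a τ x = if a = a₀ then 1 else 0
  P : ∀ x ∈ O, ∀ a, F.P a₀ a x = if a = a₀ then 1 else 0
  c1 : ∀ x ∈ O, ∀ a l, F.c a₀ a l x = 0
  c2 : ∀ x ∈ O, ∀ a l, F.c a a₀ l x = 0
  c3 : ∀ x ∈ O, ∀ a l, F.c a l a₀ x = 0
  dP : ∀ x ∈ O, ∀ a l, F.D a₀ (F.P a l) x = 0
  dv : ∀ x ∈ O, F.dv a₀ x = 0
  ddv : ∀ x ∈ O, ∀ a, F.D a₀ (F.dv a) x = 0

section lemmas
variable {r : ℕ} (F : Fr I M ι) (c : Cfg M ι lam r)

theorem sl_ltS (t : Lt M) (u : M → c.m.V) : sl F c.W (ltS F c t) u = c.lt F t u := by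
  cases t <;> funext x <;> simp [sl, ltS, Cfg.lt]

theorem sl_laS (t : La M) (u : M → c.m.A) : sl F (c.m.adW c.W) (laS c t) u = c.la F t u := by
  cases t <;> funext x <;> simp [sl, laS, Cfg.la]

theorem sw_eq (u : SW M) : c.sw F u = wd (sl F c.W) c.Φ (u.map (ltS F c)) := by
  induction u with
  | nil => rfl
  | cons t u ih => rw [List.map_cons, Wrd81.wd_cons, ← ih, sl_ltS]; rfl

theorem lt_eq (s : M → c.m.V) (u : SW M) :
    wd (c.lt F) s u = wd (sl F c.W) s (u.map (ltS F c)) := by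
  induction u with
  | nil => rfl
  | cons t u ih => rw [List.map_cons, Wrd81.wd_cons, Wrd81.wd_cons, ← ih, sl_ltS]

theorem nw_eq (u : SW M) : nw F c u = wd (sl F c.W) (nP c) (u.map (ltS F c)) := lt_eq F c _ u

theorem la_eq (s : M → c.m.A) (w : List (La M)) :
    wd (c.la F) s w = wd (sl F (c.m.adW c.W)) s (w.map (laS c)) := by
  induction w with
  | nil => rfl
  | cons t u ih => rw [List.map_cons, Wrd81.wd_cons, Wrd81.wd_cons, ← ih, sl_laS]

theorem inner_tp {V U : Type} [NormedAddCommGroup V] [InnerProductSpace ℝ V] [CompleteSpace V]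
    [NormedAddCommGroup U] [InnerProductSpace ℝ U] [CompleteSpace U] (r : CL U (CL V V))
    (v w : V) (ξ : U) : ⟪tp r v w, ξ⟫_ℝ = ⟪w, r ξ v⟫_ℝ := by
  rw [tp, ContinuousLinearMap.adjoint_inner_left]; rfl

theorem adR_apply {κ : Type} [Fintype κ] [DecidableEq κ] (ξ : HS κ) : adR κ ξ = adc (opL ξ) := rfl

end lemmas

end Crest.Agent.X212.Dgr80
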