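import Crest.Agent.X212.Dgr80.La0
import Crest.Agent.X212.Lns95.Lf

/-!
# Row 212, LEAF LIMA (helper80): a decaying one-form does not change the limit
-/

set_option autoImplicit false
set_option linter.unusedSectionVars false
noncomputable section
open scoped Manifold ContDiff Topology InnerProductSpace
open Set Function Filter
open Crest.Agent.R208.F (Ext)

namespace Crest.Agent.X212.Dgr80
open An Wz78 Nd18 Cyf70 Eqv71 Qab60 Num57
open M (Mf)
open Neck67 (Lb)

theorem norm_pj_le {α : Type} [Fintype α] (a : α) : ‖Map77.pj ℝ a‖ ≤ 1 :=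
  ContinuousLinearMap.opNorm_le_bound _ zero_le_one fun v =>
    (PiLp.norm_apply_le v a).trans (one_mul _).ge

theorem dA_alg {κ κ' : Type} [Fintype κ] [Fintype κ'] {u Du : CL (Eu κ) (Eu κ')} {W ξ t : En κ}
    {W' : En κ'} {s : ℝ} (h : t = s • ξ) : (Du + W' ∘L u - u ∘L (W + t)) ∘L trn u =
      (Du + W' ∘L u - u ∘L W) ∘L trn u - s • (u ∘L ξ ∘L trn u) := by
  ext1 v
  simp only [h, add_apply, sub_apply, smul_apply, ContinuousLinearMap.comp_apply, map_add, map_smul]
  abel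

variable {Y : Mf 3} [CompactSpace Y.M] {κ : Type} [Fintype κ] {lam : Type} [Fintype lam]
  (D : YD Y.I Y.M κ lam)
  {E : Type} [NormedAddCommGroup E] [NormedSpace ℝ E] [FiniteDimensional ℝ E]
  [MeasurableSpace E] [BorelSpace E]
  {HM : Type} [TopologicalSpace HM] (I : ModelWithCorners ℝ E HM) [I.Boundaryless]
  (M : Type) [TopologicalSpace M] [ChartedSpace HM M] [IsManifold I ∞ M] [T2Space M]
  [MeasurableSpace M] [BorelSpace M] [SecondCountableTopology M]

variable {D I M} in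
theorem c1_nk {B : Base M (Option κ) lam} {G : Geo I M (Option κ) lam} (K : Nk D B G)
    {q : Y.M × ℝ} (hq : q ∈ K.ψ.source) (a : M → Ext E) :
    Qab60.c1 D.Z (Dr59.pm (IC Y.I) I K.ψ a) q = Qab60.c1 G.F a (K.ψ q) := Map77.fm_ext fun i => by
  have e : Dr59.mf (IC Y.I) I K.ψ q (ee D.Z q i) = ee G.F (K.ψ q) i := K.iso.e i q hq
  change e1 _ _ = e1 _ _
  rw [← e, Dr59.pm_apply, e1, e1, R208.F.evA_pb]
  exact congrArg _ (funext fun i => by fin_cases i; rfl)

/-- **LEAF LIMA** -/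
theorem lima : Lns95.LimaStmt D I M := by
  rintro r B G K c ξ β ζ T d a - - - A hβ hT R d0 ha hd ⟨u, hu⟩
  refine ⟨u, fun k ε ε0 => ?_⟩
  obtain ⟨C, hC⟩ := lb_eta K A hβ k
  choose Ca hCa using hd
  obtain ⟨C', hC'⟩ := ((List.finite_length_le (Option κ) k).image Ca).bddAbove
  obtain ⟨T', h1, h2⟩ := ((eventually_ge_atTop T).and ((((Real.tendsto_exp_atBot.comp
    (tendsto_id.const_mul_atTop_of_neg (neg_lt_zero.2 d0))).const_mul |C'|).abs.const_mul
      (2 ^ k)).mul_const |C| |>.eventually_le_const (u := ε / 2) (by simpa using ε0))).exists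
  obtain ⟨S, hS, SJ, cl⟩ := hu k (min 1 (ε / 2)) (by positivity)
  have o1 := cl.op.inter (isOpen_Ioi (a := T'))
  have o : IsOpen ((univ : Set Y.M) ×ˢ (S ∩ Ioi T')) := isOpen_univ.prod o1
  have sub : (univ : Set Y.M) ×ˢ (S ∩ Ioi T') ⊆ univ ×ˢ S := prod_mono_right inter_subset_left
  have src : ∀ {x : Y.M × ℝ}, x ∈ univ ×ˢ (S ∩ Ioi T') → x ∈ K.ψ.source := fun hx =>
    K.mem_src.2 (SJ hx.2.1)
  have m : MEq (IC Y.I) (K.pb c).m (cy β).m (univ ×ˢ (S ∩ Ioi T')) id (fun x b a => D.B.P b a x)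
      D.B.l u := ⟨cl.m.su.mono sub, fun x hx => cl.m.uu x (sub hx), fun x hx => cl.m.uu' x (sub hx),
    fun x hx => cl.m.J x (sub hx), fun x hx => cl.m.ρ x (sub hx), fun x hx => cl.m.j x (sub hx)⟩
  obtain ⟨l1, l2⟩ := hC ξ u ζ (S ∩ Ioi T') (fun _ h => SJ h.1) ⟨o1, m,
    fun i w hw x hx => (cl.A i w hw x (sub hx)).trans (min_le_left _ _),
    fun w hw x hx => (cl.P w hw x (sub hx)).trans (min_le_left _ _)⟩
    (R.mono fun x hx => h1.trans_lt hx.2)
  have la : Lb D.Z.toPre (univ ×ˢ (S ∩ Ioi T')) k (fun x => Qab60.c1 G.F a (K.ψ x))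
      (|C'| * Real.exp (-d * T')) := by
    have e := fun x (hx : x ∈ univ ×ˢ (S ∩ Ioi T')) => c1_nk K (src hx) a
    refine Lb.congr o (.of_Dw (fun x hx => (K.rel.sm (src hx) (sm_c1 ha.sm _)).congr_of_eventuallyEq
      ((o.eventually_mem hx).mono e)) fun w hw x hx => (hCa w x ⟨trivial, h1.trans_lt hx.2.2⟩).trans
        (mul_le_mul ((hC' ⟨w, hw, rfl⟩).trans (le_abs_self _)) (Real.exp_le_exp.2
          (mul_le_mul_of_nonpos_left hx.2.2.le (neg_nonpos.2 d0.le))) (Real.exp_pos _).le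
          (abs_nonneg _))) fun x hx => (e x hx).symm
  refine ⟨S ∩ Ioi T', inter_mem hS (Ioi_mem_atTop _), fun _ h => SJ h.1, o1, m, fun i => Lb.Dw ?_,
    fun w hw x hx => ?_⟩
  · have lb := ((la.clm o (Map77.pj ℝ i)).mono (mul_le_of_le_one_left (by positivity)
      (norm_pj_le i))).smul o l2
    refine (((Lb.of_Dw (fun x hx => (l1 i).sm hx) fun w hw x hx => (cl.A i w hw x (sub hx)).trans
      (min_le_right _ _)).sub' o lb).congr o fun x _ => ?_).mono ?_
    · exact dA_alg (map_smul opL _ _)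
    · rw [abs_of_nonneg (by positivity)]
      exact (add_le_add_right h2 _).trans (add_halves ε).le
  · have e : YD.dP (K.pb (ada G.F c ξ a)) β u ζ = YD.dP (K.pb c) β u ζ := funext fun x =>
      congrArg (fun t => cs β.m.J ζ (u x t) - β.Φ x.1) (add_zero _)
    exact e ▸ (cl.P w hw x (sub hx)).trans ((min_le_right _ _).trans (half_le_self ε0.le))

end Crest.Agent.X212.Dgr80
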