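import Crest.Agent.X212.Dgr80.Lg

/-!
# Row 212, DGR (helper80): seeds and densities at one configuration, and their three properties
`Tr` (translation), `Lip` (weighted Lipschitz bound), `Grad` (gradient identity)
-/

set_option autoImplicit false
set_option linter.unusedSectionVars false
noncomputable section
open scoped Manifold ContDiff Topology InnerProductSpace
open MeasureTheory Set Function Filter

namespace Crest.Agent.X212.Dgr80
open An Wz78 Sob92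
open Mp86 (Mc Bumps)
open Wrd81 (wd)

variable {E : Type} [NormedAddCommGroup E] [NormedSpace ℝ E] [FiniteDimensional ℝ E]
  [MeasurableSpace E] [BorelSpace E]
  {HM : Type} [TopologicalSpace HM] {I : ModelWithCorners ℝ E HM}
  {M : Type} [TopologicalSpace M] [ChartedSpace HM M] [IsManifold I ∞ M]
  [BoundarylessManifold I M]
  [MeasurableSpace M] [T2Space M] [BorelSpace M] {ι : Type} [Fintype ι]
  {V U P : Type} [NormedAddCommGroup V] [InnerProductSpace ℝ V] [CompleteSpace V]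
  [NormedAddCommGroup U] [InnerProductSpace ℝ U] [CompleteSpace U]
  [NormedAddCommGroup P] [InnerProductSpace ℝ P] {F : Fr I M ι} {J : Type}
  {A : ι → M → CL V V} {Q : (M → V) → Prop} {a₀ : ι} {O : Set M} {θ ζ : M → ℝ} {K R : ℝ}
  {s l : M → V} {r : CL U (CL V V)}

/-! ### bounds of the error terms -/

/-- letters of size `K` -/
def SL.Le (K : ℝ) : SL M V → Prop
  | .op T => ∀ x, ‖T x‖ ≤ K
  | .G => True

theorem SL.Le.bd {t : SL M V} (h : t.Le K) : t.Bd := by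
  cases t with
  | op T => exact ⟨K, h⟩
  | G => trivial

theorem sl_le (hB : Bumps I F.e F.dv) (hA : Mc I A) (hK : 1 ≤ K) {t : SL M V} (ht : t.Le K)
    (hl : ∀ x, ‖l x‖ ≤ R) (x : M) : ‖sl F A t l x‖ ≤ K * R ∧ ‖slT F A t l x‖ ≤ K * R := by
  have R0 := (norm_nonneg _).trans (hl x)
  cases t with
  | op T => exact ⟨((T x).le_opNorm _).trans (mul_le_mul (ht x) (hl x) (norm_nonneg _) (by linarith)),
      ((ContinuousLinearMap.adjoint (T x)).le_opNorm _).trans (mul_le_mul (by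
        rw [LinearIsometryEquiv.norm_map]; exact ht x) (hl x) (norm_nonneg _) (by linarith))⟩
  | G =>
    have := (Mp86.norm_res_le hB hA hl x).trans (le_mul_of_one_le_left R0 hK)
    exact ⟨this, this⟩

theorem wd_le (hB : Bumps I F.e F.dv) (hA : Mc I A) (hK : 1 ≤ K) (hs : ∀ x, ‖s x‖ ≤ R) :
    ∀ {w : List (SL M V)}, (∀ t ∈ w, t.Le K) → ∀ x, ‖wd (sl F A) s w x‖ ≤ K ^ w.length * R
  | [], _, x => by simpa using hs x
  | t :: w, hw, x => by
    rw [List.length_cons, pow_succ', mul_assoc]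
    exact (sl_le hB hA hK (hw t (by simp)) (wd_le hB hA hK hs fun t ht => hw t (by simp [ht])) x).1

theorem bk_le (hB : Bumps I F.e F.dv) (hA : Mc I A) (hK : 1 ≤ K) :
    ∀ {w : List (SL M V)} {l : M → V} {R : ℝ}, (∀ t ∈ w, t.Le K) → (∀ x, ‖l x‖ ≤ R) →
      ∀ x, ‖bk F A w l x‖ ≤ K ^ w.length * R
  | [], _, _, _, hl, x => by simpa [bk] using hl x
  | t :: w, _, _, hw, hl, x => by
    rw [List.length_cons, pow_succ, mul_assoc]
    exact bk_le hB hA hK (w := w) (fun t ht => hw t (by simp [ht]))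
      (fun y => (sl_le hB hA hK (hw t (by simp)) hl y).2) x

variable (F) in
/-- the size of a cut-off function -/
def nz (ζ : M → ℝ) : ℝ := ∫ x, (ζ x ^ 2 + ∑ a, F.D a ζ x ^ 2) ∂F.μ

theorem nz_nonneg : 0 ≤ nz F ζ := integral_nonneg fun x => by positivity

theorem ts_sq (hζ : Ts I univ ζ) : Ts I univ fun x => ζ x ^ 2 := by
  simpa only [sq] using hζ.mul hζ.sm

theorem ts_dsq (hζ : Ts I univ ζ) : Ts I univ fun x => ∑ a, F.D a ζ x ^ 2 :=
  hζ.of_supp (sm_sum _ fun a => (ts_sq (hζ.D a)).sm) (closure_minimal (fun x hx => by_contra fun h =>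
    hx (by simp [Pre.D_def, dv_eq_zero_of_notMem h])) (isClosed_tsupport _))

theorem lb_sq (hζ : Ts I univ ζ) : LB F.μ (fun x => ζ x ^ 2) (nz F ζ) :=
  ⟨(ts_sq hζ).int F, integral_mono ((ts_sq hζ).int F) (((ts_sq hζ).add (ts_dsq hζ)).int F)
    fun x => le_add_of_nonneg_right (by positivity)⟩

theorem lb_dsq (hζ : Ts I univ ζ) : LB F.μ (fun x => ∑ a, F.D a ζ x ^ 2) (nz F ζ) :=
  ⟨(ts_dsq hζ).int F, integral_mono ((ts_dsq hζ).int F) (((ts_sq hζ).add (ts_dsq hζ)).int F)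
    fun x => le_add_of_nonneg_left (by positivity)⟩

theorem LB.bdd {g f : M → ℝ} {a : ℝ} (h : LB F.μ g a) (g0 : ∀ x, 0 ≤ g x) (hf : Continuous f)
    (f0 : ∀ x, 0 ≤ f x) (R0 : 0 ≤ R) (hR : ∀ x, f x ≤ R) : LB F.μ (fun x => g x * f x) (R * a) :=
  (h.mul R0).mono (h.1.1.mul hf.aestronglyMeasurable) (fun x => mul_nonneg (g0 x) (f0 x)) fun x => by
    rw [mul_comm]; exact mul_le_mul_of_nonneg_right (hR x) (g0 x)

/-- local energy bound for bounded solutions -/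
theorem res_h1 (hB : Bumps I F.e F.dv) (hA : Mc I A) (hζ : Ts I univ ζ) {u : M → V}
    (hu : F.IsRes A l u) (hl : ∀ x, ‖l x‖ ≤ R) :
    LB F.μ (fun x => ζ x ^ 2 * (‖u x‖ ^ 2 + g2 F A u x)) (35 * (R ^ 2 * nz F ζ)) := by
  have c := cacc (F := F) (s := l) (g := fun _ _ => 0) hA wg_one hζ hu.1 (fun _ => contMDiff_const)
    fun x => by simp [hu.2.2, dvn, nab]
  have h1 := ((lb_sq (F := F) hζ).bdd (f := fun x => ‖l x‖ ^ 2) (fun x => sq_nonneg _)
    ((Mp86.sm_isRes hA.sm hu).continuous.norm.pow 2) (fun x => sq_nonneg _) (sq_nonneg R)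
    fun x => pow_le_pow_left₀ (norm_nonneg _) (hl x) 2).2
  have h2 := ((lb_dsq (F := F) hζ).bdd (f := fun x => ‖u x‖ ^ 2) (fun x => by positivity)
    (hu.1.continuous.norm.pow 2) (fun x => sq_nonneg _) (sq_nonneg R) fun x =>
      pow_le_pow_left₀ (norm_nonneg _) (Mp86.isRes_norm_le hB hA hu hl x) 2).2
  simp only [one_mul, norm_zero, ne_eq, OfNat.ofNat_ne_zero, not_false_eq_true, zero_pow,
    Finset.sum_const_zero, add_zero] at c
  have p := mul_nonneg (sq_nonneg R) (nz_nonneg (F := F) (ζ := ζ))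
  beta_reduce at h1 h2
  exact ⟨((hζ.sm.continuous.pow 2).mul ((hu.1.continuous.norm.pow 2).add
    (cont_g2 hA hu.1))).integrable_of_hasCompactSupport (ts_sq hζ).hc.mul_right,
    by beta_reduce; linarith⟩

variable (F a₀ O) in
/-- test functions of time whose first two derivatives are dominated by `ζ²` -/
structure Tf (θ ζ : M → ℝ) : Prop where
  ts : Ts I O θ
  d0 : ∀ a x, a ≠ a₀ → F.D a θ x = 0
  tz : Ts I univ ζ
  d1 : ∀ x, |F.D a₀ θ x| ≤ ζ x ^ 2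
  d2 : ∀ x, |F.D a₀ (F.D a₀ θ) x| ≤ ζ x ^ 2

theorem eb_le (hθ : Tf F a₀ O θ ζ) (v l : M → V) (x : M) : |eb F A a₀ θ v l x| ≤
    ζ x ^ 2 * (‖l x‖ ^ 2 + g2 F A l x) + 2 * (ζ x ^ 2 * (‖v x‖ ^ 2 + g2 F A v x)) := by
  have h1 := mul_le_mul (hθ.d1 x) (abs_real_inner_le_norm (nab I F.e A a₀ v x) (nab I F.e A a₀ l x))
    (abs_nonneg _) (sq_nonneg _)
  have h2 := mul_le_mul (hθ.d2 x) (abs_real_inner_le_norm (nab I F.e A a₀ v x) (l x))
    (abs_nonneg _) (sq_nonneg _)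
  have h3 := le_g2 (F := F) (A := A) (u := l) a₀ x
  have h5 := le_g2 (F := F) (A := A) (u := v) a₀ x
  refine (abs_add_le _ _).trans ?_
  rw [mul_assoc, abs_mul, abs_mul, abs_mul, abs_two]
  set a := ‖nab I F.e A a₀ v x‖
  set b := ‖nab I F.e A a₀ l x‖
  set c := ‖l x‖
  have h4 : 2 * (a * b) + a * c ≤ c ^ 2 + g2 F A l x + 2 * (‖v x‖ ^ 2 + g2 F A v x) := by
    nlinarith [sq_nonneg (a - b), sq_nonneg (a - c), sq_nonneg ‖v x‖, sq_nonneg c, sq_nonneg a]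
  linarith [mul_le_mul_of_nonneg_left h4 (sq_nonneg (ζ x))]

theorem er_le (hB : Bumps I F.e F.dv) (hA : Mc I A) (hQ : Cls F A Q) (hK : 1 ≤ K)
    (hθ : Tf F a₀ O θ ζ) (qs : Q s) {S : ℝ} (hs : ∀ x, ‖s x‖ ≤ S) :
    ∀ {w : List (SL M V)} {l : M → V} {R : ℝ}, (∀ t ∈ w, t.Ok Q) → (∀ t ∈ w, t.Le K) → Q l →
      (∀ x, ‖l x‖ ≤ R) → |∫ x, er F A a₀ θ s w l x ∂F.μ| ≤
        70 * w.length * K ^ (2 * w.length) * ((R ^ 2 + S ^ 2) * nz F ζ)
  | [], _, _, _, _, _, _ => by simp [er]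
  | t :: w, l, R, h1, h2, ql, hl => by
    have h1' : ∀ t ∈ w, t.Ok Q := fun t ht => h1 t (by simp [ht])
    have h2' : ∀ t ∈ w, t.Le K := fun t ht => h2 t (by simp [ht])
    have p := mul_nonneg (sq_nonneg R) (nz_nonneg (F := F) (ζ := ζ))
    have p' := mul_nonneg (sq_nonneg S) (nz_nonneg (F := F) (ζ := ζ))
    have k1 : 1 ≤ K ^ 2 := one_le_pow₀ hK
    have kn : 1 ≤ K ^ (2 * w.length) := one_le_pow₀ hK
    have n0 : (0 : ℝ) ≤ w.length := Nat.cast_nonneg _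
    rw [List.length_cons, mul_add_one 2, pow_add, Nat.cast_succ, add_mul (R ^ 2)]
    set k := K ^ (2 * w.length) with hk
    set n : ℝ := (w.length : ℝ)
    set a := R ^ 2 * nz F ζ with ha
    set b := S ^ 2 * nz F ζ with hb
    have q1 : 0 ≤ k * a := by positivity
    have q2 : 0 ≤ k * b := by positivity
    have q3 := mul_le_mul_of_nonneg_left k1 q1
    have q4 := mul_le_mul_of_nonneg_left k1 q2
    have q5 := mul_le_mul_of_nonneg_left q3 n0
    have q6 := mul_le_mul_of_nonneg_left q4 n0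
    cases t with
    | op T =>
      refine (er_le hB hA hQ hK hθ qs hs h1' h2' (hQ.slT (h1 (.op T) (by simp)) ql)
        fun y => (sl_le hB hA hK (h2 (.op T) (by simp)) hl y).2).trans ?_
      rw [mul_pow, add_mul, mul_assoc (K ^ 2), ← ha, ← hb]
      nlinarith
    | G =>
      have ih := er_le hB hA hQ hK hθ qs hs h1' h2' (hQ.G l ql) (Mp86.norm_res_le hB hA hl)
      have k5 := (res_h1 hB hA hθ.tz (hQ.res l ql) hl).add ((res_h1 hB hA hθ.tz
        (hQ.res _ (hQ.wd qs h1')) (wd_le hB hA hK hs h2')).mul zero_le_two)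
      have k6 := (abs_integral_le_integral_abs.trans (integral_mono_of_nonneg
        (.of_forall fun x => abs_nonneg _) k5.1 (.of_forall (eb_le hθ _ _)))).trans k5.2
      rw [er, integral_add (int_er hA hθ.ts s w _)
        ((ts_eb hA hθ.ts (Mp86.sm_res _ _ _) (Mp86.sm_res _ _ _)).int F)]
      refine (abs_add_le _ _).trans ?_
      rw [mul_pow, ← pow_mul, mul_comm w.length, mul_assoc k, ← hb] at k6
      rw [add_mul, ← ha, ← hb] at ih
      nlinarith [mul_le_mul_of_nonneg_right kn p]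

/-! ### seeds -/

theorem sm_pair {α a : M → Fm ι U} {φ b : M → P} (h1 : Sm I α) (h2 : Sm I a) (h3 : Sm I φ)
    (h4 : Sm I b) : Sm I fun x => ⟪α x, a x⟫_ℝ + ⟪φ x, b x⟫_ℝ :=
  (sm_inner h1 h2).add (sm_inner h3 h4)

variable (M ι V U P) in
/-- a section with the gradient `(sA l, sP l)` of `∫ ⟪s, l⟫` -/
structure RS where
  s : M → V
  sA : (M → V) → M → Fm ι U
  sP : (M → V) → M → P

variable (M ι U P) in
/-- a density with the gradient `(gA f, gP f)` of `∫ f h` -/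
structure RD where
  h : M → ℝ
  gA : (M → ℝ) → M → Fm ι U
  gP : (M → ℝ) → M → P

/-- the constant of a word -/
def kw (K : ℝ) (n : ℕ) : ℝ := (70 * n + 1) * K ^ (2 * n + 2)

theorem le_kw (hK : 1 ≤ K) (n : ℕ) : K ^ (2 * n + 2) ≤ kw K n :=
  le_mul_of_one_le_left (by positivity) (le_add_of_nonneg_left (by positivity))

theorem self_le_kw (hK : 1 ≤ K) (n : ℕ) : K ≤ kw K n :=
  (le_self_pow₀ hK (by omega)).trans (le_kw hK n)

namespace RS
variable {S S₁ : RS M ι V U P} {α : M → Fm ι U} {φ : M → P} {T : M → CL V V}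

variable (F A r) in
def wd (S : RS M ι V U P) (w : List (SL M V)) : RS M ι V U P where
  s := Wrd81.wd (sl F A) S.s w
  sA l x := gc F A r S.s w l x + S.sA (bk F A w l) x
  sP l := S.sP (bk F A w l)

/-- the density `⟪T s, s₁⟫` -/
def pair (T : M → CL V V) (S S₁ : RS M ι V U P) : RD M ι U P where
  h x := ⟪T x (S.s x), S₁.s x⟫_ℝ
  gA f x := S.sA (fun y => f y • T y (S₁.s y)) x + S₁.sA (fun y => f y • T y (S.s y)) x
  gP f x := S.sP (fun y => f y • T y (S₁.s y)) x + S₁.sP (fun y => f y • T y (S.s y)) x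

variable (F A a₀ O Q) in
/-- the translation estimate; `(α, φ)` is the velocity -/
structure Tr (α : M → Fm ι U) (φ : M → P) (K : ℝ) (S : RS M ι V U P) : Prop where
  q : Q S.s
  le : ∀ x, ‖S.s x‖ ≤ K
  sA : ∀ l, Q l → Sm I (S.sA l)
  sP : ∀ l, Q l → Sm I (S.sP l)
  tr : ∀ l R θ ζ, Q l → (∀ x, ‖l x‖ ≤ R) → Tf F a₀ O θ ζ →
    |∫ x, θ x * (⟪α x, S.sA l x⟫_ℝ + ⟪φ x, S.sP l x⟫_ℝ) ∂F.μ -
      ∫ x, θ x * ⟪nab I F.e A a₀ S.s x, l x⟫_ℝ ∂F.μ| ≤ K * ((R ^ 2 + 1) * nz F ζ)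

theorem Tr.mono {K' : ℝ} (h : Tr F A Q a₀ O α φ K S) (hK : K ≤ K') : Tr F A Q a₀ O α φ K' S :=
  ⟨h.q, fun x => (h.le x).trans hK, h.sA, h.sP, fun l R θ ζ a b c => (h.tr l R θ ζ a b c).trans
    (mul_le_mul_of_nonneg_right hK (mul_nonneg (by positivity) nz_nonneg))⟩

end RS

variable (F A r a₀ O Q) in
/-- the setting of the translation estimate -/
structure Tz (α : M → Fm ι U) (φ : M → P) : Prop where
  bu : Bumps I F.e F.dv
  mc : Mc I A
  cls : Cls F A Q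
  mq : ∀ (f : M → ℝ) u, F.Cb f → Q u → Q fun x => f x • u x
  dv : ∀ x ∈ O, F.dv a₀ x = 0
  c : ∀ x ∈ O, ∀ a l, F.c a₀ a l x = 0
  sα : Sm I α
  sφ : Sm I φ
  cv : ∀ u, Q u → ∀ x ∈ O, ∀ a, curv I F.e F.c A a₀ a x (u x) = r (α x a) (u x)

variable (F A a₀ O Q) in
/-- letters for the translation estimate -/
structure SL.Tl (K : ℝ) (t : SL M V) : Prop where
  ok : t.Ok Q
  le : t.Le K
  par : t.Par F A a₀ O

namespace RS
variable {S S₁ : RS M ι V U P} {α : M → Fm ι U} {φ : M → P} {T : M → CL V V}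

theorem Tr.wd (Z : Tz F A Q a₀ O r α φ) (hK : 1 ≤ K) (h : Tr F A Q a₀ O α φ K S)
    {w : List (SL M V)} (hw : ∀ t ∈ w, t.Tl F A Q a₀ O K) :
    Tr F A Q a₀ O α φ (kw K w.length) (S.wd F A r w) := by
  have h1 := fun t ht => (hw t ht).ok
  have h2 := fun t ht => (hw t ht).le
  refine ⟨Z.cls.wd h.q h1, fun x => (wd_le Z.bu Z.mc hK h.le h2 x).trans (le_trans ?_ (le_kw hK _)),
    fun l hl => (Z.cls.sm_gc Z.mc.sm h1 hl).add (h.sA _ (Z.cls.bk h1 hl)),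
    fun l hl => h.sP _ (Z.cls.bk h1 hl), fun l R θ ζ hl hR hθ => ?_⟩
  · rw [← pow_succ]; exact pow_le_pow_right₀ hK (by omega)
  have qb := Z.cls.bk h1 hl
  have e1 := tr_wd (r := r) Z.cls Z.mc Z.dv Z.c hθ.ts hθ.d0 Z.sα Z.cv h.q h1
    (fun t ht => (hw t ht).par) hl
  have e2 := h.tr _ _ θ ζ qb (bk_le Z.bu Z.mc hK h2 hR) hθ
  have e3 := er_le Z.bu Z.mc Z.cls hK hθ h.q h.le h1 h2 hl hR
  simp only [RS.wd, inner_add_right, add_assoc, mul_add (θ _) ⟪_, gc _ _ _ _ _ _ _⟫_ℝ]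
  rw [integral_add ((hθ.ts.mul (sm_inner Z.sα (Z.cls.sm_gc (r := r) Z.mc.sm h1 hl))).int F)
    ((hθ.ts.mul (sm_pair Z.sα (h.sA _ qb) Z.sφ (h.sP _ qb))).int F)]
  have p := nz_nonneg (F := F) (ζ := ζ)
  have n0 : (0 : ℝ) ≤ w.length := Nat.cast_nonneg _
  have kn : 1 ≤ K ^ (2 * w.length) := one_le_pow₀ hK
  have k1 : K ≤ K ^ 2 := le_self_pow₀ hK two_ne_zero
  rw [mul_pow, ← pow_mul, mul_comm w.length] at e2
  rw [kw, pow_add]
  set k := K ^ (2 * w.length)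
  have a1 : K * (k * R ^ 2 + 1) ≤ k * K ^ 2 * (R ^ 2 + 1) := by
    nlinarith [mul_le_mul_of_nonneg_left k1 (show 0 ≤ k * R ^ 2 by positivity)]
  have a2 : R ^ 2 + K ^ 2 ≤ K ^ 2 * (R ^ 2 + 1) := by nlinarith [sq_nonneg R]
  have a3 := mul_le_mul_of_nonneg_right a1 p
  have a4 := mul_le_mul_of_nonneg_left (mul_le_mul_of_nonneg_right a2 p)
    (show 0 ≤ 70 * (w.length : ℝ) * k by positivity)
  rw [abs_le] at e2 e3 ⊢
  constructor <;> linarith [e2.1, e2.2, e3.1, e3.2]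

end RS

namespace RD
variable {d : RD M ι U P} {α : M → Fm ι U} {φ : M → P} {χ : M → ℝ}

/-- multiplication by a function -/
def cut (χ : M → ℝ) (d : RD M ι U P) : RD M ι U P where
  h x := χ x * d.h x
  gA f := d.gA fun y => f y * χ y
  gP f := d.gP fun y => f y * χ y

variable (F a₀ O) in
/-- the translation estimate -/
structure Tr (α : M → Fm ι U) (φ : M → P) (K : ℝ) (d : RD M ι U P) : Prop where
  sm : Sm I d.h
  le : ∀ x, |d.h x| ≤ K
  sA : ∀ f, F.Cb f → Sm I (d.gA f)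
  sP : ∀ f, F.Cb f → Sm I (d.gP f)
  tr : ∀ f R θ ζ, F.Cb f → (∀ x, |f x| ≤ R) → Tf F a₀ O θ ζ →
    |∫ x, θ x * (⟪α x, d.gA f x⟫_ℝ + ⟪φ x, d.gP f x⟫_ℝ) ∂F.μ -
      ∫ x, θ x * (f x * F.D a₀ d.h x) ∂F.μ| ≤ K * ((R ^ 2 + 1) * nz F ζ)

theorem Tr.mono {K' : ℝ} (h : Tr F a₀ O α φ K d) (hK : K ≤ K') : Tr F a₀ O α φ K' d :=
  ⟨h.sm, fun x => (h.le x).trans hK, h.sA, h.sP, fun l R θ ζ a b c => (h.tr l R θ ζ a b c).trans
    (mul_le_mul_of_nonneg_right hK (mul_nonneg (by positivity) nz_nonneg))⟩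

theorem Tr.cut (h : Tr F a₀ O α φ K d) (hO : IsOpen O) (hχ : F.Cb χ) (h1 : ∀ x, |χ x| ≤ 1)
    (hx : ∀ x ∈ O, χ x = 1) : Tr F a₀ O α φ K (d.cut χ) := by
  have cm : ∀ {f}, F.Cb f → F.Cb fun y => f y * χ y := fun hf => Cb_bil (.mul ℝ ℝ) hf hχ
  refine ⟨hχ.choose_spec.1.mul h.sm, fun x => (abs_mul _ _).trans_le
    ((mul_le_of_le_one_left (abs_nonneg _) (h1 x)).trans (h.le x)), fun f hf => h.sA _ (cm hf),
    fun f hf => h.sP _ (cm hf), fun f R θ ζ hf hR hθ => ?_⟩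
  have e : ∀ x, θ x * (f x * F.D a₀ (d.cut χ).h x) = θ x * (f x * χ x * F.D a₀ d.h x) := fun x => by
    by_cases hxO : x ∈ O
    · rw [hx x hxO, mul_one, Pre.D_def, Pre.D_def, dv_congr (v := d.h)
        (Filter.mem_of_superset (hO.mem_nhds hxO) fun y hy => by simp [RD.cut, hx y hy])]
    · simp [hθ.ts.zero hxO]
  simp only [e]
  exact h.tr _ R θ ζ (cm hf) (fun x => (abs_mul _ _).trans_le
    ((mul_le_of_le_one_right (abs_nonneg _) (h1 x)).trans (hR x))) hθ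

end RD

namespace RS
variable {S S₁ : RS M ι V U P} {α : M → Fm ι U} {φ : M → P} {T : M → CL V V}

theorem Tr.pair (Z : Tz F A Q a₀ O r α φ) (hK : 1 ≤ K) (h : Tr F A Q a₀ O α φ K S)
    (k : Tr F A Q a₀ O α φ K S₁) (hT : (SL.op T).Tl F A Q a₀ O K)
    (sy : ∀ x v w, ⟪T x v, w⟫_ℝ = ⟪v, T x w⟫_ℝ) :
    RD.Tr F a₀ O α φ (2 * K ^ 5) (pair T S S₁) := by
  have q : ∀ {f} {S : RS M ι V U P}, F.Cb f → Tr F A Q a₀ O α φ K S →
      Q fun y => f y • T y (S.s y) := fun hf h => Z.mq _ _ hf (hT.ok _ h.q).1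
  have n1 : ∀ {S : RS M ι V U P}, Tr F A Q a₀ O α φ K S → ∀ x, ‖T x (S.s x)‖ ≤ K ^ 2 := fun h x =>
    ((T x).le_opNorm _).trans ((mul_le_mul (hT.le x) (h.le x) (norm_nonneg _)
      (by linarith)).trans_eq (sq K).symm)
  have s1 := Z.cls.sm _ h.q
  have s2 := Z.cls.sm _ k.q
  refine ⟨sm_inner (hT.par.1.clm_apply s1) s2, fun x => (abs_real_inner_le_norm _ _).trans
    ((mul_le_mul (n1 h x) (k.le x) (norm_nonneg _) (by positivity)).trans ?_),
    fun f hf => (h.sA _ (q hf k)).add (k.sA _ (q hf h)),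
    fun f hf => (h.sP _ (q hf k)).add (k.sP _ (q hf h)), fun f R θ ζ hf hR hθ => ?_⟩
  · rw [← pow_succ]
    linarith [pow_le_pow_right₀ hK (show 2 + 1 ≤ 5 by norm_num), show 0 ≤ K ^ 5 by positivity]
  have n2 : ∀ {S : RS M ι V U P}, Tr F A Q a₀ O α φ K S → ∀ x, ‖f x • T x (S.s x)‖ ≤ R * K ^ 2 :=
    fun h x => (norm_smul _ _).trans_le (mul_le_mul (hR x) (n1 h x) (norm_nonneg _)
      ((abs_nonneg _).trans (hR x)))
  have e1 := h.tr _ _ θ ζ (q hf k) (n2 k) hθ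
  have e2 := k.tr _ _ θ ζ (q hf h) (n2 h) hθ
  have i := fun {S S₁ : RS M ι V U P} (h : Tr F A Q a₀ O α φ K S) (k : Tr F A Q a₀ O α φ K S₁) =>
    (hθ.ts.mul (sm_pair Z.sα (h.sA _ (q hf k)) Z.sφ (h.sP _ (q hf k)))).int F
  have i' := fun {S S₁ : RS M ι V U P} (h : Tr F A Q a₀ O α φ K S) (k : Tr F A Q a₀ O α φ K S₁) =>
    (hθ.ts.mul (sm_inner (sm_nab (F := F) Z.mc.sm a₀ (Z.cls.sm _ h.q)) (Z.cls.sm _ (q hf k)))).int F
  have e3 : ∀ x, θ x * (f x * F.D a₀ (RS.pair T S S₁).h x) =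
      θ x * ⟪nab I F.e A a₀ S.s x, f x • T x (S₁.s x)⟫_ℝ +
        θ x * ⟪nab I F.e A a₀ S₁.s x, f x • T x (S.s x)⟫_ℝ := fun x => by
    by_cases hx : x ∈ O
    · rw [RS.pair, Pre.D_def, dv_inner a₀ (Z.mc.sk a₀ x) ((hT.par.1.clm_apply s1) x) (s2 x),
        nab_app' a₀ (hT.par.1 x) (s1 x), hT.par.2 x hx, zero_apply, zero_add, sy,
        real_inner_smul_right, real_inner_smul_right, real_inner_comm (T x _) (nab _ _ _ _ S₁.s _)]
      ring
    · simp [hθ.ts.zero hx]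
  have e4 : ∀ x, θ x * (⟪α x, (RS.pair T S S₁).gA f x⟫_ℝ + ⟪φ x, (RS.pair T S S₁).gP f x⟫_ℝ) =
      θ x * (⟪α x, S.sA (fun y => f y • T y (S₁.s y)) x⟫_ℝ +
        ⟪φ x, S.sP (fun y => f y • T y (S₁.s y)) x⟫_ℝ) +
      θ x * (⟪α x, S₁.sA (fun y => f y • T y (S.s y)) x⟫_ℝ +
        ⟪φ x, S₁.sP (fun y => f y • T y (S.s y)) x⟫_ℝ) := fun x => by
    simp only [RS.pair, inner_add_right]; ring
  simp only [e3, e4]
  rw [integral_add (i h k) (i k h), integral_add (i' h k) (i' k h)]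
  have a1 : K * ((R * K ^ 2) ^ 2 + 1) ≤ K ^ 5 * (R ^ 2 + 1) := by
    nlinarith [le_self_pow₀ hK (show 5 ≠ 0 by norm_num)]
  have a2 := mul_le_mul_of_nonneg_right a1 (nz_nonneg (F := F) (ζ := ζ))
  rw [abs_le] at e1 e2 ⊢
  constructor <;> linarith [e1.1, e1.2, e2.1, e2.2]

end RS

/-! ### Lipschitz bound and gradient identity -/

section lg
variable {X : Cx F J} {Q' : J → (M → V) → Prop} {A' : J → ι → M → CL V V}
  {α : J → M → Fm ι U} {φ : J → M → P} {S S₁ : RS M ι V U P} {S' S₁' : J → RS M ι V U P}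
  {T : M → CL V V}

variable (X Q Q') in
/-- a seed at the base point and at the points `(α j, φ j)` -/
structure RS.Lg (α : J → M → Fm ι U) (φ : J → M → P) (S : RS M ι V U P) (S' : J → RS M ι V U P) :
    Prop where
  p0 : P0 X Q Q' S.s fun j => (S' j).s
  A : ∀ l l', P0 X Q Q' l l' → X.O2 fun j x => (S' j).sA (l' j) x - S.sA l x
  P : ∀ l l', P0 X Q Q' l l' → X.O2 fun j x => (S' j).sP (l' j) x - S.sP l x
  wA : ∀ l, Q l → Bd l → X.Lw (S.sA l)
  wP : ∀ l, Q l → Bd l → X.Lw (S.sP l)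
  o1 : X.Big → ∀ l, Q l → Bd l → X.O1 fun j => ∫ x, ⟪(S' j).s x - S.s x, l x⟫_ℝ ∂F.μ -
    ∫ x, ⟪α j x, S.sA l x⟫_ℝ ∂F.μ - ∫ x, ⟪φ j x, S.sP l x⟫_ℝ ∂F.μ

variable (X) in
/-- a function and a family of close functions -/
abbrev Pf (f : M → ℝ) (f' : J → M → ℝ) : Prop := P0 X F.Cb (fun _ => F.Cb) f f'

variable (X) in
/-- a density at the base point and at the points `(α j, φ j)` -/
structure RD.Lg (α : J → M → Fm ι U) (φ : J → M → P) (d : RD M ι U P) (d' : J → RD M ι U P) :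
    Prop where
  c0 : Continuous d.h
  bd : Bd d.h
  ub : Ub fun j => (d' j).h
  h : X.O2 fun j x => (d' j).h x - d.h x
  A : ∀ f f', Pf X f f' → X.O2 fun j x => (d' j).gA (f' j) x - d.gA f x
  P : ∀ f f', Pf X f f' → X.O2 fun j x => (d' j).gP (f' j) x - d.gP f x
  wA : ∀ f, F.Cb f → X.Lw (d.gA f)
  wP : ∀ f, F.Cb f → X.Lw (d.gP f)
  o1 : X.Big → ∀ f, F.Cb f → X.O1 fun j => ∫ x, f x * ((d' j).h x - d.h x) ∂F.μ -
    ∫ x, ⟪α j x, d.gA f x⟫_ℝ ∂F.μ - ∫ x, ⟪φ j x, d.gP f x⟫_ℝ ∂F.μ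

variable (X r A A' Q Q') in
/-- the setting -/
structure Lz (α : J → M → Fm ι U) (φ : J → M → P) : Prop extends Eng X r α A A' Q Q' where
  oφ : X.O2 φ
  bn : ∀ u, Q u → ∀ a, Bd (nab I F.e A a (F.res A u))
  mq : ∀ (f : M → ℝ) u, F.Cb f → Q u → Q fun x => f x • u x
  mq' : ∀ j (f : M → ℝ) u, F.Cb f → Q' j u → Q' j fun x => f x • u x

theorem RS.Lg.wd (H : Lz A Q r X Q' A' α φ) (h : RS.Lg Q X Q' α φ S S') {w : List (SL M V)}
    (hw : ∀ t ∈ w, t.Ad Q Q') :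
    RS.Lg Q X Q' α φ (S.wd F A r w) fun j => (S' j).wd F (A' j) r w := by
  have hq : ∀ t ∈ w, t.Ok Q := fun t ht => (hw t ht).1
  refine ⟨H.wd0 h.p0 hw, fun l l' k => ((H.gc0 H.bn h.p0 hw k).add (h.A _ _ (H.bk0 hw k))).congr
    fun j x => by simp only [RS.wd]; abel, fun l l' k => h.P _ _ (H.bk0 hw k),
    fun l k b => (H.lw_gc h.p0 hw k b).add (h.wA _ (H.cls.bk hq k) (H.bd_bk hw b)),
    fun l k b => h.wP _ (H.cls.bk hq k) (H.bd_bk hw b), fun hX l k b =>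
      ((H.grad hX h.p0 hw k b).add (h.o1 hX _ (H.cls.bk hq k) (H.bd_bk hw b))).congr fun j => ?_⟩
  simp only [RS.wd, inner_add_right]
  rw [integral_add (H.oα.inner hX j (H.lw_gc h.p0 hw k b))
    (H.oα.inner hX j (h.wA _ (H.cls.bk hq k) (H.bd_bk hw b)))]
  ring

theorem cb_bd {N : Type} [NormedAddCommGroup N] [NormedSpace ℝ N] {f : M → N} (h : F.Cb f) : Bd f :=
  ⟨_, CB_zero.1 (h.choose_spec.2 0)⟩

theorem Bd.smul {f : M → ℝ} {u : M → V} (hf : Bd f) (hu : Bd u) : Bd fun x => f x • u x :=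
  let ⟨K, h⟩ := hf
  let ⟨K', k⟩ := hu
  ⟨K * K', fun x => (norm_smul _ _).trans_le
    (mul_le_mul (h x) (k x) (norm_nonneg _) ((norm_nonneg _).trans (h x)))⟩

theorem Lz.smul0 (H : Lz A Q r X Q' A' α φ) {f : M → ℝ} {f' : J → M → ℝ} (hf : Pf X f f')
    {u : M → V} {u' : J → M → V} (hu : P0 X Q Q' u u') :
    P0 X Q Q' (fun x => f x • u x) fun j x => f' j x • u' j x := by
  have c1 := hf.q.choose_spec.1.continuous
  have c2 := fun j => (hf.q' j).choose_spec.1.continuous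
  have c3 := (H.cls.sm _ hu.q).continuous
  have c4 := fun j => ((H.cls' j).sm _ (hu.q' j)).continuous
  obtain ⟨K, K0, hK⟩ := hf.ub
  obtain ⟨K', K0', hK'⟩ := hu.ub
  refine ⟨H.mq _ _ hf.q hu.q, fun j => H.mq' j _ _ (hf.q' j) (hu.q' j), hf.bd.smul hu.bd,
    ⟨K * K', by positivity, fun j x => (norm_smul _ _).trans_le
      (mul_le_mul (hK j x) (hK' j x) (norm_nonneg _) K0)⟩,
    ((hf.d.ub ⟨K', K0', hK'⟩ (w := fun j x => (f' j x - f x) • u' j x)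
      (fun j => ((c2 j).sub c1).smul (c4 j)) zero_le_one fun j x => by rw [norm_smul, one_mul]).add
    (hu.d.ub hf.bd.ub (w := fun j x => f x • (u' j x - u x)) (fun j => c1.smul ((c4 j).sub c3))
      zero_le_one fun j x => by rw [norm_smul, one_mul, mul_comm])).congr fun j x => by module⟩

theorem RS.Lg.pair (H : Lz A Q r X Q' A' α φ) (h : RS.Lg Q X Q' α φ S S')
    (k : RS.Lg Q X Q' α φ S₁ S₁') (hT : (SL.op T).Ad Q Q')
    (sy : ∀ x v w, ⟪T x v, w⟫_ℝ = ⟪v, T x w⟫_ℝ) :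
    RD.Lg X α φ (RS.pair T S S₁) fun j => RS.pair T (S' j) (S₁' j) := by
  have t1 := H.sl0 hT h.p0
  have t2 := H.sl0 hT k.p0
  simp only [sl] at t1 t2
  have c := fun {u : M → V} (h : Q u) => (H.cls.sm _ h).continuous
  have c' := fun j {u : M → V} (h : Q' j u) => ((H.cls' j).sm _ h).continuous
  have q := fun {f : M → ℝ} (hf : F.Cb f) {u : M → V} {u' : J → M → V} (h : P0 X Q Q' u u') =>
    And.intro (H.mq _ _ hf h.q) ((cb_bd hf).smul h.bd)
  refine ⟨(c t1.q).inner (c k.p0.q), ?_, ?_, ?_, fun f f' hf => ((h.A _ _ (H.smul0 hf t2)).add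
    (k.A _ _ (H.smul0 hf t1))).congr fun j x => by simp only [RS.pair]; abel,
    fun f f' hf => ((h.P _ _ (H.smul0 hf t2)).add (k.P _ _ (H.smul0 hf t1))).congr
      fun j x => by simp only [RS.pair]; abel,
    fun f hf => (h.wA _ (q hf t2).1 (q hf t2).2).add (k.wA _ (q hf t1).1 (q hf t1).2),
    fun f hf => (h.wP _ (q hf t2).1 (q hf t2).2).add (k.wP _ (q hf t1).1 (q hf t1).2),
    fun hX f hf => ?_⟩
  · obtain ⟨K, h1⟩ := t1.bd
    obtain ⟨K', h2⟩ := k.p0.bd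
    exact ⟨K * K', fun x => (abs_real_inner_le_norm _ _).trans
      (mul_le_mul (h1 x) (h2 x) (norm_nonneg _) ((norm_nonneg _).trans (h1 x)))⟩
  · obtain ⟨K, K0, h1⟩ := t1.ub
    obtain ⟨K', K0', h2⟩ := k.p0.ub
    exact ⟨K * K', by positivity, fun j x => (abs_real_inner_le_norm _ _).trans
      (mul_le_mul (h1 j x) (h2 j x) (norm_nonneg _) K0)⟩
  · refine ((t1.d.ub k.p0.ub (w := fun j x => ⟪T x ((S' j).s x) - T x (S.s x), (S₁' j).s x⟫_ℝ)
      (fun j => ((c' j (t1.q' j)).sub (c t1.q)).inner (c' j (k.p0.q' j))) zero_le_one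
      fun j x => by rw [one_mul]; exact abs_real_inner_le_norm _ _).add
      (k.p0.d.ub t1.bd.ub (w := fun j x => ⟪(S₁' j).s x - S₁.s x, T x (S.s x)⟫_ℝ)
      (fun j => ((c' j (k.p0.q' j)).sub (c k.p0.q)).inner (c t1.q)) zero_le_one
      fun j x => by rw [one_mul]; exact abs_real_inner_le_norm _ _)).congr fun j x => ?_
    simp only [RS.pair, inner_sub_left, inner_sub_right, real_inner_comm (T x (S.s x))]
    ring
  obtain ⟨K, hK⟩ := cb_bd hf
  have cf := hf.choose_spec.1.continuous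
  have b : ∀ j x, |f x * ⟪T x ((S' j).s x) - T x (S.s x), (S₁' j).s x - S₁.s x⟫_ℝ| ≤
      |K| * ‖T x ((S' j).s x) - T x (S.s x)‖ * ‖(S₁' j).s x - S₁.s x‖ := fun j x => by
    rw [abs_mul, mul_assoc]
    exact mul_le_mul ((hK x).trans (le_abs_self K)) (abs_real_inner_le_norm _ _) (abs_nonneg _)
      (abs_nonneg _)
  refine (((h.o1 hX _ (q hf t2).1 (q hf t2).2).add (k.o1 hX _ (q hf t1).1 (q hf t1).2)).add
    (t1.d.o1 hX k.p0.d (abs_nonneg K) b)).congr fun j => ?_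
  have i1 := h.p0.d.inner hX j (Cx.lw_bd (c (q hf t2).1) (q hf t2).2)
  have i2 := k.p0.d.inner hX j (Cx.lw_bd (c (q hf t1).1) (q hf t1).2)
  have i3 := t1.d.int hX j (k.p0.d.lw hX j) (f := fun x => f x * ⟪T x ((S' j).s x) - T x (S.s x),
    (S₁' j).s x - S₁.s x⟫_ℝ) (cf.mul ((t1.d.1 j).inner (k.p0.d.1 j))) (b j)
  have e : ∀ x, f x * ((RS.pair T (S' j) (S₁' j)).h x - (RS.pair T S S₁).h x) =
      ⟪(S' j).s x - S.s x, f x • T x (S₁.s x)⟫_ℝ + ⟪(S₁' j).s x - S₁.s x, f x • T x (S.s x)⟫_ℝ +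
      f x * ⟪T x ((S' j).s x) - T x (S.s x), (S₁' j).s x - S₁.s x⟫_ℝ := fun x => by
    simp only [RS.pair, inner_sub_left, inner_sub_right, real_inner_smul_right,
      ← sy x _ (S₁.s x), real_inner_comm (T x (S.s x))]
    ring
  simp only [e]
  simp only [RS.pair, inner_add_right]
  rw [integral_add (i1.fun_add i2) i3, integral_add i1 i2,
    integral_add (H.oα.inner hX j (h.wA _ (q hf t2).1 (q hf t2).2))
      (H.oα.inner hX j (k.wA _ (q hf t1).1 (q hf t1).2)),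
    integral_add (H.oφ.inner hX j (h.wP _ (q hf t2).1 (q hf t2).2))
      (H.oφ.inner hX j (k.wP _ (q hf t1).1 (q hf t1).2))]
  ring

end lg

end Crest.Agent.X212.Dgr80
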