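import Crest.Agent.X212.Cyc79.Tr
import Crest.Agent.X212.Mp86.NkD
import Crest.Agent.X212.Dgr80.Pw
import Crest.Agent.X212.Mon62.RE
import Crest.Agent.X212.Sob92.NemF
import Crest.Agent.X212.Nd18.Defs

/-!
# Row 212, DGR (helper80): seeds and densities of configurations with bounded derivatives
-/

set_option autoImplicit false
set_option linter.unusedSectionVars false
noncomputable section
open scoped Manifold ContDiff Topology InnerProductSpace
open MeasureTheory Set Function Filter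

namespace Crest.Agent.X212.Dgr80
open An Wz78 Sob92
open Mp86 (Mc Bumps nf LtSz SWSz PkSz LLSz L4)
open Cyc79 (Pp CO cb_sm cb_bdd Pr Cy)
open Nd18 (vr)
open ContinuousLinearMap (adjoint)

/-! ### calculus -/

section calc0
variable {V V' : Type} [NormedAddCommGroup V] [NormedAddCommGroup V'] [NormedSpace ℝ V']

/-- Taylor bounds on a ball -/
theorem exists_taylor [NormedSpace ℝ V] [FiniteDimensional ℝ V] {g : V → V'} (hg : ContDiff ℝ ∞ g)
    (R : ℝ) : ∃ K, 0 ≤ K ∧ ∀ v v', ‖v‖ ≤ R → ‖v'‖ ≤ R → ‖g v‖ ≤ K ∧ ‖fderiv ℝ g v‖ ≤ K ∧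
      ‖g v' - g v‖ ≤ K * ‖v' - v‖ ∧ ‖fderiv ℝ g v' - fderiv ℝ g v‖ ≤ K * ‖v' - v‖ ∧
      ‖g v' - g v - fderiv ℝ g v (v' - v)‖ ≤ K * ‖v' - v‖ ^ 2 := by
  have hd : ContDiff ℝ ∞ (fderiv ℝ g) := hg.fderiv_right le_rfl
  have c := isCompact_closedBall (0 : V) R
  have cv := convex_closedBall (0 : V) R
  obtain ⟨K0, h0⟩ := c.exists_bound_of_continuousOn hg.continuous.continuousOn
  obtain ⟨K1, h1⟩ := c.exists_bound_of_continuousOn hd.continuous.continuousOn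
  obtain ⟨K2, h2⟩ := hd.contDiffOn.exists_lipschitzOnWith (by simp) cv c
  have m : ∀ {v : V}, ‖v‖ ≤ R → v ∈ Metric.closedBall (0 : V) R := mem_closedBall_zero_iff.2
  have d := hg.differentiable (by simp)
  refine ⟨|K0| + |K1| + K2, by positivity, fun v v' hv hv' => ?_⟩
  have a0 := abs_nonneg K0
  have a1 := abs_nonneg K1
  have a2 : (0 : ℝ) ≤ K2 := K2.2
  have n := norm_nonneg (v' - v)
  refine ⟨by linarith [h0 v (m hv), le_abs_self K0], by linarith [h1 v (m hv), le_abs_self K1],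
    (cv.norm_image_sub_le_of_norm_fderiv_le (fun x _ => d x) h1 (m hv) (m hv')).trans
      (by gcongr; linarith [le_abs_self K1]),
    (h2.norm_sub_le (m hv') (m hv)).trans (by gcongr; linarith), ?_⟩
  refine ((cv.inter (convex_closedBall v ‖v' - v‖)).norm_image_sub_le_of_norm_fderiv_le'
    (C := K2 * ‖v' - v‖) (fun x _ => d x) (fun x hx => (h2.norm_sub_le hx.1 (m hv)).trans
      (mul_le_mul_of_nonneg_left (mem_closedBall_iff_norm.1 hx.2) a2))
    ⟨m hv, Metric.mem_closedBall_self n⟩ ⟨m hv', mem_closedBall_iff_norm.2 le_rfl⟩).trans ?_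
  rw [mul_assoc, ← sq]; gcongr; linarith

variable [InnerProductSpace ℝ V]

theorem contDiff_nf : ContDiff ℝ ∞ (nf : V → ℝ) :=
  ((contDiff_const.add (contDiff_norm_sq ℝ)).sqrt fun v => by positivity).inv fun v => by positivity

theorem contDiff_nv : ContDiff ℝ ∞ fun v : V => nf v • v := contDiff_nf.smul contDiff_id

theorem fderiv_nv (v w : V) :
    fderiv ℝ (fun v : V => nf v • v) v w = nf v • w - (nf v ^ 3 * ⟪v, w⟫_ℝ) • v := by
  have p : 0 < 1 + ‖v‖ ^ 2 := by positivity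
  have s := Real.sqrt_pos.2 p
  have d : HasDerivAt (fun t : ℝ => (√(1 + t))⁻¹) (-(nf v ^ 3 / 2)) (‖v‖ ^ 2) := by
    refine ((((hasDerivAt_id (‖v‖ ^ 2)).const_add 1).sqrt p.ne').inv s.ne').congr_deriv ?_
    simp only [id, nf]; field_simp
  have h := (d.comp_hasFDerivAt v (hasStrictFDerivAt_norm_sq v).hasFDerivAt).smul (hasFDerivAt_id v)
  have e : fderiv ℝ (fun v : V => nf v • v) v = _ := h.fderiv
  rw [e]
  simp only [nf, Function.comp, add_apply, smul_apply,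
    ContinuousLinearMap.id_apply, ContinuousLinearMap.smulRight_apply, innerSL_apply_apply, id,
    smul_eq_mul, nsmul_eq_mul]
  module

end calc0

variable {E : Type} [NormedAddCommGroup E] [NormedSpace ℝ E] [FiniteDimensional ℝ E]
  [MeasurableSpace E] [BorelSpace E]
  {HM : Type} [TopologicalSpace HM] {I : ModelWithCorners ℝ E HM} [I.Boundaryless]
  {M : Type} [TopologicalSpace M] [ChartedSpace HM M] [IsManifold I ∞ M]
  [MeasurableSpace M] [T2Space M] [BorelSpace M] [SecondCountableTopology M]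
  {ι : Type} [Fintype ι] {lam : Type} [Fintype lam] {r : ℕ}

/-! ### the classes -/

section cls
variable {κ : Type} [Fintype κ] [DecidableEq κ] {F : Fr I M ι} {A : ι → M → En κ} {p T : M → En κ}
  {u : M → Eu κ}

variable (F p) in
/-- sections of `range p` with bounded derivatives -/
def QP (u : M → Eu κ) : Prop := F.Cb u ∧ ∀ x, p x (u x) = u x

theorem cls_qp (h : Pp F A p) : Cls F A (QP F p) := by
  have k := fun u (hu : QP F p u) => Mon62.re_tame h.tame.choose_spec h.cb h.sk hu.1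
  refine ⟨fun _ hu => cb_sm hu.1, fun u hu => (k u hu).1, fun u hu => ⟨(k u hu).2, fun x => ?_⟩⟩
  have := Mp86.res_eq h.bmp h.mc (Mp86.isRes_map h.mc.sm h.sm (cb_bdd h.cp) h.itw (k u hu).1)
  simp only [hu.2] at this
  exact (congrFun this x).symm

theorem QP.smul {f : M → ℝ} (hf : F.Cb f) (hu : QP F p u) : QP F p fun x => f x • u x :=
  ⟨Cb_smul hf hu.1, fun x => by rw [map_smul, hu.2]⟩

theorem ok_qp (hp : ∀ x v w, ⟪p x v, w⟫_ℝ = ⟪v, p x w⟫_ℝ) (hT : F.Cb T)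
    (hc : ∀ x v, p x (T x v) = T x (p x v)) : (SL.op T).Ok (QP F p) := fun u hu =>
  ⟨⟨Cb_app hT hu.1, fun x => by rw [hc, hu.2]⟩,
    Cb_app (Cb_clm (adjoint (𝕜 := ℝ) (E := Eu κ)
      (F := Eu κ)).toContinuousLinearEquiv.toContinuousLinearMap hT) hu.1,
    fun x => ext_inner_right ℝ fun w => by
      rw [hp, ContinuousLinearMap.adjoint_inner_left, ContinuousLinearMap.adjoint_inner_left, ← hc,
        ← hp, hu.2]⟩

theorem bn_qp (h : Pp F A p) (hu : QP F p u) (a : ι) : Bd (nab I F.e A a (F.res A u)) :=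
  have := ((cls_qp h).G u hu).1
  cb_bd (Cb_add (Cb_D this a) (Cb_app (h.cb a) this))

end cls

variable {B : Base M ι lam} {G : Geo I M ι lam} {c : Cfg M ι lam r}

/-- the density at one configuration -/
def Den.rd (d : Den M ι lam r) (c : Cfg M ι lam r) : RD M ι c.m.A c.m.V := ⟨d.h c, d.gA c, d.gP c⟩

/-- the seed at one configuration -/
def Sed.rs (S : Sed M ι lam r) (c : Cfg M ι lam r) : RS M ι c.m.A c.m.A c.m.V :=
  ⟨S.s c, S.sA c, S.sP c⟩

/-- the spinor seed -/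
def rsP (c : Cfg M ι lam r) : RS M ι c.m.V c.m.A c.m.V := ⟨nP c, fun _ => 0, dn c⟩

theorem rd_sw (F : Fr I M ι) (T : Pk M lam) (u v : SW M) : (Den.sw F T u v).rd c =
    RS.pair (pk c T) ((rsP c).wd F c.W opL (u.map (ltS F c)))
      ((rsP c).wd F c.W opL (v.map (ltS F c))) := by
  simp only [Den.rd, Den.sw, RS.pair, RS.wd, rsP, nw_eq, swA, swP, Pi.zero_apply, add_zero]

theorem rd_sed (S S' : Sed M ι lam r) :
    (Den.sed S S').rd c = RS.pair (fun _ => 1) (S.rs c) (S'.rs c) := rfl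

theorem rs_wd (F : Fr I M ι) (S : Sed M ι lam r) (w : List (La M)) : (S.wd F w).rs c =
    (S.rs c).wd F (c.m.adW c.W) (adR (Fin c.m.N)) (w.map (laS c)) := by
  simp only [Sed.rs, Sed.wd, RS.wd, la_eq]

theorem dn_eq (l : M → c.m.V) (x : M) :
    dn c l x = fderiv ℝ (fun v : c.m.V => nf v • v) (c.Φ x) (l x) := (fderiv_nv _ _).symm

theorem inner_dn (l l' : M → c.m.V) (x : M) : ⟪dn c l x, l' x⟫_ℝ = ⟪l x, dn c l' x⟫_ℝ := by
  simp only [dn, inner_sub_left, inner_sub_right, real_inner_smul_left, real_inner_smul_right,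
    real_inner_comm (l x)]
  ring

variable (B G c) in
/-- admissible configurations with bounded derivatives -/
structure Gd : Prop extends CO B G c where
  adm : c.Adm B G
  Φ : G.F.Cb c.Φ
  p : G.F.Cb c.m.p
  ρ : ∀ a, G.F.Cb (c.m.ρ a)
  j : G.F.Cb c.m.j

/-- admissible pairings -/
def Pk.OK (F : Fr I M ι) : Pk M lam → Prop
  | .one => True
  | .re s => F.Cb s
  | .im s => F.Cb s

theorem pk_symm (H : c.m.OK I B) (T : Pk M lam) (x : M) (v w : c.m.V) :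
    ⟪pk c T x v, w⟫_ℝ = ⟪v, pk c T x w⟫_ℝ := by
  cases T with
  | one => rfl
  | re s => exact H.jsym _ _ _ _
  | im s =>
    simp only [pk, mul_apply_eq_comp]
    rw [H.Jsk, H.jsym, ← mul_apply_eq_comp, H.jJ]; simp

namespace Gd
variable (h : Gd B G c)
include h

theorem ppS : Pp G.F c.W c.m.p :=
  ⟨⟨h.tame, h.W, h.conn.sk, h.hG.P ▸ h.conn.cc.proj⟩, h.p, h.ok.psym, h.ok.pidem, h.conn.cc.par⟩

theorem pΦ (x : M) : c.m.p x (c.Φ x) = c.Φ x := by
  rw [← h.adm.pos x, ← mul_apply_eq_comp, p_pp h.ok]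

theorem q_nP : QP G.F c.m.p (nP c) :=
  ⟨Cb_nem contDiff_nv h.Φ, fun x => by rw [nP, map_smul, h.pΦ]⟩

theorem cb_dn {l : M → c.m.V} (hl : G.F.Cb l) : G.F.Cb (dn c l) := by
  rw [funext (dn_eq l)]
  exact Cb_app (Cb_nem (contDiff_nv.fderiv_right (m := ∞) le_rfl) h.Φ) hl

theorem cb_pk {T : Pk M lam} (hT : T.OK G.F) : G.F.Cb (pk c T) := by
  cases T with
  | one => exact Cb_const _
  | re s => exact Cb_app h.j hT
  | im s => exact Cb_comp (Cb_const c.m.J) (Cb_app h.j hT)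

theorem ok_pk {T : Pk M lam} (hT : T.OK G.F) : (SL.op (pk c T)).Ok (QP G.F c.m.p) := by
  refine ok_qp h.ok.psym (h.cb_pk hT) fun x v => ?_
  have e : ∀ s, c.m.p x * c.m.j x s = c.m.j x s * c.m.p x := fun s => by rw [h.ok.pj, j_p h.ok]
  cases T with
  | one => rfl
  | re s => simp only [pk, ← mul_apply_eq_comp, e]
  | im s => simp only [pk, ← mul_apply_eq_comp, mul_assoc, ← e]; rw [← mul_assoc, ← h.ok.Jp, mul_assoc]

theorem cb_lt {t : Lt M} (ht : t.OK G.F) : ∀ T, ltS G.F c t = .op T → G.F.Cb T := by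
  cases t with
  | mul f => rintro _ ⟨⟩; exact Cb_smul ht (Cb_const _)
  | cl g => rintro _ ⟨⟩; exact Cb_sum _ fun a _ => Cb_smul (ht.2 a) (h.ρ a)
  | im => rintro _ ⟨⟩; exact Cb_const _
  | G => rintro _ ⟨⟩

theorem ok_lt {t : Lt M} (ht : t.OK G.F) : (ltS G.F c t).Ok (QP G.F c.m.p) := by
  cases t with
  | mul f => exact ok_qp h.ok.psym (h.cb_lt ht _ rfl) fun x v => by simp
  | cl g =>
    refine ok_qp h.ok.psym (h.cb_lt ht _ rfl) fun x v => ?_
    simp only [_root_.sum_apply, smul_apply, map_sum, map_smul]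
    simp only [← mul_apply_eq_comp, (h.ok.cl x).pl, (h.ok.cl x).pr]
  | im =>
    refine ok_qp h.ok.psym (h.cb_lt ht _ rfl) fun x v => ?_
    simp only [← mul_apply_eq_comp, h.ok.Jp]
  | G => trivial

omit h in
theorem ok_la {t : La M} (ht : t.OK G.F) : (laS c t).Ok (QP G.F c.m.pg) := by
  cases t with
  | mul f => exact ok_qp inner_pg (Cb_smul ht (Cb_const _)) fun x v => by simp
  | G => trivial

theorem q_cy {d : Cy M} (hd : d.OK G.F) : QP G.F c.m.pg ((d.sed G.F).s c) :=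
  ⟨Cy.cb_s h.toCO hd, fun x => pg_of_mem (Cy.s_mem d _ c x)⟩

end Gd

/-! ### the translation estimate -/

section tr
variable [DecidableEq ι] {τ : M → ℝ} {a₀ : ι} {O : Set M} {n : ℕ} {k : ℝ}

variable (a₀ O) in
/-- time independent letters -/
def LtPr (F : Fr I M ι) : Lt M → Prop
  | .mul f => ∀ x ∈ O, F.D a₀ f x = 0
  | .cl g => ∀ x ∈ O, ∀ a, F.D a₀ (F.D a g) x = 0
  | _ => True

variable (a₀ O) in
/-- time independent pairings -/
def Pk.Pr (G : Geo I M ι lam) : Pk M lam → Prop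
  | .one => True
  | .re s => ∀ x ∈ O, nab I G.F.e G.a a₀ s x = 0
  | .im s => ∀ x ∈ O, nab I G.F.e G.a a₀ s x = 0

namespace Gd
variable (h : Gd B G c) (P : PN B G τ a₀ O)
include h P

theorem tzS : Tz G.F c.W (QP G.F c.m.p) a₀ O opL (xA G.F c τ) (xP G.F c τ) :=
  ⟨h.ppS.bmp, h.ppS.mc, cls_qp h.ppS, fun _ _ => QP.smul, P.dv, P.c1, P.sm_xA h.adm, P.sm_xP h.adm,
    fun _ hu x hx a => P.curv0 h.adm hx a (hu.2 x)⟩

theorem tzA : Tz G.F (c.m.adW c.W) (QP G.F c.m.pg) a₀ O (adR _) (xA G.F c τ) (xP G.F c τ) :=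
  ⟨h.pp.bmp, h.pp.mc, cls_qp h.pp, fun _ _ => QP.smul, P.dv, P.c1, P.sm_xA h.adm, P.sm_xP h.adm,
    fun u hu x hx a => by
      rw [curv_adW_g h.hB h.hG h.ok h.conn a₀ a (hu.2 x ▸ pg_mem x (u x)), P.toPrd.xA_eq c hx]; rfl⟩

theorem tr_nP (hk : 1 ≤ k) :
    RS.Tr G.F c.W (QP G.F c.m.p) a₀ O (xA G.F c τ) (xP G.F c τ) k (rsP c) := by
  refine ⟨h.q_nP, fun x => (abs_le_of_sq_le_sq' ((Mp86.norm_nf_sq (c.Φ x)).1.trans
    (one_le_pow₀ hk)) (by linarith)).2, fun _ _ => contMDiff_const,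
    fun l hl => cb_sm (h.cb_dn hl.1), fun l R θ ζ hl _ hθ => ?_⟩
  have e : ∀ x, θ x * (⟪xA G.F c τ x, (rsP c).sA l x⟫_ℝ + ⟪xP G.F c τ x, (rsP c).sP l x⟫_ℝ) =
      θ x * ⟪nab I G.F.e c.W a₀ (rsP c).s x, l x⟫_ℝ := fun x => by
    by_cases hx : x ∈ O
    · rw [show (rsP c).s = fun y => nf (c.Φ y) • c.Φ y from rfl,
        nab_smul a₀ (Mp86.sm_nf h.adm.sm x) (h.adm.sm x), Mp86.dv_nf h.ppS.mc h.adm.sm,
        ← P.toPrd.xP_eq c hx]
      simp only [rsP, Pi.zero_apply, inner_zero_right, zero_add, ← inner_dn]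
      simp only [dn, nf, neg_smul, sub_eq_neg_add]
    · simp [hθ.ts.zero hx]
  simp only [e, sub_self, abs_zero]
  exact mul_nonneg (by linarith) (mul_nonneg (by positivity) nz_nonneg)

theorem tl_lt (hn : 1 ≤ n) (hk : (n : ℝ) ≤ k) {t : Lt M} (ht : t.OK G.F) (hs : LtSz G.F n t)
    (hp : LtPr a₀ O G.F t) : (ltS G.F c t).Tl G.F c.W (QP G.F c.m.p) a₀ O k := by
  have l := (Mp86.slo_lt h.hB h.adm hn hs).le (by exact_mod_cast hn)
  refine ⟨h.ok_lt ht, ?_, ?_⟩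
  · cases t
    exacts [fun x => (l x).trans hk, fun x => (l x).trans hk, fun x => (l x).trans hk, trivial]
  cases t with
  | mul f => exact ⟨cb_sm (h.cb_lt ht _ rfl), fun x hx => by
      rw [nabE_smul a₀ (cb_sm ht x) contMDiffAt_const, ← Pre.D_def, hp x hx]; simp [nabE]⟩
  | cl g => exact ⟨cb_sm (h.cb_lt ht _ rfl), fun x hx => by
      rw [nabE_sum (T := fun a y => G.F.D a g y • c.m.ρ a y) a₀ _ fun a => (cb_sm (ht.2 a) x).smul (h.ok.sρ a x)]
      refine Finset.sum_eq_zero fun a _ => ?_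
      rw [nabE_smul a₀ (cb_sm (ht.2 a) x) (h.ok.sρ a x), ← Pre.D_def, hp x hx, P.rho1 h.adm hx]
      simp⟩
  | im => exact ⟨contMDiff_const, fun x _ => nabE_J h.conn a₀ x⟩
  | G => trivial

omit P in
theorem tl_pk (hn : 1 ≤ n) (hk : (n : ℝ) ≤ k) {T : Pk M lam} (ht : T.OK G.F) (hs : PkSz G n T)
    (hp : T.Pr a₀ O G) : (SL.op (pk c T)).Tl G.F c.W (QP G.F c.m.p) a₀ O k := by
  have n1 : (1 : ℝ) ≤ n := by exact_mod_cast hn
  refine ⟨h.ok_pk ht, fun x => le_trans ?_ hk, cb_sm (h.cb_pk ht), fun x hx => ?_⟩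
  · cases T with
    | one => exact ContinuousLinearMap.norm_id_le.trans n1
    | re s => exact (Mp86.opr_j h.hB h.ok h.conn hs).norm_le n1 x
    | im s => exact (norm_mul_le _ _).trans ((mul_le_of_le_one_left (norm_nonneg _)
        ((Mp86.opr_J h.ok h.conn).norm_le le_rfl x)).trans
          ((Mp86.opr_j h.hB h.ok h.conn hs).norm_le n1 x))
  cases T with
  | one => simp [pk, nabE]
  | re s => rw [pk, nabE_j h.conn h.ok a₀ (cb_sm ht x), hp x hx, map_zero]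
  | im s => rw [pk, nabE_mul a₀ contMDiffAt_const (cb_sm (Cb_app h.j ht) x), nabE_J h.conn,
      nabE_j h.conn h.ok a₀ (cb_sm ht x), hp x hx, map_zero, zero_mul, mul_zero, add_zero]

omit h P in
theorem tl_la (hk : (n : ℝ) ≤ k) {w : List (La M)} (ht : ∀ t ∈ w, t.OK G.F) (hs : LLSz n w)
    (hp : ∀ t ∈ w, Pr G.F a₀ O t) :
    ∀ t ∈ w.map (laS c), t.Tl G.F (c.m.adW c.W) (QP G.F c.m.pg) a₀ O k := fun t h => by
  have e : laS c = Cyc79.laV c.m.A := funext fun t => by cases t <;> rfl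
  refine ⟨?_, (Cyc79.wl_sz hs hk le_rfl).2 t (e ▸ h), Cyc79.par_map ht hp t (e ▸ h)⟩
  obtain ⟨t, h1, rfl⟩ := List.mem_map.1 h
  exact ok_la (ht t h1)

omit h P in
theorem kw_mono (hk : 1 ≤ k) {m : ℕ} (hm : m ≤ n) : kw k m ≤ kw k n := by
  unfold kw; gcongr

/-- spinor densities -/
theorem tr_sw (hn : 1 ≤ n) {T : Pk M lam} {u v : SW M} (hT : T.OK G.F) (hu : SW.OK G.F u)
    (hv : SW.OK G.F v) (sT : PkSz G n T) (su : SWSz G.F n u) (sv : SWSz G.F n v)
    (pT : T.Pr a₀ O G) (pu : ∀ t ∈ u, LtPr a₀ O G.F t) (pv : ∀ t ∈ v, LtPr a₀ O G.F t) :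
    RD.Tr G.F a₀ O (xA G.F c τ) (xP G.F c τ) (2 * kw n n ^ 5) ((Den.sw G.F T u v).rd c) := by
  have n1 : (1 : ℝ) ≤ n := by exact_mod_cast hn
  have w := fun {u : SW M} (hu : SW.OK G.F u) (su : SWSz G.F n u) (pu : ∀ t ∈ u, LtPr a₀ O G.F t) =>
    ((h.tr_nP P n1).wd (h.tzS P) n1 (List.forall_mem_map.2 fun t ht =>
      h.tl_lt P hn le_rfl (hu t ht) (su.2 t ht) (pu t ht))).mono
      (kw_mono n1 (n := n) (by rw [List.length_map]; exact su.1))
  rw [rd_sw]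
  exact RS.Tr.pair (h.tzS P) (n1.trans (self_le_kw n1 n)) (w hu su pu) (w hv sv pv)
    (h.tl_pk hn (self_le_kw n1 n) hT sT pT) (pk_symm h.ok T)

/-- words on cyclic seeds -/
theorem tr_cy {S : ℝ} (hS : L4 G.F.toPre S) (hS0 : 0 < S) {d : Cy M} (hd : d.OK G.F)
    (sd : d.Sz G.F n) (pd : d.Par G.F a₀ O) (hk : Cyc79.kT (Cyc79.kB S n) (n + 3) ≤ k)
    (hn : (n : ℝ) ≤ k) (k1 : 1 ≤ k) {w : List (La M)} (ht : ∀ t ∈ w, t.OK G.F) (hs : LLSz n w)
    (hp : ∀ t ∈ w, Pr G.F a₀ O t) : RS.Tr G.F (c.m.adW c.W) (QP G.F c.m.pg) a₀ O (xA G.F c τ)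
      (xP G.F c τ) (kw k n) (((d.sed G.F).wd G.F w).rs c) := by
  rw [rs_wd]
  exact (((Cy.tr h.toCO hd sd hS hS0 pd P.dv P.c1 _ (P.sm_xA h.adm)
    (fun x hx => P.toPrd.xA_eq c hx) (fun _ hu => hu.1) (h.q_cy hd)).mono hk).wd (h.tzA P) k1
    (tl_la hn ht hs hp)).mono (kw_mono k1 (by rw [List.length_map]; exact hs.1))

theorem tr_sed (hk : 1 ≤ k) {S S' : Sed M ι lam r}
    (h1 : RS.Tr G.F (c.m.adW c.W) (QP G.F c.m.pg) a₀ O (xA G.F c τ) (xP G.F c τ) k (S.rs c))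
    (h2 : RS.Tr G.F (c.m.adW c.W) (QP G.F c.m.pg) a₀ O (xA G.F c τ) (xP G.F c τ) k (S'.rs c)) :
    RD.Tr G.F a₀ O (xA G.F c τ) (xP G.F c τ) (2 * k ^ 5) ((Den.sed S S').rd c) :=
  RS.Tr.pair (h.tzA P) hk h1 h2 ⟨ok_qp inner_pg (Cb_const _) fun _ _ => rfl,
    fun _ => ContinuousLinearMap.norm_id_le.trans hk, contMDiff_const, fun x _ => by
      simp [nabE, ← ContinuousLinearMap.one_def]⟩
    fun _ _ _ => rfl

end Gd

end tr

end Crest.Agent.X212.Dgr80
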