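import Crest.Agent.X212.Dgr80.Eb2
import Crest.Agent.X212.Nd18.Fct

/-!
# Row 212, LEAF F-EB (helper80): no solutions at very negative levels
-/

set_option autoImplicit false
set_option linter.unusedSectionVars false
noncomputable section
open scoped Manifold ContDiff Topology
open Set Function Filter

namespace Crest.Agent.X212.Dgr80
open An An.Job M Nd18 Fin37 Jb7 G75 Ins26

variable {κ lam : Type} [Fintype κ] [Fintype lam] [DecidableEq lam] {Lm : LM κ lam} {S : Scene Lm}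

theorem exists_m (h : S.OK) : ∃ m : S.M.Cl, ↑S.fz ⊆ m.1 ∧ ↑S.ls ⊆ m.1 :=
  ⟨⟨↑S.fz ∪ ↑S.ls, Set.pairwise_union.2 ⟨h.fzc, (mL h).2, fun a ha l hl _ =>
    ⟨((h.fz a ha).2.2 l hl).2, ((h.fz a ha).2.2 l hl).2.symm⟩⟩⟩, subset_union_left,
    subset_union_right⟩

theorem ev_kz (i : S.L) (n₀ : ℤ) (C : ℝ) : ∀ᶠ j in atTop, kz S i j n₀ < C :=
  (tendsto_natCast_atTop_atTop.eventually_gt_atTop
    ((n₀ + 2 * S.ls.card - d0 S i - 6 * C) / 2)).mono fun j h => by unfold kz; linarith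

variable (Lm) in
/-- the two job leaves that are used -/
def TL0 : Prop := ∀ (S : Scene Lm) j n (F : Fam S j n) i, (F.job i).OK →
  TMSZ (F.job i) ∧ LIT (F.job i)

/-- **LEAF F-EB** -/
theorem ebP (ht : TL0 Lm) (hd : DatStmt Lm) (he : ExStmt Lm) : EbP Lm := fun S n d c hc => by
  classical
  by_cases c0 : c = 0
  · exact .of_forall fun j => if_neg fun k => k.1 c0
  obtain ⟨D⟩ := hd S hc.ok (ne_iff.1 c0).choose
  obtain ⟨m, m1, m2⟩ := exists_m hc.ok
  choose S' v a a0 gu using fun i => exists_gu (D.Λ i) (Ink3.xg0 Empty (S.N i)) m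
  choose C hC using fun i x => en0 ((S.N i).cy_ok x).yd (Ink3.nd0_ok _) Ink3.nd0_nil
  choose V V0 hV using fun i => ((eventually_ge_atTop 0).and ((tendsto_pow_atTop (α := ℝ)
    two_ne_zero).eventually_ge_atTop (82 * v i +
      96 * (Fintype.card (S.A × Option Bool) * ∑ x, |C i x|)))).exists
  refine (eventually_all.2 fun i => ev_kz i (-d) (-kJ (V i) (a i) 1 1)).mono fun j hj =>
    if_neg fun k => ?_
  obtain ⟨T, k1, T1⟩ := (k.2.and ev_lt).exists
  have hm : ∀ x ∈ hard S ∅, S.M.pin x ∨ x ∈ m.1 := fun x hx =>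
    hx.imp_right fun e => m2 (e.resolve_right (by simp))
  obtain ⟨F, f1, rfl, f3, rfl, f5, f6, -, f8⟩ := he S j n D ∅ m (-d) (fun i => {σ | c i σ ≠ 0}) hc.ok
    (by simp) (fun x hx => (hm x hx).resolve_left) (fun i σ k => ⟨(hc.cl.mem i σ k).1, hc.ns i σ k,
      hard_of hc.cl.toSf k _, by rw [(hc.cl.mem i σ k).2.1]; omega⟩) T T1
  obtain ⟨b, b0, hb⟩ := An.Sml.all fun i : {i // (F.𝒦 i).Nonempty} =>
    kap_ge (f1.ok i i.2) (ht S j n F i (f1.ok i i.2)).1 (ht S j n F i (f1.ok i i.2)).2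
      (fun _ => Ink3.nd0_nil) (fun _ _ => rfl) (by positivity) (fun x => ⟨C i x, Finset.single_le_sum
        (f := fun x => |C i x|) (fun _ _ => abs_nonneg _) (Finset.mem_univ x), hC i x⟩) (a0 i) (V0 i)
      (hV i) fun s ⟨σ, p1, p2, p3⟩ => gu i _ _ (congrFun f6 _)
        ((f1.ok i i.2).par σ p1 s (Job.cl_dom _ p2)) (fun x hx => by_contra fun e => hx
          (thS_out (fun k => e (.inr (m1 k))) fun k => e (hm x (f3 ▸ k)))) p3
  obtain ⟨q, q1, q2⟩ := ((k1 F f1 f3 f5 f8).and (GV.of_ball b0 (Gen.adm (isOp_ball b 0)))).ex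
  refine zero_ne_one (Eq.trans (Eq.symm ?_) q1)
  refine Finset.sum_eq_zero fun i _ => Finset.sum_eq_zero fun σ _ => mul_eq_zero.2
    (or_iff_not_imp_left.2 fun e => ?_)
  have : IsEmpty ((F.job i).TS (cel σ (some false)) q S.M.c0) := ⟨fun y => by
    have h1 := hb _ (fun _ => id) ⟨i, _, f8 i σ e⟩ _ (f8 i σ e) q y.1 q2 y.2.1
    have h2 := y.2.1.lev
    rw [Finset.sum_eq_zero fun x _ => indicator_of_notMem (fun k => k.1) _, y.2.2.1,
      Nat.cast_zero, add_zero, add_zero] at h2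
    exact (h1.trans_eq (h2.trans (congrArg (kz S i j) f5))).not_gt (hj i)⟩
  have : IsEmpty (Quot fun y y' : (F.job i).TS (cel σ (some false)) q S.M.c0 => Iso y.1 y'.1) :=
    ⟨Quot.ind fun y => this.elim y⟩
  exact (congrArg _ Nat.card_of_isEmpty).trans Nat.cast_zero

end Crest.Agent.X212.Dgr80
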