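import Crest.Agent.X212.Nck90.Xs
import Crest.Agent.X212.Nfo63.Loc
import Crest.Agent.X212.Pat85.Fj

/-!
# Row 212, ELM-PSC (helper80): exponential convergence at ends of positive scalar curvature
-/

set_option autoImplicit false
set_option linter.unusedSectionVars false
noncomputable section
open scoped Manifold ContDiff Topology
open Set Function Filter

namespace Crest.Agent.X212.Dgr80
open An An.Job M Nd18
open Rdc90 (Bs HC PS)

variable {Wi : Type} {X : Mf 4} {A κ lam : Type} [Fintype A] [Fintype κ] [Fintype lam]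
  [DecidableEq lam] {M : Mark X A κ} {W : World M} {N : ML M lam}
  {Λ : Lns W N} {A' h : Type} [Fintype A'] [DecidableEq A'] [Fintype h] {r n : ℕ}
  {J : Job Wi Λ A' h r n} (hJ : J.OK) {σ : Cel A'} (hσ : σ ∈ J.𝒦) {c : M.Cl} {q : Wi →₀ ℝ}
  {y : J.Obc c} (hs : Sol σ q y) {a : A} {b : Bool} (ha : Act J.m c a (some b) (J.Θ y.s))
include hJ hσ hs

/-- far out on an end only the terms of the neck survive -/
theorem end_loc : ∃ d > 0, Dp (J.K c a _ _ ha).p (J.K c a _ _ ha).q d ∈ (bif b then atBot else atTop) ∧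
    ∀ x, ∀ z ∈ (J.K c a _ _ ha).dp d,
      (J.τ c q y.s).D x z = ((J.xs a).N.pt (J.K c a _ _ ha) ((J.xs a).q q) : Pt _ _ _ r n).D x z ∧
      (J.τ c q y.s).C x z = ((J.xs a).N.pt (J.K c a _ _ ha) ((J.xs a).q q) : Pt _ _ _ r n).C x z := by
  have h1 : (J.Θ y.s).2 a = 1 := hs.inf.ge ha.2.2.2
  obtain ⟨a', e1, e2⟩ := hJ.inf σ hσ _ (J.cl_dom hs.cell) a h1
  obtain ⟨s₀, k1, k2⟩ := hJ.lin
  obtain ⟨d, hd⟩ := Nfo63.loc (l := pure ()) (s := fun _ => y.s) hJ hσ (fun _ => ⟨hs.cell, hs.inf⟩)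
    tendsto_const_nhds hs.cell h1 (fun _ => ha) (Pat85.dj hJ)
    (fun _ => (k2 a' a e1 _ (e2 ▸ k1.le)).2 ha.1) (q := fun _ => q) (T := q.support)
    fun _ hw _ => Finsupp.notMem_support_iff.1 hw
  refine ⟨max d 1, by positivity, ?_, fun x z hz => eventually_pure.1 hd x z
    (Dp_mono (le_max_left d 1) hz)⟩
  rw [(hJ.nk _ _ _ _ ha).lo, (hJ.nk _ _ _ _ ha).hi]
  cases b
  · exact mem_of_superset (Ici_mem_atTop (max d 1)) fun s hs => by simpa [Dp] using hs
  · exact mem_of_superset (Iic_mem_atBot (-max d 1)) fun s hs => by simpa [Dp] using hs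

/-- **ELM at ends of positive scalar curvature** (the hypotheses are the fields of `Nck90.PW`) -/
theorem elm_psc (nil : Ink3.Nil (J.xs a).N) (ty : (J.xs a).ty = 0)
    (bs : ∀ β, (J.xs a).N.Crit (J.xs a).D β → Bs (J.xs a).D β ∧ HC (J.xs a).D β)
    (ps : ∃ c₀ > 0, PS (J.xs a).D c₀) : ∃ d > 0,
      (J.K c a _ _ ha).ELim d y.x (y.β a b) (y.ζ a b) (bif b then atBot else atTop) := by
  obtain ⟨d, d0, h1, h2⟩ := end_loc hJ hσ hs ha
  have k := bs _ (hs.crit a ⟨ha.2.2.2, ha.1⟩ b)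
  refine (Nck90.elim_psc k.1 k.2 ps).imp fun e k => ⟨k.1, k.2 _ _ _ _ _ _
    (by cases b; exacts [.inl rfl, .inr rfl]) h1 (Nck90.adm_pb _ hs.sol.toAdm)
    (Nck90.eqs_pb _ hs.sol (Dp_sub d0) fun z hz => ?_) (hs.lim a b ha)⟩
  have := h2 y.x z hz
  rwa [show (J.xs a).q q = 0 by simp [Xs.q, ty], nil.pt] at this

end Crest.Agent.X212.Dgr80
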