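import Crest.Agent.X212.Dgr80.E1c

/-!
# Row 212, DGR (helper80): the non-gradient terms are dominated by the energy
-/

set_option autoImplicit false
set_option linter.unusedSectionVars false
noncomputable section
open scoped Manifold ContDiff Topology InnerProductSpace Classical
open MeasureTheory Set Function Filter

namespace Crest.Agent.X212.Dgr80
open An Wz78 Nd18 Cyf70 Nka63
open Mp86 (NK Mc)

theorem abs_nv (x : ℝ) : |x / √(1 + x ^ 2)| ≤ |x| ∧ |x / √(1 + x ^ 2)| ≤ 1 := by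
  have h1 : 1 ≤ √(1 + x ^ 2) := Real.one_le_sqrt.2 (le_add_of_nonneg_right (sq_nonneg _))
  rw [abs_div, abs_of_nonneg (Real.sqrt_nonneg _)]
  exact ⟨div_le_self (abs_nonneg _) h1, div_le_one_of_le₀
    (Real.abs_le_sqrt (le_add_of_nonneg_left zero_le_one)) (Real.sqrt_nonneg _)⟩

theorem norm_nrm {V : Type} [NormedAddCommGroup V] [InnerProductSpace ℝ V] (v : V) :
    ‖nrm v‖ ≤ 1 := by
  have := (abs_nv ‖v‖).2
  rwa [abs_div, abs_norm, div_eq_inv_mul, ← abs_inv, ← Real.norm_eq_abs, ← norm_smul] at this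

theorem ct_getD {p q : Option ℝ} {a a' s : ℝ} : θc (p.getD a) (q.getD a') s ≤ ct p q 3 s := by
  have h0 := Real.smoothTransition.nonneg
  have h1 := Real.smoothTransition.le_one
  cases p <;> cases q <;> simp only [θc, ct, Option.getD, Option.elim]
  exacts [mul_le_mul (h1 _) (h1 _) (h0 _) zero_le_one, mul_le_mul_of_nonneg_right (h1 _) (h0 _),
    mul_le_mul_of_nonneg_left (h1 _) (h0 _), le_rfl]

theorem ev_getD {p q : Option ℝ} (s : ℝ) :
    ∀ᶠ n : ℕ in atTop, θc (p.getD (-n)) (q.getD n) s = ct p q 3 s := by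
  filter_upwards [Mp86.ev_nat (|s| + 4)] with n hn
  have h1 := Real.smoothTransition.one_of_one_le (x := s - -n - 3) (by linarith [neg_abs_le s])
  have h2 := Real.smoothTransition.one_of_one_le (x := n - s - 3) (by linarith [le_abs_self s])
  cases p <;> cases q <;> simp only [θc, ct, Option.getD, Option.elim, h1, h2]

theorem sb_getD (p q : Option ℝ) (a a' : ℝ) : Sb p q (p.getD a) (q.getD a') :=
  ⟨fun _ h => by rw [Option.mem_def.1 h]; rfl, fun _ h => by rw [Option.mem_def.1 h]; rfl⟩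

section gen
variable {E : Type} [NormedAddCommGroup E] [NormedSpace ℝ E] [FiniteDimensional ℝ E]
  [MeasurableSpace E] [BorelSpace E]
  {HM : Type} [TopologicalSpace HM] {I : ModelWithCorners ℝ E HM}
  {M : Type} [TopologicalSpace M] [ChartedSpace HM M] [IsManifold I ∞ M]
  [MeasurableSpace M] [T2Space M] [BorelSpace M] {ι : Type} [Fintype ι] {F : Fr I M ι}
  {V : Type} [NormedAddCommGroup V] [InnerProductSpace ℝ V] {A : ι → M → CL V V} {ϖ : M → ℝ}

theorem Amb.lb_res (h : Amb F ϖ) (hA : Mc I A) {s : M → V} {a : ℝ}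
    (hb : LB F.μ (fun x => ‖s x‖ ^ 2) a) : LB F.μ (fun x => ‖F.res A s x‖ ^ 2) (8 * a) := by
  rcases Mp86.res_cases F A s with k | k
  · exact (h.wk_res hA wg_one k (by simpa only [one_mul] using hb)).mono
      (k.1.continuous.norm.pow 2).aestronglyMeasurable (fun _ => sq_nonneg _) fun x => by
        linarith [g2_nonneg (F := F) (A := A) (u := F.res A s) x]
  · have := hb.nonneg fun _ => sq_nonneg _
    rw [k.2]; exact ⟨by simp, by simpa using this⟩

theorem norm_fsum {W N : Type} [NormedAddCommGroup N] [NormedSpace ℝ N] {q : W →₀ ℝ} {f : W → N}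
    {R : W → ℝ} {m k : ℝ} (hm : 0 ≤ m) (hk : 0 < k) (h : ∀ w, ‖f w‖ ≤ R w * m)
    (hq : Sml (fun w => k * R w) q) : ‖q.sum fun w a => a • f w‖ ≤ k⁻¹ * m := by
  refine (norm_sum_le _ _).trans ((Finset.sum_le_sum fun w _ => (norm_smul _ _).trans_le
    (mul_le_mul_of_nonneg_left (h w) (norm_nonneg _))).trans ?_)
  refine le_trans (le_of_eq ?_) (mul_le_of_le_one_right (mul_nonneg (inv_pos.2 hk).le hm) hq.le)
  rw [Finsupp.sum, Finset.mul_sum]
  exact Finset.sum_congr rfl fun w _ => by rw [Real.norm_eq_abs]; field_simp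

end gen

variable {E3 : Type} [NormedAddCommGroup E3] [NormedSpace ℝ E3] [FiniteDimensional ℝ E3]
  [MeasurableSpace E3] [BorelSpace E3]
  {H3 : Type} [TopologicalSpace H3] {I3 : ModelWithCorners ℝ E3 H3} [I3.Boundaryless]
  {Y : Type} [TopologicalSpace Y] [ChartedSpace H3 Y] [IsManifold I3 ∞ Y] [T2Space Y]
  [MeasurableSpace Y] [BorelSpace Y] [SecondCountableTopology Y] [CompactSpace Y]
  {κ : Type} [Fintype κ] {lam : Type} [Fintype lam] {D : YD I3 Y κ lam} {S : ℝ} {r n : ℕ}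
  {N : ND Y lam}

theorem exists_sk (T : YW I3 Y) : ∃ R, ∀ x, |T.1.C.k x| ≤ R := by
  obtain ⟨T, h⟩ := T
  have : T.C.OK := by cases T <;> exact h.1
  exact (this.2 0).imp fun _ k x => by simpa using k x

/-- the size of a term -/
def sk (T : YW I3 Y) : ℝ := (exists_sk T).choose

/-- the non-gradient part of the neck perturbation -/
abbrev qq (N : ND Y lam) (X : NK D S) (q : YW I3 Y →₀ ℝ) (r n : ℕ) : Pt X.M (Option κ) lam r n :=
  fsum (fun T : YW I3 Y => N.q2 X.K T.1) q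

/-- the smoothed energy at time `t` -/
abbrev eT (N : ND Y lam) (X : NK D S) (c : Cfg X.M (Option κ) lam r) : ℝ → ℝ :=
  wn X.G.F.μ X.K.τ N.δ (N.ew X.K c)

variable (X : NK D S) {c : Cfg X.M (Option κ) lam r}

theorem qq_le (hδ : 0 < N.δ) (A : c.Adm X.B X.G) {k : ℝ} (hk : 1 ≤ k) {q : YW I3 Y →₀ ℝ}
    (hq : Sml (fun T => k * sk T) q) (x : X.M) : ‖(qq N X q r n).D c x‖ ≤ 1 ∧
      ‖(qq N X q r n).D c x‖ ^ 2 + ‖(qq N X q r n).C c x‖ ^ 2 ≤ 2 * k⁻¹ * eT N X c (X.K.τ x) := by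
  have e0 := wn_nonneg (μ := X.G.F.μ) (τ := X.K.τ) hδ (Mp86.ct_ew (N := N) X A).2 (X.K.τ x)
  obtain ⟨h1, h2⟩ := abs_nv (eT N X c (X.K.τ x))
  set m := |eT N X c (X.K.τ x) / √(1 + eT N X c (X.K.τ x) ^ 2)|
  have m0 : 0 ≤ m := abs_nonneg _
  have o : ∀ T : YW I3 Y, |N.oc X.K T.1 c x| ≤ sk T * m := fun T => by
    rw [ND.oc, abs_mul]
    refine (mul_le_of_le_one_left (abs_nonneg _) ((abs_of_nonneg ct_mem.1).trans_le ct_mem.2)).trans
      ((abs_mul _ _).trans_le ((mul_comm _ _).trans_le (mul_le_mul ((exists_sk T).choose_spec _)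
        ((abs_nv _).1.trans_eq ?_) (abs_nonneg _)
          ((abs_nonneg _).trans ((exists_sk T).choose_spec 0)))))
    simp [m, ND.tc, YTC.out]
  have l : ∀ {V : Type} [NormedAddCommGroup V] [InnerProductSpace ℝ V] (v : YW I3 Y → V),
      ‖q.sum fun T a => a • N.oc X.K T.1 c x • nrm (v T)‖ ≤ k⁻¹ * m := fun v =>
    norm_fsum m0 (by linarith) (fun T => (norm_smul _ _).trans_le
      ((mul_le_of_le_one_right (norm_nonneg _) (norm_nrm _)).trans (o T))) hq
  have k1 : k⁻¹ ≤ 1 := inv_le_one_of_one_le₀ hk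
  have k0 : 0 ≤ k⁻¹ := inv_nonneg.2 (by linarith)
  have b : k⁻¹ * m ≤ 1 := mul_le_one₀ k1 m0 h2
  have b2 : (k⁻¹ * m) ^ 2 ≤ k⁻¹ * eT N X c (X.K.τ x) := by
    rw [abs_of_nonneg e0] at h1
    nlinarith [mul_le_mul_of_nonneg_left h1 k0, mul_nonneg k0 m0]
  have a1 : ‖(qq N X q r n).D c x‖ ≤ k⁻¹ * m := l _
  have a2 : ‖(qq N X q r n).C c x‖ ≤ k⁻¹ * m := l _
  exact ⟨a1.trans b, by
    linarith [pow_le_pow_left₀ (norm_nonneg _) a1 2, pow_le_pow_left₀ (norm_nonneg _) a2 2]⟩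

theorem χ4_le (x : X.M) : X.K.χ4 x ^ 2 ≤ X.K.cut 3 (X.K.τ x) := by
  by_cases hx : x ∈ X.K.dp 4
  · rw [cut_τ_one X.K (by norm_num) (by norm_num; exact hx)]; exact pow_le_one₀ ct_mem.1 ct_mem.2
  · rw [show X.K.χ4 x = 0 from ct_zero hx, sq, zero_mul]; exact ct_mem.1

omit X in
/-- the smoothed energy is bounded by the energy -/
theorem exists_ew (hD : D.OK) (hN : N.OK D) : ∃ C, 1 ≤ C ∧ ∀ S r (X : NK D S)
    (c : Cfg X.M (Option κ) lam r) ϖ a, c.Adm X.B X.G → Amb X.G.F ϖ →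
    LB X.G.F.μ (fun x => X.K.cut 3 (X.K.τ x) * en X.G.F c X.K.τ x) a →
    LB X.G.F.μ (N.ew X.K c) (C * a) := by
  choose C hC using fun i => cbs_D_fn D (g := some (N.y i)) fun _ h => Option.some.inj h ▸ hN.sy i
  refine ⟨∑ i, 8 * (8 * (4 * (Fintype.card (Option κ) * C i 0) ^ 2)) + 1,
    le_add_of_nonneg_left (by positivity), fun S r X c ϖ a A hϖ h => ?_⟩
  have P := pn2 hD X
  have c4 : Continuous X.K.χ4 := contDiff_ct.continuous.comp X.K.cont
  have k : ∀ i, LB X.G.F.μ (fun x => ‖c.sd X.G.F (.cv X.K.χ4 X.K.τ (X.K.ext (N.y i))) x‖ ^ 2)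
      (8 * (8 * (4 * (Fintype.card (Option κ) * C i 0) ^ 2 * a))) := fun i => by
    have e : ∀ x, ∑ s : Option κ × Option κ, (X.K.χ4 x * X.G.F.D s.1 X.K.τ x *
        X.G.F.D s.2 (X.K.ext (N.y i)) x) • c.m.Fg X.G.F c.W x s =
        X.K.χ4 x • ∑ b, X.G.F.D b (X.K.ext (N.y i)) x • xA X.G.F c X.K.τ x b := fun x => by
      rw [Fintype.sum_prod_type, Finset.sum_comm]
      simp only [xA, Finset.smul_sum, smul_smul]
      exact Finset.sum_congr rfl fun _ _ => Finset.sum_congr rfl fun _ _ => by congr 1; ring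
    have mc := Mp86.mc_adW A.conn
    refine hϖ.lb_res mc (hϖ.lb_res mc ?_)
    simp only [e]
    refine (h.mul (by positivity)).mono ((c4.smul (continuous_finsetSum _ fun b _ =>
      (X.G.F.sm_D (sm_ext X.K (hN.sy i)) b).continuous.smul
        (sm_app (P.sm_xA A) b).continuous)).norm.pow 2).aestronglyMeasurable
      (fun _ => sq_nonneg _) fun x => ?_
    have b := pow_le_pow_left₀ (norm_nonneg _) ((norm_sum_le _ _).trans (Finset.sum_le_card_nsmul
      Finset.univ _ _ fun b _ => (norm_smul _ _).trans_le (mul_le_mul ((hC i X.K b).2 0 [] le_rfl x)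
        (PiLp.norm_apply_le (xA X.G.F c X.K.τ x) b) (norm_nonneg _)
          ((norm_nonneg _).trans ((hC i X.K b).2 0 [] le_rfl x))))) 2
    rw [nsmul_eq_mul, Finset.card_univ, ← mul_assoc, mul_pow] at b
    rw [norm_smul, mul_pow, Real.norm_eq_abs, sq_abs, mul_left_comm]
    refine mul_le_mul (χ4_le X x) (b.trans ?_) (sq_nonneg _) ct_mem.1
    rw [en]
    nlinarith [mul_nonneg (sq_nonneg (Fintype.card (Option κ) * C i 0))
      (sq_nonneg ‖xP X.G.F c X.K.τ x‖)]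
  refine (((LB.sum Finset.univ fun i _ => k i).add h).mono (Mp86.ct_ew X A).1.aestronglyMeasurable
    (Mp86.ct_ew X A).2 fun x => ?_).le (le_of_eq (by simp only [add_mul, Finset.sum_mul, mul_assoc, one_mul]))
  refine (mul_le_of_le_one_left (by unfold ew; positivity) ct_mem.2).trans (add_le_add le_rfl ?_)
  rw [norm_smul, mul_pow, Real.norm_eq_abs, sq_abs]
  exact mul_le_mul (χ4_le X x) (le_add_of_nonneg_left (by positivity)) (sq_nonneg _) ct_mem.1

theorem tend_θ {f : X.M → ℝ} (hf : Continuous f)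
    (hi : Integrable (fun x => X.K.cut 3 (X.K.τ x) * f x) X.G.F.μ) :
    Tendsto (fun n : ℕ => ∫ x, θc (X.K.p.getD (-n)) (X.K.q.getD n) (X.K.τ x) * f x ∂X.G.F.μ) atTop
      (𝓝 (∫ x, X.K.cut 3 (X.K.τ x) * f x ∂X.G.F.μ)) :=
  tendsto_integral_of_dominated_convergence _ (fun _ => ((contDiff_ct.continuous.comp
    X.K.sm_τ.continuous).mul hf).aestronglyMeasurable) hi.norm (fun _ => .of_forall fun x => by
      rw [norm_mul, norm_mul, Real.norm_of_nonneg ct_mem.1, Real.norm_of_nonneg ct_mem.1]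
      exact mul_le_mul_of_nonneg_right ct_getD (norm_nonneg _))
    (.of_forall fun x => tendsto_const_nhds.congr' ((ev_getD _).mono fun _ h => congrArg (· * f x) h.symm))

variable {X} {a a' e : ℝ} (T : Sb X.K.p X.K.q a a')
include T

theorem Sb.lb_eT (hδ : 0 < N.δ) (A : c.Adm X.B X.G) (h : LB X.G.F.μ (N.ew X.K c) e) :
    LB X.G.F.μ (fun x => θc a a' (X.K.τ x) * eT N X c (X.K.τ x)) (vY D * e) := by
  have := sfin X.G.F.toPre
  have m := X.K.sm_τ.continuous.aestronglyMeasurable (μ := X.G.F.μ)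
  obtain ⟨i, k⟩ := integral_wn hδ m h.1
  have p := wn_nonneg (μ := X.G.F.μ) (τ := X.K.τ) hδ (Mp86.ct_ew (N := N) X A).2
  have l : LB volume (fun t => θc a a' t * eT N X c t) e := LB.mono ⟨i, k.trans_le h.2⟩
    (contDiff_ct.continuous.aestronglyMeasurable.mul i.1) (fun t => mul_nonneg ct_mem.1 (p t))
    fun t => mul_le_of_le_one_left (p t) ct_mem.2
  have := int_time X.K l.1 (T.off (d := 3) (by norm_num) fun _ h => mul_eq_zero_of_left (ct_zero h) _)
  simp only [fun t => abs_of_nonneg (mul_nonneg (ct_mem (p := some a) (q := some a') (d := 3)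
    (s := t)).1 (p t))] at this
  exact this.le (mul_le_mul_of_nonneg_left l.2 (vY_nonneg D))

/-- the boundary term of the Dirac operator -/
theorem Sb.dirac (hD : D.OK) (A : c.Adm X.B X.G) {U : ℝ} {g : X.M → ℝ} (g0 : ∀ x, 0 ≤ g x)
    (U0 : 0 ≤ U) (hΦ : ∀ x, ‖c.Φ x‖ ^ 2 ≤ U) (hg : LB X.G.F.μ (fun x => X.K.cut 2 (X.K.τ x) * g x) e)
    (h : ∀ x ∈ X.K.dp 2, ‖dir X.I X.G.F.e c.m.ρ c.W c.Φ x‖ ^ 2 ≤ U + 2 * g x) :
    ∫ x, X.G.F.D none (fun x => θc a a' (X.K.τ x)) x * ⟪dY X.G.F c X.K.τ x, c.Φ x⟫_ℝ ∂X.G.F.μ ≤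
      2 * U * (vY D * (80 * cA)) + cA * e := by
  have P := pn2 hD X
  have t0 := (T.tf (G := X.G)).ts.D (F := X.G.F) none
  have t1 := t0.mul (sm_inner A.sm A.sm)
  have i0 := (t0.mul (sm_inner (P.sm_dY A) A.sm)).int X.G.F
  have i1 := (t1.D (F := X.G.F) none).int X.G.F
  have e1 := ibp0_fun (F := X.G.F) P.dv t1
  have c1 := cd_deriv (contDiff_ct (p := some a) (q := some a') (d := 3))
  have l1 := T.lbZ (G := X.G) c1.continuous (fun _ => dct_le) fun s h => dθ_off s fun e => h (Zc_sub e)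
  have l2 := T.lbZ (G := X.G) (cd_deriv c1).continuous (C := cA)
    (fun _ => by simpa [iteratedDeriv_succ] using ct_le 2) fun s h =>
      deriv_off isClosed_Zc dθ_off s fun e => h (Zc_sub e)
  have l := ((l1.add l2).1.const_mul U).add (hg.1.const_mul cA)
  have key : ∀ x, X.G.F.D none (fun x => θc a a' (X.K.τ x)) x * ⟪dY X.G.F c X.K.τ x, c.Φ x⟫_ℝ +
      2⁻¹ * X.G.F.D none (fun x => X.G.F.D none (fun x => θc a a' (X.K.τ x)) x *
        ⟪c.Φ x, c.Φ x⟫_ℝ) x ≤ U * (|deriv (θc a a') (X.K.τ x)| + |deriv (deriv (θc a a')) (X.K.τ x)|) +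
        cA * (X.K.cut 2 (X.K.τ x) * g x) := fun x => by
    have p1 := mul_nonneg (mul_nonneg (zero_le_one.trans one_le_cA) (ct_mem (p := X.K.p)
      (q := X.K.q) (d := 2) (s := X.K.τ x)).1) (g0 x)
    by_cases hx : x ∈ O X.K 2
    swap
    · rw [t0.zero hx, (t1.D none).zero hx, ← mul_assoc cA, zero_mul, mul_zero, add_zero]
      positivity
    rw [Pre.D_def _ none (fun x => _ * _), dv_mul (t0.sm x) (sm_inner A.sm A.sm x),
      dv_inner none (A.conn.sk none x) (A.sm x) (A.sm x), ← P.toPrd.xP_eq c hx, ← Pre.D_def, T.Dθ,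
      T.DDθ, dY, inner_sub_left, inner_neg_left, real_inner_comm (xP _ _ _ _),
      real_inner_self_eq_norm_sq]
    beta_reduce
    have b1 : |deriv (θc a a') (X.K.τ x)| ≤ cA * X.K.cut 2 (X.K.τ x) := by
      by_cases z : X.K.τ x ∈ Zc a a' 3 4
      · rw [show X.K.cut 2 (X.K.τ x) = 1 from ct_one (by norm_num; exact T.dp z.1), mul_one]
        exact dct_le
      · rw [dθ_off _ z, abs_zero]; exact mul_nonneg (zero_le_one.trans one_le_cA) ct_mem.1
    have b2 : |⟪cT X.G.F c X.K.τ x (dir X.I X.G.F.e c.m.ρ c.W c.Φ x), c.Φ x⟫_ℝ| ≤ U + g x :=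
      (abs_real_inner_le_norm _ _).trans ((mul_le_mul_of_nonneg_right (P.norm_cT A hx _)
        (norm_nonneg _)).trans (by
          linarith [h x (O_sub_dp X.K hx), hΦ x, two_mul_le_add_sq
            ‖dir X.I X.G.F.e c.m.ρ c.W c.Φ x‖ ‖c.Φ x‖]))
    have b3 := (neg_le_abs _).trans ((abs_mul _ _).trans_le (mul_le_mul_of_nonneg_left b2
      (abs_nonneg (deriv (θc a a') (X.K.τ x)))))
    have b4 := mul_le_mul_of_nonneg_right b1 (g0 x)
    have b5 := mul_le_mul (le_abs_self (deriv (deriv (θc a a')) (X.K.τ x))) (hΦ x) (sq_nonneg _)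
      (abs_nonneg _)
    have b6 := mul_nonneg (abs_nonneg (deriv (deriv (θc a a')) (X.K.τ x))) U0
    linarith
  have := integral_mono (i0.add (i1.const_mul 2⁻¹)) l key
  simp only [Pi.add_apply] at this
  rw [integral_add i0 (i1.const_mul _), integral_const_mul, e1, mul_zero, add_zero,
    integral_add ((l1.add l2).1.const_mul U) (hg.1.const_mul cA), integral_const_mul,
    integral_const_mul] at this
  linarith [mul_le_mul_of_nonneg_left (l1.add l2).2 U0,
    mul_le_mul_of_nonneg_left hg.2 (zero_le_one.trans one_le_cA)]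

end Crest.Agent.X212.Dgr80
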