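import Crest.Agent.X212.Fin37.Defs
import Crest.Agent.X212.Dgr80.E1d
import Crest.Agent.X212.Eqv71.Job

/-!
# Row 212 (helper80): finite energy on necks with exponentially decaying ends (FIN-FEN)
-/

set_option autoImplicit false
set_option linter.unusedSectionVars false
noncomputable section
open scoped Manifold ContDiff Topology InnerProductSpace Classical
open MeasureTheory Set Function Filter

namespace Crest.Agent.X212.Dgr80
open An Wz78 Nd18 Cyf70 Nka63

variable {E3 : Type} [NormedAddCommGroup E3] [NormedSpace ℝ E3] [FiniteDimensional ℝ E3]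
  [MeasurableSpace E3] [BorelSpace E3]
  {H3 : Type} [TopologicalSpace H3] {I3 : ModelWithCorners ℝ E3 H3} [I3.Boundaryless]
  {Y : Type} [TopologicalSpace Y] [ChartedSpace H3 Y] [IsManifold I3 ∞ Y] [T2Space Y]
  [MeasurableSpace Y] [BorelSpace Y] [SecondCountableTopology Y] [CompactSpace Y]
  {κ : Type} [Fintype κ] {lam : Type} [Fintype lam] {D : YD I3 Y κ lam}
  {E : Type} [NormedAddCommGroup E] [NormedSpace ℝ E] [FiniteDimensional ℝ E]
  [MeasurableSpace E] [BorelSpace E]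
  {HM : Type} [TopologicalSpace HM] {I : ModelWithCorners ℝ E HM} [I.Boundaryless]
  {M : Type} [TopologicalSpace M] [ChartedSpace HM M] [IsManifold I ∞ M]
  [MeasurableSpace M] [BorelSpace M] [T2Space M] [SecondCountableTopology M]
  {B : Base M (Option κ) lam} {G : Geo I M (Option κ) lam} (K : Nk D B G) {r : ℕ}
  {c : Cfg M (Option κ) lam r} {f : M → ℝ} {l : Filter ℝ}

/-- the densities in the coordinates of the neck -/
theorem en_pb {z : Y × ℝ} (hz : z ∈ K.ψ.source) (h : K.ψ z ∈ O K 1) :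
    en D.Z (K.pb c) Prod.snd z = en G.F c K.τ (K.ψ z) := by
  have e : ∀ a, D.Z.D a Prod.snd z = G.F.D a K.τ (K.ψ z) := fun a => K.rel.D hz a (by
    filter_upwards [K.ψ.open_source.mem_nhds hz, (K.ψ.continuousAt hz).preimage_mem_nhds
      ((isOpen_O K).mem_nhds h)] with y h1 h2 using ((τ_eq K h2).trans (K.tm_ψ y h1)).symm)
  have e1 : (K.pb c).m.Fg D.Z (K.pb c).W z = c.m.Fg G.F c.W (K.ψ z) := K.rel.Fg hz c.W
  have e2 : ∀ a, nab (IC I3) D.Z.e (K.pb c).W a (K.pb c).Φ z = nab I G.F.e c.W a c.Φ (K.ψ z) :=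
    fun a => K.rel.nab hz a rfl (.of_forall fun _ => rfl)
  simp only [en, xA, xP, nt, e, e1, e2]
  rfl

theorem kd_pb {z : Y × ℝ} (hz : z ∈ K.ψ.source) :
    (K.pb c).m.kd D.B D.Z (K.pb c).W z = c.m.kd B G.F c.W (K.ψ z) := by
  have e1 : (K.pb c).m.Fg D.Z (K.pb c).W z = c.m.Fg G.F c.W (K.ψ z) := K.rel.Fg hz c.W
  have e2 : D.B.st z = B.st (K.ψ z) := funext₂ fun s t => by simp only [Base.st, K.o _ _ _ _ z hz]
  simp only [Md.kd, e1, e2]
  rfl

/-- exponential decay along an end -/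
def Dk (f : M → ℝ) (l : Filter ℝ) : Prop := ∃ C d, 0 < d ∧ ∀ᶠ s in l, ∀ x ∈ O K 1, K.tm x = s →
  |f x| ≤ C * Real.exp (-d * |s|)

variable {K}

theorem dk_of_elim (hD : D.OK) (h : Eqv71.Ad0 c B G) {β : YC Y κ lam} (hβ : D.Adm β) {d : ℝ}
    (d0 : 0 < d) {ζ : Circle} (hl : Bki64.IsEnd l) (H : K.ELim d c β ζ l) :
    Dk K (en G.F c K.τ) l ∧ Dk K (c.m.kd B G.F c.W) l := by
  obtain ⟨u, S, a, b, -, H⟩ := H
  obtain ⟨C, H⟩ := H 1
  obtain ⟨C', -, k⟩ := Bki64.ek_cy hD hβ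
  have t : Tendsto (fun s : ℝ => C * Real.exp (-d * |s|)) l (𝓝 (C * 0)) :=
    (Real.tendsto_exp_atBot.comp (hl.far.const_mul_atTop_of_neg (neg_neg_of_pos d0))).const_mul C
  have key : ∀ᶠ s in l, ∀ x ∈ O K 1, K.tm x = s → |en G.F c K.τ x| ≤ C' * C * Real.exp (-d * |s|) ∧
      |c.m.kd B G.F c.W x| ≤ C' * C * Real.exp (-d * |s|) := by
    filter_upwards [hl.ev a 1, t.eventually (ge_mem_nhds (show C * 0 < 1 by simp))] with s h1 h2 x
      hx e
    have h3 := Ioo_subset_Icc_self.trans h1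
    have h4 := O_sub K zero_le_one hx
    have h5 := K.ψ.map_target h4
    have A := Eqv71.admOn_pb K h (h3.trans b)
    have := k _ _ _ _ _ _ A (Bki64.cl_of_cls (c := K.pb (noz c)) hβ A
      ⟨(H s h3).op, (H s h3).m, (H s h3).A, (H s h3).P⟩) h2 (K.ψ.symm x)
      ⟨trivial, by rw [K.snd_symm h4, e]; simp⟩
    rw [Bki64.eZ, Bki64.kZ, en_pb K h5 (by rwa [K.ψ.right_inv h4]), kd_pb K h5, K.ψ.right_inv h4,
      ← mul_assoc] at this
    exact ⟨(abs_of_nonneg (en_nonneg _ _ _ _)).trans_le this.1, this.2⟩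
  exact ⟨⟨_, d, d0, key.mono fun _ k x hx e => (k x hx e).1⟩,
    ⟨_, d, d0, key.mono fun _ k x hx e => (k x hx e).2⟩⟩

theorem ct_eq {p q : Option ℝ} {a s : ℝ} (h : p = none → -a + 4 ≤ s) (h' : q = none → s ≤ a - 4) :
    θc (p.getD (-a)) (q.getD a) s = ct p q 3 s := by
  have h1 := fun e => Real.smoothTransition.one_of_one_le (x := s - -a - 3) (by linarith [h e])
  have h2 := fun e => Real.smoothTransition.one_of_one_le (x := a - s - 3) (by linarith [h' e])
  cases p <;> cases q <;> simp only [θc, ct, Option.getD, Option.elim, h1, h2]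

theorem int_exp {d : ℝ} (hd : 0 < d) : Integrable fun s : ℝ => Real.exp (-d * |s|) :=
  ((integrable_b hd).const_mul (4 / d)).mono' (by fun_prop) (.of_forall fun s => by
    have := b_ge hd s
    rw [Real.norm_of_nonneg (Real.exp_pos _).le, neg_mul, div_mul_eq_mul_div, le_div_iff₀ hd]
    linarith)

/-- functions which decay along the ends of a neck are integrable -/
theorem int_cut (hf : Sm I f) (hb : K.p = none → Dk K f atBot) (ht : K.q = none → Dk K f atTop) :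
    Integrable (fun x => K.cut 3 (K.τ x) * f x) G.F.μ := by
  have g : ∀ {P : Prop} {l : Filter ℝ}, (P → Dk K f l) → ∃ C d, 0 < d ∧ ∀ᶠ s in l, P →
      ∀ x ∈ O K 1, K.tm x = s → |f x| ≤ |C| * Real.exp (-d * |s|) := fun {P l} h => by
    by_cases p : P
    · obtain ⟨C, d, d0, k⟩ := h p
      exact ⟨C, d, d0, k.mono fun s k _ x hx e => (k x hx e).trans
        (mul_le_mul_of_nonneg_right (le_abs_self C) (Real.exp_pos _).le)⟩
    · exact ⟨0, 1, one_pos, .of_forall fun _ h => (p h).elim⟩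
  obtain ⟨C, d, d0, k⟩ := g hb
  obtain ⟨C', d', d1, k'⟩ := g ht
  obtain ⟨a, k⟩ := eventually_atBot.1 k
  obtain ⟨a', k'⟩ := eventually_atTop.1 k'
  have T := sb_getD K.p K.q (-(|a| + |a'| + 4)) (|a| + |a'| + 4)
  have i := (((T.tf (G := G)).ts.mul hf).int G.F).norm.add (integrable_time_χ K
    (((int_exp d0).const_mul |C|).add ((int_exp d1).const_mul |C'|)))
  refine i.mono' (((contDiff_ct.continuous.comp K.sm_τ.continuous).mul
    hf.continuous).aestronglyMeasurable) (.of_forall fun x => ?_)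
  have p0 := mul_nonneg (abs_nonneg C) (Real.exp_pos (-d * |K.τ x|)).le
  have p1 := mul_nonneg (abs_nonneg C') (Real.exp_pos (-d' * |K.τ x|)).le
  have p2 := mul_nonneg (add_nonneg p0 p1) (χ_mem K x).1
  simp only [Pi.add_apply]
  by_cases hx : x ∈ O K 3
  swap
  · rw [cut_τ_zero K (by norm_num) hx, zero_mul, norm_zero]; positivity
  have o := O_mono K (show (1 : ℝ) ≤ 3 by norm_num) hx
  have b : ‖K.cut 3 (K.τ x) * f x‖ ≤ |f x| := (norm_mul _ _).trans_le
    (mul_le_of_le_one_left (abs_nonneg _) ((Real.norm_of_nonneg ct_mem.1).trans_le ct_mem.2))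
  rw [χ_one K (O_mono K (by norm_num) hx), mul_one]
  by_cases h1 : K.p = none → -(|a| + |a'| + 4) + 4 ≤ K.τ x
  · by_cases h2 : K.q = none → K.τ x ≤ |a| + |a'| + 4 - 4
    · rw [ct_eq h1 h2]; linarith
    · push Not at h2
      linarith [k' _ (by linarith [le_abs_self a', abs_nonneg a]) h2.1 x o (τ_eq K o).symm,
        norm_nonneg (θc (K.p.getD (-(|a| + |a'| + 4))) (K.q.getD (|a| + |a'| + 4)) (K.τ x) * f x)]
  · push Not at h1
    linarith [k _ (by linarith [neg_abs_le a, abs_nonneg a']) h1.1 x o (τ_eq K o).symm,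
      norm_nonneg (θc (K.p.getD (-(|a| + |a'| + 4))) (K.q.getD (|a| + |a'| + 4)) (K.τ x) * f x)]

/-- **finite energy and level on a neck** -/
theorem fen_nk (hD : D.OK) (hB : B.OK I) (hG : G.OK B) (A : c.Adm B G)
    (hb : K.p = none → ∃ β ζ, D.Adm β ∧ ∃ d > 0, K.ELim d c β ζ atBot)
    (ht : K.q = none → ∃ β ζ, D.Adm β ∧ ∃ d > 0, K.ELim d c β ζ atTop) :
    Integrable (fun x => K.cut 3 (K.τ x) * en G.F c K.τ x) G.F.μ ∧
      Integrable (fun x => K.cut 3 (K.τ x) * c.m.kd B G.F c.W x) G.F.μ := by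
  have P := pn K hD hB hG one_le_two
  have b := fun e => let ⟨_, _, a, _, d0, k⟩ := hb e
    dk_of_elim hD (Eqv71.ad0 A) a d0 Bki64.isEnd_bot k
  have t := fun e => let ⟨_, _, a, _, d0, k⟩ := ht e
    dk_of_elim hD (Eqv71.ad0 A) a d0 Bki64.isEnd_top k
  exact ⟨int_cut (P.sm_en A) (fun e => (b e).1) fun e => (t e).1,
    int_cut (P.sm_kd A) (fun e => (b e).2) fun e => (t e).2⟩

section job
open M Fin37
variable {Wi : Type} {X : Mf 4} {A κ lam : Type} [Fintype A] [Fintype κ] [Fintype lam]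
  [DecidableEq lam] {M : Mark X A κ} {W : World M} {N : ML M lam}
  {Λ : Lns W N} {A' h : Type} [Fintype A'] [DecidableEq A'] [Fintype h] {r n : ℕ}
  {J : Job Wi Λ A' h r n} {Adm : (Wi →₀ ℝ) → Prop}

theorem fen' (hJ : J.OK) (hE : ELM J Adm) {σ} (hσ : σ ∈ J.𝒦) {c q} {y : J.Obc c} (hq : Adm q)
    (h : Job.Sol σ q y) (i : Ix J c y.s) :
    Integrable (fun z => (nk J i).cut 3 ((nk J i).τ z) * en (J.G c y.s).F y.x (nk J i).τ z)
      (J.G c y.s).F.μ ∧ Integrable (fun z => (nk J i).cut 3 ((nk J i).τ z) * y.kd z)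
      (J.G c y.s).F.μ := by
  obtain ⟨⟨a, b⟩, ha⟩ := i
  have k := hJ.nk c a b _ ha
  have ad : ∀ b (ha : Act J.m c a (some b) (J.Θ y.s)), (J.xs a).D.Adm (y.β a b) := fun b ha =>
    ⟨(h.crit a ⟨ha.2.2.2, ha.1⟩ b).sol.toAdm, (h.crit a ⟨ha.2.2.2, ha.1⟩ b).tmp⟩
  refine fen_nk (hJ.xs a).1.yd (Λ.B_ok _ _) (hJ.G_ok hσ h.ov) h.sol.toAdm (fun e => ?_) fun e => ?_
  · obtain rfl : b = some true := by_contra fun e' => by simpa [e'] using k.lo.symm.trans e
    exact ⟨_, _, ad _ ha, hE σ hσ c q y hq h a true ha⟩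
  · obtain rfl : b = some false := by
      rcases b with _ | _ | _
      exacts [by simpa using k.hi.symm.trans e, rfl, by simpa using k.hi.symm.trans e]
    exact ⟨_, _, ad _ ha, hE σ hσ c q y hq h a false ha⟩

/-- **FIN-FEN** -/
theorem fen (hJ : J.OK) (hE : ELM J Adm) : FEN J Adm := fun _ hσ _ _ _ hq h i =>
  (fen' hJ hE hσ hq h i).1

end job

end Crest.Agent.X212.Dgr80
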