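import Crest.Agent.X212.Dgr80.Lp

/-!
# Row 212, DGR (helper80): Lipschitz bound and gradient identity for the engine
-/

set_option autoImplicit false
set_option linter.unusedSectionVars false
noncomputable section
open scoped Manifold ContDiff Topology InnerProductSpace
open MeasureTheory Set Function Filter

namespace Crest.Agent.X212.Dgr80
open An Wz78 Sob92
open Mp86 (Mc Bumps)
open Wrd81 (wd)

variable {E : Type} [NormedAddCommGroup E] [NormedSpace ℝ E] [FiniteDimensional ℝ E]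
  [MeasurableSpace E] [BorelSpace E]
  {HM : Type} [TopologicalSpace HM] {I : ModelWithCorners ℝ E HM}
  {M : Type} [TopologicalSpace M] [ChartedSpace HM M] [IsManifold I ∞ M]
  [BoundarylessManifold I M]
  [MeasurableSpace M] [T2Space M] [BorelSpace M] {ι : Type} [Fintype ι]
  {V U : Type} [NormedAddCommGroup V] [InnerProductSpace ℝ V] [CompleteSpace V]
  [NormedAddCommGroup U] [InnerProductSpace ℝ U] [CompleteSpace U] {F : Fr I M ι} {J : Type}

theorem norm_tp (r : CL U (CL V V)) (v w : V) : ‖tp r v w‖ ≤ ‖r‖ * ‖v‖ * ‖w‖ := by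
  refine ((ContinuousLinearMap.adjoint (r.flip v)).le_opNorm w).trans
    (mul_le_mul_of_nonneg_right ?_ (norm_nonneg _))
  rw [LinearIsometryEquiv.norm_map]
  exact (r.flip.le_opNorm v).trans_eq (by rw [ContinuousLinearMap.opNorm_flip])

theorem tp_sub (r : CL U (CL V V)) (v v' w w' : V) :
    tp r v' w' - tp r v w = tp r v' (w' - w) + tp r (v' - v) w := by simp [tp]

theorem norm_rep (r : CL U (CL V V)) (ξ : U) (v : V) : ‖r ξ v‖ ≤ ‖r‖ * ‖ξ‖ * ‖v‖ := r.le_opNorm₂ ξ v

theorem lap_diff {A A' B : ι → M → CL V V} (hA : Mc I A) (hB : ∀ a, Sm I (B a))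
    (e : ∀ a x, A' a x = A a x + B a x) {v : M → V} (hv : Sm I v) (x : M) :
    lap I F.e F.dv A' v x = lap I F.e F.dv A v x - ∑ a, B a x (nab I F.e A' a v x) -
      dvn F A (fun a y => B a y (v y)) x := by
  have h : ∀ a (u : M → V), nab I F.e A' a u = fun y => nab I F.e A a u y + B a y (u y) :=
    fun a u => funext fun y => by simp [nab, e, add_assoc]
  have h2 : ∀ a, nab I F.e A a (nab I F.e A' a v) x = nab I F.e A a (nab I F.e A a v) x +
      nab I F.e A a (fun y => B a y (v y)) x := fun a => by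
    rw [h a v]; exact nab_add a (sm_nab hA.sm a hv x) (((hB a).clm_apply hv) x)
  have h3 : ∀ a, F.dv a x • nab I F.e A' a v x = F.dv a x • nab I F.e A a v x +
      F.dv a x • B a x (v x) := fun a => by rw [h a v, smul_add]
  simp only [lap, dvn, h _ (nab I F.e A' _ v), h2, h3, Finset.sum_add_distrib]
  abel

theorem lap_sub {A : ι → M → CL V V} (hA : Mc I A) {u v : M → V} (hu : Sm I u) (hv : Sm I v)
    (x : M) : lap I F.e F.dv A (fun y => u y - v y) x =
      lap I F.e F.dv A u x - lap I F.e F.dv A v x := by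
  have := Mp86.lap_add (F := F) hA.sm (hu.sub hv) hv x
  simp only [sub_add_cancel] at this
  exact eq_sub_of_add_eq this.symm

/-- bounded letters -/
def SL.Bd : SL M V → Prop
  | .op T => Dgr80.Bd T
  | .G => True

/-- a base connection `A` and a family of perturbations `A + r (α j)` -/
structure Eng (X : Cx F J) (r : CL U (CL V V)) (α : J → M → Fm ι U) (A : ι → M → CL V V)
    (A' : J → ι → M → CL V V) (Q : (M → V) → Prop) (Q' : J → (M → V) → Prop) : Prop where
  mc : Mc I A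
  mc' : ∀ j, Mc I (A' j)
  eq : ∀ j a x, A' j a x = A a x + r (α j x a)
  sα : ∀ j, Sm I (α j)
  oα : X.O2 α
  cls : Cls F A Q
  cls' : ∀ j, Cls F (A' j) (Q' j)
  gr : ∀ u, Q u → ∃ K, ∀ j x a, α j x ≠ 0 → ‖nab I F.e A a (F.res A u) x‖ ≤ K

/-- a section and a family of close sections -/
structure P0 (X : Cx F J) (Q : (M → V) → Prop) (Q' : J → (M → V) → Prop) (u : M → V)
    (u' : J → M → V) : Prop where
  q : Q u
  q' : ∀ j, Q' j (u' j)
  bd : Bd u
  ub : Ub u'
  d : X.O2 fun j x => u' j x - u x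

/-- admissible letters -/
def SL.Ad (Q : (M → V) → Prop) (Q' : J → (M → V) → Prop) (t : SL M V) : Prop :=
  t.Ok Q ∧ (∀ j, t.Ok (Q' j)) ∧ t.Bd

theorem Bd.app {T : M → CL V V} {u : M → V} (hT : Bd T) (hu : Bd u) : Bd fun x => T x (u x) :=
  let ⟨K, h⟩ := hT
  let ⟨K', k⟩ := hu
  ⟨K * K', fun x => ((T x).le_opNorm _).trans
    (mul_le_mul (h x) (k x) (norm_nonneg _) ((norm_nonneg _).trans (h x)))⟩

theorem Bd.adj {T : M → CL V V} (hT : Bd T) : Bd fun x => ContinuousLinearMap.adjoint (T x) :=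
  let ⟨K, h⟩ := hT
  ⟨K, fun x => by rw [LinearIsometryEquiv.norm_map]; exact h x⟩

theorem bd_res (A : ι → M → CL V V) (u : M → V) : Bd (F.res A u) := Mp86.bdd_res F A u

namespace Eng
variable {X : Cx F J} {r : CL U (CL V V)} {α : J → M → Fm ι U} {A : ι → M → CL V V}
  {A' : J → ι → M → CL V V} {Q : (M → V) → Prop} {Q' : J → (M → V) → Prop}
  (H : Eng X r α A A' Q Q') {u s l : M → V} {u' s' l' : J → M → V}
include H

theorem sB (j : J) (a : ι) : Sm I fun x => r (α j x a) :=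
  r.contMDiff.comp ((PiLp.proj (𝕜 := ℝ) 2 (fun _ : ι => U) a).contMDiff.comp (H.sα j))

theorem nab' (j : J) (a : ι) (v : M → V) (x : M) :
    nab I F.e (A' j) a v x = nab I F.e A a v x + r (α j x a) (v x) := by
  simp [nab, H.eq, add_assoc]

theorem oB {v : J → M → V} (hv : ∀ j, Continuous (v j)) (hb : Ub v) (a : ι) :
    X.O2 fun j x => r (α j x a) (v j x) :=
  (H.oα.app a).ub hb (fun j => (H.sB j a).continuous.clm_apply (hv j)) (norm_nonneg r)
    fun _ _ => norm_rep r _ _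

theorem op0 {T : M → CL V V} (hT : Bd T) (h : P0 X Q Q' u u') (q : Q fun x => T x (u x))
    (q' : ∀ j, Q' j fun x => T x (u' j x)) :
    P0 X Q Q' (fun x => T x (u x)) fun j x => T x (u' j x) := by
  obtain ⟨K, hK⟩ := hT
  obtain ⟨K', K0, hK'⟩ := h.ub
  refine ⟨q, q', Bd.app ⟨K, hK⟩ h.bd, ⟨|K| * K', by positivity, fun j x => ((T x).le_opNorm _).trans
    (mul_le_mul ((hK x).trans (le_abs_self _)) (hK' j x) (norm_nonneg _) (abs_nonneg _))⟩,
    h.d.dom (fun j => ((H.cls' j).sm _ (q' j)).continuous.sub (H.cls.sm _ q).continuous) (K := K)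
      fun j x => ?_⟩
  rw [← map_sub]
  exact ((T x).le_opNorm _).trans (mul_le_mul_of_nonneg_right (hK x) (norm_nonneg _))

theorem res0 (h : P0 X Q Q' u u') : P0 X Q Q' (F.res A u) (fun j => F.res (A' j) (u' j)) ∧
    ∀ a, X.O2 fun j x => nab I F.e (A' j) a (F.res (A' j) (u' j)) x -
      nab I F.e A a (F.res A u) x := by
  have r1 := H.cls.res u h.q
  have r2 := fun j => (H.cls' j).res _ (h.q' j)
  obtain ⟨K, hK⟩ := H.gr u h.q
  have ub : Ub fun j => F.res (A' j) (u' j) :=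
    let ⟨K', K0, hK'⟩ := h.ub
    ⟨K', K0, fun j x => Mp86.norm_res_le X.amb.bu (H.mc' j) (hK' j) x⟩
  have b1 := H.oB (v := fun _ => F.res A u) (fun _ => r1.1.continuous) (bd_res A u).ub
  have o1 : ∀ a, X.O2 fun j x => r (α j x a) (nab I F.e A a (F.res A u) x) := fun a =>
    H.oα.dom (fun j => (H.sB j a).continuous.clm_apply (sm_nab H.mc.sm a r1.1).continuous)
      (K := ‖r‖ * K) fun j x => by
        by_cases h0 : α j x = 0
        · simp [h0]
        · refine (norm_rep r _ _).trans ?_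
          rw [mul_right_comm]
          exact mul_le_mul (mul_le_mul_of_nonneg_left (hK j x a h0) (norm_nonneg _))
            (PiLp.norm_apply_le _ _) (norm_nonneg _)
            (mul_nonneg (norm_nonneg _) ((norm_nonneg _).trans (hK j x a h0)))
  have key := X.wk H.mc' (w := fun j x => F.res (A' j) (u' j) x - F.res A u x)
    (s := fun j x => (u' j x - u x) + ∑ a, r (α j x a) (nab I F.e A a (F.res A u) x))
    (g := fun a j x => -r (α j x a) (F.res A u x)) (fun j => (r2 j).1.sub r1.1)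
    (fun a j => ((H.sB j a).clm_apply r1.1).neg) (fun j x => ?_)
    (fun j => X.amb.int_sq ((r2 j).1.continuous.sub r1.1.continuous) ?_)
    (h.d.add (Cx.O2.sum _ fun a _ => o1 a)) fun a => (b1 a).neg
  · refine ⟨⟨H.cls.G u h.q, fun j => (H.cls' j).G _ (h.q' j), bd_res A u, ub, key.1⟩, fun a =>
      ((key.2 a).add (b1 a)).congr fun j x => ?_⟩
    rw [nab_sub a ((r2 j).1 x) (r1.1 x), H.nab' j a (F.res A u)]; abel
  · rw [lap_sub (H.mc' j) (r2 j).1 r1.1, ← (r2 j).2.2 x, ← r1.2.2 x,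
      lap_diff (A' := A) (B := fun a x => -r (α j x a)) (H.mc' j) (fun a => (H.sB j a).neg)
        (fun a x => by simp [H.eq]) r1.1]
    simp only [neg_apply, Finset.sum_neg_distrib]
    abel
  · obtain ⟨K1, h1⟩ := bd_res (F := F) (A' j) (u' j)
    obtain ⟨K2, h2⟩ := bd_res (F := F) A u
    exact ⟨K1 + K2, fun x => (norm_sub_le _ _).trans (add_le_add (h1 x) (h2 x))⟩

theorem sl0 {t : SL M V} (ht : t.Ad Q Q') (h : P0 X Q Q' u u') :
    P0 X Q Q' (sl F A t u) fun j => sl F (A' j) t (u' j) := by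
  cases t with
  | op T => exact H.op0 ht.2.2 h (ht.1 u h.q).1 fun j => (ht.2.1 j _ (h.q' j)).1
  | G => exact (H.res0 h).1

theorem slT0 {t : SL M V} (ht : t.Ad Q Q') (h : P0 X Q Q' u u') :
    P0 X Q Q' (slT F A t u) fun j => slT F (A' j) t (u' j) := by
  cases t with
  | op T => exact H.op0 (Bd.adj ht.2.2) h (ht.1 u h.q).2 fun j => (ht.2.1 j _ (h.q' j)).2
  | G => exact (H.res0 h).1

theorem wd0 (h : P0 X Q Q' s s') : ∀ {w : List (SL M V)}, (∀ t ∈ w, t.Ad Q Q') →
    P0 X Q Q' (wd (sl F A) s w) fun j => wd (sl F (A' j)) (s' j) w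
  | [], _ => h
  | t :: _, hw => H.sl0 (hw t (by simp)) (wd0 h fun t ht => hw t (by simp [ht]))

theorem bk0 : ∀ {w : List (SL M V)} {l : M → V} {l' : J → M → V}, (∀ t ∈ w, t.Ad Q Q') →
    P0 X Q Q' l l' → P0 X Q Q' (bk F A w l) fun j => bk F (A' j) w (l' j)
  | [], _, _, _, h => h
  | t :: w, _, _, hw, h => bk0 (w := w) (fun t ht => hw t (by simp [ht]))
      (H.slT0 (hw t (by simp)) h)

theorem tp0 (gr : ∀ u, Q u → ∀ a, Bd (nab I F.e A a (F.res A u))) (h : P0 X Q Q' u u')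
    (k : P0 X Q Q' l l') (a : ι) : X.O2 fun j x =>
      tp r (F.res (A' j) (u' j) x) (nab I F.e (A' j) a (F.res (A' j) (l' j)) x) -
        tp r (F.res A u x) (nab I F.e A a (F.res A l) x) := by
  have s1 := fun j => Mp86.sm_res F (A' j) (u' j)
  have s2 := fun j => sm_nab (F := F) (H.mc' j).sm a (Mp86.sm_res F (A' j) (l' j))
  have s3 := Mp86.sm_res F A u
  have s4 := sm_nab (F := F) H.mc.sm a (Mp86.sm_res F A l)
  refine (Cx.O2.add (((H.res0 k).2 a).ub (H.res0 h).1.ub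
    (fun j => (sm_tp (r := r) (s1 j) ((s2 j).sub s4)).continuous) (norm_nonneg r) fun j x =>
      (norm_tp r _ _).trans_eq (mul_right_comm _ _ _)) ((H.res0 h).1.d.ub (gr l k.q a).ub
    (fun j => (sm_tp (r := r) ((s1 j).sub s3) s4).continuous) (norm_nonneg r) fun j x =>
      norm_tp r _ _)).congr fun j x => tp_sub r _ _ _ _

/-- **Lipschitz bound** for the gradient of a word -/
theorem gc0 (gr : ∀ u, Q u → ∀ a, Bd (nab I F.e A a (F.res A u))) (h : P0 X Q Q' s s') :
    ∀ {w : List (SL M V)} {l : M → V} {l' : J → M → V}, (∀ t ∈ w, t.Ad Q Q') → P0 X Q Q' l l' →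
      X.O2 fun j x => gc F (A' j) r (s' j) w (l' j) x - gc F A r s w l x
  | [], _, _, _, _ => by simpa [gc] using Cx.o2_zero
  | .op T :: w, _, _, hw, k => gc0 gr h (w := w) (fun t ht => hw t (by simp [ht]))
      (H.slT0 (hw (.op T) (by simp)) k)
  | .G :: w, l, l', hw, k => by
    have hw' : ∀ t ∈ w, t.Ad Q Q' := fun t ht => hw t (by simp [ht])
    have h1 := H.wd0 h hw'
    refine ((gc0 gr h hw' (H.res0 k).1).sub (Cx.O2.toLp fun a =>
      (H.tp0 gr h1 k a).add (H.tp0 gr k h1 a))).congr fun j x => ?_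
    ext1 a
    simp only [gc, cur, PiLp.sub_apply]
    abel

theorem lw_cur (hu : Q u) (bu : Bd u) (hl : Q l) (bl : Bd l) :
    X.Lw (cur F A r (F.res A u) (F.res A l)) := by
  have key : ∀ {u l : M → V}, Q l → Bd l → ∀ a,
      X.Lw fun x => tp r (F.res A u x) (nab I F.e A a (F.res A l) x) := fun {u l} hl bl a => by
    obtain ⟨K, hK⟩ := bd_res (F := F) A u
    exact (Cx.lw_nab H.mc (H.cls.res l hl) bl a).dom (sm_tp (Mp86.sm_res _ _ _)
      (sm_nab H.mc.sm a (Mp86.sm_res _ _ _))).continuous (K := ‖r‖ * K) fun x =>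
        (norm_tp r _ _).trans (mul_le_mul_of_nonneg_right
          (mul_le_mul_of_nonneg_left (hK x) (norm_nonneg _)) (norm_nonneg _))
  exact Cx.Lw.toLp fun a => (key hl bl a).add (key hu bu a)

theorem bd_slT {t : SL M V} (ht : t.Ad Q Q') (bl : Bd l) : Bd (slT F A t l) := by
  cases t with
  | op T => exact (Bd.adj ht.2.2).app bl
  | G => exact bd_res A l

theorem bd_bk : ∀ {w : List (SL M V)} {l : M → V}, (∀ t ∈ w, t.Ad Q Q') → Bd l → Bd (bk F A w l)
  | [], _, _, h => h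
  | t :: w, _, hw, h => bd_bk (w := w) (fun t ht => hw t (by simp [ht]))
      (H.bd_slT (hw t (by simp)) h)

theorem lw_gc (h : P0 X Q Q' s s') : ∀ {w : List (SL M V)} {l : M → V}, (∀ t ∈ w, t.Ad Q Q') →
    Q l → Bd l → X.Lw (gc F A r s w l)
  | [], _, _, _, _ => Cx.lw_bd continuous_const ⟨0, fun _ => by simp [gc]⟩
  | .op T :: w, _, hw, k, b => lw_gc h (w := w) (fun t ht => hw t (by simp [ht]))
      (H.cls.slT (hw (.op T) (by simp)).1 k) (H.bd_slT (hw (.op T) (by simp)) b)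
  | .G :: w, l, hw, k, b => by
    have hw' : ∀ t ∈ w, t.Ad Q Q' := fun t ht => hw t (by simp [ht])
    have h1 := H.wd0 h hw'
    simpa only [gc, sub_eq_add_neg] using
      (lw_gc h hw' (H.cls.G l k) (bd_res A l)).add (H.lw_cur h1.q h1.bd k b).neg

theorem skB (j : J) (a : ι) (x : M) (v w : V) :
    ⟪r (α j x a) v, w⟫_ℝ = -⟪v, r (α j x a) w⟫_ℝ := by
  have h1 := (H.mc' j).sk a x v w
  rw [H.eq, add_apply, add_apply, inner_add_left, inner_add_right, H.mc.sk a x] at h1
  linarith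

/-- second order expansion of one resolvent -/
theorem res1 (hX : X.Big) (h : P0 X Q Q' u u') (hl : Q l) (bl : Bd l) : X.O1 fun j =>
    ∫ x, ⟪F.res (A' j) (u' j) x - F.res A u x, l x⟫_ℝ ∂F.μ -
      ∫ x, ⟪u' j x - u x, F.res A l x⟫_ℝ ∂F.μ +
      ∫ x, ⟪α j x, cur F A r (F.res A u) (F.res A l) x⟫_ℝ ∂F.μ := by
  have r1 := H.cls.res u h.q
  have r2 := fun j => (H.cls' j).res _ (h.q' j)
  have r3 := H.cls.res l hl
  obtain ⟨p0, p1⟩ := H.res0 h
  set v := F.res A u
  set l₁ := F.res A l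
  obtain ⟨K, hK⟩ := H.gr l hl
  obtain ⟨K₁, hK₁⟩ := r3.2.1
  have n1 := fun a => (sm_nab (F := F) H.mc.sm a r3.1).continuous
  have w1 := Cx.lw_nab (X := X) H.mc r3 bl
  have w2 : X.Lw l₁ := Cx.lw_bd r3.1.continuous r3.2.1
  have b2 := H.oB (fun j => (r2 j).1.continuous) p0.ub
  have b3 := H.oB (v := fun _ => l₁) (fun _ => r3.1.continuous) (bd_res A l).ub
  have d1 : ∀ a, X.O2 fun j x => nab I F.e A a (fun y => F.res (A' j) (u' j) y - v y) x := fun a =>
    ((p1 a).sub (b2 a)).congr fun j x => by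
      rw [nab_sub a ((r2 j).1 x) (r1.1 x), H.nab' j a]; abel
  have t1 : ∀ a, X.O1 fun j => ∫ x, ⟪nab I F.e A a l₁ x,
      r (α j x a) (F.res (A' j) (u' j) x - v x)⟫_ℝ ∂F.μ := fun a =>
    H.oα.o1 hX p0.d (K := |K| * ‖r‖) (by positivity) fun j x => by
      by_cases h0 : α j x = 0
      · simp [h0]
      · refine (abs_real_inner_le_norm _ _).trans ((mul_le_mul ((hK j x a h0).trans (le_abs_self K))
          ((norm_rep r _ _).trans (mul_le_mul_of_nonneg_right (mul_le_mul_of_nonneg_left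
            (PiLp.norm_apply_le _ _) (norm_nonneg _)) (norm_nonneg _))) (norm_nonneg _)
          (abs_nonneg _)).trans_eq (by ring))
  have t2 : ∀ a, X.O1 fun j => ∫ x, ⟪nab I F.e (A' j) a (F.res (A' j) (u' j)) x -
      nab I F.e A a v x, r (α j x a) (l₁ x)⟫_ℝ ∂F.μ := fun a =>
    (p1 a).o1 hX (b3 a) zero_le_one fun j x => by
      rw [one_mul]; exact abs_real_inner_le_norm _ _
  refine (Cx.O1.sum Finset.univ fun a _ => (t1 a).add (t2 a)).neg.congr fun j => ?_
  have bu : Bd (u' j) := let ⟨K, _, h⟩ := h.ub; ⟨K, h j⟩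
  have w3 := Cx.lw_nab (X := X) (H.mc' j) (r2 j) bu
  have i1 := p0.d.inner hX j (Cx.lw_bd (H.cls.sm l hl).continuous bl)
  have i2 := h.d.inner hX j w2
  have i3 := H.oα.inner hX j (H.lw_cur h.q h.bd hl bl)
  have i4 : ∀ a, Integrable (fun x => ⟪nab I F.e A a l₁ x,
      r (α j x a) (F.res (A' j) (u' j) x - v x)⟫_ℝ) F.μ := fun a => by
    simpa only [real_inner_comm (nab I F.e A a l₁ _), map_sub] using ((b2 a).sub
      (H.oB (v := fun _ => v) (fun _ => r1.1.continuous) (bd_res A u).ub a)).inner hX j (w1 a)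
  have i5 := fun a => (p1 a).inner hX j ((b3 a).lw hX j)
  have i6 := integrable_finsetSum Finset.univ fun a _ => (i4 a).fun_add (i5 a)
  have e0 : ∀ x, ⟪F.res (A' j) (u' j) x - v x, l x⟫_ℝ - ⟪u' j x - u x + ∑ a, r (α j x a)
      (nab I F.e (A' j) a (F.res (A' j) (u' j)) x), l₁ x⟫_ℝ -
      ∑ a, ⟪-r (α j x a) (F.res (A' j) (u' j) x), nab I F.e A a l₁ x⟫_ℝ =
      ⟪F.res (A' j) (u' j) x - v x, l x⟫_ℝ - ⟪u' j x - u x, l₁ x⟫_ℝ + ⟪α j x, cur F A r v l₁ x⟫_ℝ +
      ∑ a, (⟪nab I F.e A a l₁ x, r (α j x a) (F.res (A' j) (u' j) x - v x)⟫_ℝ +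
        ⟪nab I F.e (A' j) a (F.res (A' j) (u' j)) x - nab I F.e A a v x,
          r (α j x a) (l₁ x)⟫_ℝ) := fun x => by
    simp only [inner_cur, inner_add_left, sum_inner,
      fun a => H.skB j a x (nab I F.e (A' j) a (F.res (A' j) (u' j)) x),
      inner_neg_right, map_sub, inner_sub_right, inner_sub_left (nab I F.e (A' j) _ _ x),
      Finset.sum_add_distrib, Finset.sum_sub_distrib, Finset.sum_neg_distrib,
      real_inner_comm (nab I F.e A _ l₁ x)]
    ring
  have e := sa_res X.amb.cut H.mc (d := fun x => F.res (A' j) (u' j) x - v x)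
    (σ := fun x => u' j x - u x + ∑ a, r (α j x a) (nab I F.e (A' j) a (F.res (A' j) (u' j)) x))
    (g := fun a x => -r (α j x a) (F.res (A' j) (u' j) x)) ((r2 j).1.sub r1.1) r3.1
    (fun a => ((H.sB j a).clm_apply (r2 j).1).neg) (fun x => ?_) r3.2.2
    (by simp only [e0]; exact ((i1.sub' i2).fun_add i3).fun_add i6)
    fun a => (((p0.d.inner hX j (w1 a)).sub' ((d1 a).inner hX j w2)).fun_add
      ((b2 a).neg.inner hX j w2))
  · simp only [e0] at e
    rw [integral_add ((i1.sub' i2).fun_add i3) i6, integral_add (i1.sub' i2) i3, integral_sub i1 i2,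
      integral_finsetSum _ fun a _ => (i4 a).fun_add (i5 a)] at e
    simp only [fun a => integral_add (i4 a) (i5 a)] at e
    linarith
  · have h3 : dvn F A (fun a x => -r (α j x a) (F.res (A' j) (u' j) x)) x =
        -dvn F A (fun a x => r (α j x a) (F.res (A' j) (u' j) x)) x := by
      simp only [dvn, ← Finset.sum_neg_distrib, neg_add, smul_neg]
      refine Finset.sum_congr rfl fun a _ => ?_
      rw [← neg_one_smul ℝ (nab _ _ _ _ _ _)]
      simpa using nab_smul (e := F.e) (A := A) a (f := fun _ => (-1 : ℝ)) contMDiffAt_const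
        (((H.sB j a).clm_apply (r2 j).1) x)
    rw [lap_sub H.mc (r2 j).1 r1.1, ← (r2 j).2.2 x, ← r1.2.2 x, h3,
      lap_diff H.mc (H.sB j) (H.eq j) (r2 j).1]
    abel

/-- **gradient identity** for words -/
theorem grad (hX : X.Big) (h : P0 X Q Q' s s') : ∀ {w : List (SL M V)} {l : M → V},
    (∀ t ∈ w, t.Ad Q Q') → Q l → Bd l → X.O1 fun j =>
      ∫ x, ⟪wd (sl F (A' j)) (s' j) w x - wd (sl F A) s w x, l x⟫_ℝ ∂F.μ -
        ∫ x, ⟪α j x, gc F A r s w l x⟫_ℝ ∂F.μ - ∫ x, ⟪s' j x - s x, bk F A w l x⟫_ℝ ∂F.μ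
  | [], _, _, _, _ => by simpa [gc, bk] using Cx.o1_zero
  | .op T :: w, l, hw, k, b => (grad hX h (w := w) (fun t ht => hw t (by simp [ht]))
      (H.cls.slT (hw (.op T) (by simp)).1 k) (H.bd_slT (hw (.op T) (by simp)) b)).congr fun j => by
        simp only [gc, bk, Wrd81.wd_cons, sl, slT, ← map_sub,
          ContinuousLinearMap.adjoint_inner_right]
  | .G :: w, l, hw, k, b => by
    have hw' : ∀ t ∈ w, t.Ad Q Q' := fun t ht => hw t (by simp [ht])
    have h1 := H.wd0 h hw'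
    refine ((grad hX h hw' (H.cls.G l k) (bd_res A l)).add (H.res1 hX h1 k b)).congr fun j => ?_
    simp only [gc, bk, Wrd81.wd_cons, sl, slT, inner_sub_right]
    rw [integral_sub (H.oα.inner hX j (H.lw_gc h hw' (H.cls.G l k) (bd_res A l)))
      (H.oα.inner hX j (H.lw_cur h1.q h1.bd k b))]
    ring

end Eng

end Crest.Agent.X212.Dgr80
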