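import Crest.Agent.X212.Dgr80.Cf
import Crest.Agent.X212.Cyc79.Lp
import Crest.Agent.X212.Nd18.Term

/-!
# Row 212, DGR (helper80): the statements of the leaves of EN and MS-POS
-/

set_option autoImplicit false
set_option linter.unusedSectionVars false
noncomputable section
open scoped Manifold ContDiff Topology InnerProductSpace
open MeasureTheory Set Function Filter

namespace Crest.Agent.X212.Dgr80
open An Wz78 Sob92 Nd18 Cyf70
open Cyc79 (Cy)

section gen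
variable {E : Type} [NormedAddCommGroup E] [NormedSpace ℝ E] [FiniteDimensional ℝ E]
  [MeasurableSpace E] [BorelSpace E]
  {HM : Type} [TopologicalSpace HM] {I : ModelWithCorners ℝ E HM} [I.Boundaryless]
  {M : Type} [TopologicalSpace M] [ChartedSpace HM M] [IsManifold I ∞ M]
  [MeasurableSpace M] [T2Space M] [BorelSpace M] [SecondCountableTopology M]
  {ι : Type} [Fintype ι] {lam : Type} [Fintype lam] {r : ℕ} {J : Type}

/-- a configuration `c` and a family `c + (α j, φ j)` of close configurations -/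
structure Vf (B : Base M ι lam) (G : Geo I M ι lam) (X : Cx G.F J) (c : Cfg M ι lam r)
    (α : J → M → Fm ι c.m.A) (φ : J → M → c.m.V) : Prop where
  gd : Gd B G c
  gd' : ∀ j, Gd B G (vr c (α j) (φ j))
  cA : ∀ j, G.F.Cb (α j)
  g : ∀ j x a, α j x a ∈ c.m.gS x
  oA : X.O2 α
  oP : X.O2 φ
  ub : Ub φ
  ex : ∃ ψ k, Cyc79.Ex X ψ k

theorem vr_vr (c : Cfg M ι lam r) (α α' : M → Fm ι c.m.A) (φ φ' : M → c.m.V) :
    vr (vr c α φ) (fun x => α' x - α x) (fun x => φ' x - φ x) = vr c α' φ' := by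
  simp only [vr, Cfg.mk.injEq, heq_eq_eq, true_and, and_true]
  exact ⟨funext₂ fun a x => by simp [Md.addC], funext fun x => by abel⟩

end gen

variable {E3 : Type} [NormedAddCommGroup E3] [NormedSpace ℝ E3] [FiniteDimensional ℝ E3]
  [MeasurableSpace E3] [BorelSpace E3]
  {H3 : Type} [TopologicalSpace H3] {I3 : ModelWithCorners ℝ E3 H3} [I3.Boundaryless]
  {Y : Type} [TopologicalSpace Y] [ChartedSpace H3 Y] [IsManifold I3 ∞ Y] [T2Space Y]
  [MeasurableSpace Y] [BorelSpace Y] [SecondCountableTopology Y] [CompactSpace Y]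
  {κ : Type} [Fintype κ] {lam : Type} [Fintype lam]

section tq
variable (N : ND Y lam) (D : YD I3 Y κ lam)

/-- the Lipschitz bound and the gradient identity for the densities on the cylinder -/
def LgZ : Prop := ∀ (J : Type) (X : Cx D.G.F J) (c : Cfg (Y × ℝ) (Option κ) lam 0)
  (α : J → Y × ℝ → Fm (Option κ) c.m.A) (φ : J → Y × ℝ → c.m.V), Vf D.B D.G X c α φ →
  ∀ i, RD.Lg X α φ (((N.dg D.nk).d i).rd c) fun j => ((N.dg D.nk).d i).rd (vr c (α j) (φ j))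

variable (β : YC Y κ lam) (d : ℝ) (α : Y × ℝ → Fm (Option κ) β.m.A) (φ : Y × ℝ → β.m.V)
  (a : Bool → Y → Fm (Option κ) β.m.A) (b : Bool → Y → β.m.V)

/-- the path `β + (α, φ)` in temporal gauge converges exponentially in `C¹` to `β + (a s, b s)`;
`s = true` is the end `+∞` -/
structure Tq : Prop where
  d0 : 0 < d
  adm : D.Adm β
  gd : Gd D.B D.G (vr (cy β) α φ)
  cA : D.Z.Cb α
  cP : D.Z.Cb φ
  g : ∀ x i, α x i ∈ β.m.gS x.1
  tm : ∀ x, α x none = 0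
  sa : ∀ s, Sm I3 (a s)
  sb : ∀ s, Sm I3 (b s)
  ga : ∀ s y i, a s y i ∈ β.m.gS y
  lad : ∀ s, D.Adm (vr β (a s) (b s))
  lgd : ∀ s, Gd D.B D.G (cy (vr β (a s) (b s)))
  lim : ∃ C, ∀ (s : Bool) (w : List (Option κ)), w.length ≤ 1 → ∀ x : Y × ℝ,
    0 ≤ (bif s then x.2 else -x.2) →
      ‖D.Z.Dw w (fun z => α z - a s z.1) x‖ ≤ C * Real.exp (-d * |x.2|) ∧
      ‖D.Z.Dw w (fun z => φ z - b s z.1) x‖ ≤ C * Real.exp (-d * |x.2|)

/-- the work done by the gradient of the delay functional -/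
def wq (c : Cfg (Y × ℝ) (Option κ) lam 0) (x : Y × ℝ) : ℝ :=
  ⟪xA D.Z c Prod.snd x, (N.dg D.nk).gA D.Z c x⟫_ℝ + ⟪xP D.Z c Prod.snd x, (N.dg D.nk).gP D.Z c x⟫_ℝ

/-- the perturbation part of `N.lv` -/
def lq (β : YC Y κ lam) : ℝ := N.φ (N.cx ((N.dg D.nk).Iv D.Z (cy β) 0))

/-- the Dirac part of `N.lv` (times two) -/
def ld (β : YC Y κ lam) : ℝ :=
  ∫ y, ⟪-β.m.ρ none y (dir (IC I3) D.Z.e (cy β).m.ρ (cy β).W (cy β).Φ (y, 0)), β.Φ y⟫_ℝ ∂D.F.μ

theorem lv_eq (β : YC Y κ lam) : N.lv D β = ld D β / 2 + lq N D β := rfl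

end tq

variable (I3 Y κ lam)

/-- LEAF EN-TMP: exponentially converging configurations in temporal gauge -/
def TmpStmt : Prop := ∀ (D : YD I3 Y κ lam), D.OK → (∃ C, D.Z.Tame C) →
  ∀ (c : Cfg (Y × ℝ) (Option κ) lam 0) (γ γ' : YC Y κ lam) (ζ ζ' : Circle) (d : ℝ), 0 < d →
    c.Adm D.B D.G → D.Adm γ → D.Adm γ' → D.nk.ELim d c γ ζ atBot → D.nk.ELim d c γ' ζ' atTop →
    ∃ β d' α φ a b, Tq D β d' α φ a b ∧ Cfg.Iso D.B D.Z c (vr (cy β) α φ) ∧
      D.Eqv (vr β (a false) (b false)) γ ∧ D.Eqv (vr β (a true) (b true)) γ'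

/-- LEAF EN-WRK: the total work of the gradient term -/
def WrkStmt : Prop := ∀ (N : ND Y lam) (D : YD I3 Y κ lam), D.OK → (∃ C, D.Z.Tame C) → N.OK D →
  LgZ N D → ∀ β d α φ a b, Tq D β d α φ a b → Integrable (wq N D (vr (cy β) α φ)) D.Z.μ ∧
    ∫ x, wq N D (vr (cy β) α φ) x ∂D.Z.μ =
      lq N D (vr β (a true) (b true)) - lq N D (vr β (a false) (b false))

/-- LEAF EN-DIR: decay of the densities and the limits of the Dirac term -/
def DirStmt : Prop := ∀ (D : YD I3 Y κ lam), D.OK → ∀ β d α φ a b, Tq D β d α φ a b →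
  Integrable (en D.Z (vr (cy β) α φ) Prod.snd) D.Z.μ ∧
  Integrable ((vr (cy β) α φ).m.kd D.B D.Z (vr (cy β) α φ).W) D.Z.μ ∧
  Tendsto (fun n : ℕ => ∫ x, deriv (ct (some (-n)) (some n) 0) x.2 *
      ⟪dY D.Z (vr (cy β) α φ) Prod.snd x, (vr (cy β) α φ).Φ x⟫_ℝ ∂D.Z.μ) atTop
    (𝓝 (ld D (vr β (a false) (b false)) - ld D (vr β (a true) (b true))))

end Crest.Agent.X212.Dgr80
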