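import Crest.Agent.X212.Dgr80.Lf
import Crest.Agent.X212.Mp86.Nkb
import Crest.Agent.X212.Nd18.Ms

/-!
# Row 212, DGR (helper80): the statements EN1 (energy on a neck) and POS
-/

set_option autoImplicit false
set_option linter.unusedSectionVars false
noncomputable section
open scoped Manifold ContDiff Topology InnerProductSpace
open MeasureTheory Set Function Filter

namespace Crest.Agent.X212.Dgr80
open An Nd18 Cyf70
open Mp86 (NK)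

variable {E3 : Type} [NormedAddCommGroup E3] [NormedSpace ℝ E3] [FiniteDimensional ℝ E3]
  [MeasurableSpace E3] [BorelSpace E3]
  {H3 : Type} [TopologicalSpace H3] {I3 : ModelWithCorners ℝ E3 H3} [I3.Boundaryless]
  {Y : Type} [TopologicalSpace Y] [ChartedSpace H3 Y] [IsManifold I3 ∞ Y] [T2Space Y]
  [MeasurableSpace Y] [BorelSpace Y] [SecondCountableTopology Y] [CompactSpace Y]
  {κ : Type} [Fintype κ] {lam : Type} [Fintype lam] {D : YD I3 Y κ lam} {S : ℝ} {r n : ℕ}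

/-- a solution whose perturbation is `N.pt K q + ρ` on the neck -/
structure E1 (N : ND Y lam) (q : YW I3 Y →₀ ℝ) (X : NK D S) (c : Cfg X.M (Option κ) lam r)
    (σ ρ : Pt X.M (Option κ) lam r n) (e : ℝ) : Prop where
  gd : Gd X.B X.G c
  amb : ∃ ϖ, Amb X.G.F ϖ
  sol : c.Sol X.B X.G σ
  eD : ∀ x ∈ X.K.dp 2, σ.D c x = (N.pt X.K q : Pt _ _ _ r n).D c x + ρ.D c x
  eC : ∀ x ∈ X.K.dp 2, σ.C c x = (N.pt X.K q : Pt _ _ _ r n).C c x + ρ.C c x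
  Φ : ∀ x, ‖c.Φ x‖ ^ 4 ≤ e
  ρ : LB X.G.F.μ (fun x => X.K.cut 2 (X.K.τ x) * (‖ρ.D c x‖ ^ 2 + ‖ρ.C c x‖ ^ 2)) e
  en : Integrable (fun x => X.K.cut 3 (X.K.τ x) * en X.G.F c X.K.τ x) X.G.F.μ
  kd : Integrable (fun x => X.K.cut 3 (X.K.τ x) * c.m.kd X.B X.G.F c.W x) X.G.F.μ

variable (I3 Y κ lam)

/-- **EN1** -/
def En1Stmt : Prop := ∀ (N : ND Y lam) (D : YD I3 Y κ lam), D.OK → N.OK D →
  ∃ sz : YW I3 Y → ℝ, ∀ S > 0, ∀ (R : ℝ) (r n : ℕ), ∃ C, ∀ (q : YW I3 Y →₀ ℝ) (ν : ℝ) (X : NK D S)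
    (c : Cfg X.M (Option κ) lam r) (σ ρ : Pt X.M (Option κ) lam r n) (e : ℝ), Sml sz q → |ν| ≤ R →
    E1 (N.smul ν) q X c σ ρ e →
      ∫ x, X.K.cut 3 (X.K.τ x) * en X.G.F c X.K.τ x ∂X.G.F.μ ≤
        16 * Real.pi ^ 2 * ∫ x, X.K.cut 3 (X.K.τ x) * c.m.kd X.B X.G.F c.W x ∂X.G.F.μ + C * (1 + e)

/-- **POS**, for exponentially converging trajectories -/
def PosStmt : Prop := ∀ (N : ND Y lam) (D : YD I3 Y κ lam), D.OK → Module.finrank ℝ E3 ≤ 3 →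
  N.OK D → ∃ sz : YW I3 Y → ℝ, ∀ q, Sml sz q → ∀ (c : Cfg (Y × ℝ) (Option κ) lam 0)
    (β β' : YC Y κ lam) (ζ ζ' : Circle) (d : ℝ), 0 < d → D.Adm β → D.Adm β' →
    c.Sol D.B D.G (N.pt D.nk q : Pt _ _ _ 0 0) → D.nk.ELim d c β ζ atBot →
    D.nk.ELim d c β' ζ' atTop → Integrable (en D.Z c Prod.snd) D.Z.μ ∧
      ∫ x, en D.Z c Prod.snd x ∂D.Z.μ ≤ 16 * Real.pi ^ 2 * N.tE D c β β' ∧
      (D.Moves c → 0 < N.tE D c β β')

end Crest.Agent.X212.Dgr80
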