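import Crest.Agent.X212.Fin37.Defs
import Crest.Agent.X212.Dgr80.En0
import Crest.Agent.X212.Eqv71.Cyl

/-!
# Row 212 (helper80): limits along equivalences, MS-POS from POS, energies of chains (FIN-CHH)
-/

set_option autoImplicit false
set_option linter.unusedSectionVars false
noncomputable section
open scoped Manifold ContDiff Topology InnerProductSpace Classical
open MeasureTheory Set Function Filter

namespace Crest.Agent.X212.Dgr80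
open An Nd18 Cyf70 Eqv71
open Bki64 (Stb)

variable {E3 : Type} [NormedAddCommGroup E3] [NormedSpace ℝ E3] [FiniteDimensional ℝ E3]
  [MeasurableSpace E3] [BorelSpace E3]
  {H3 : Type} [TopologicalSpace H3] {I3 : ModelWithCorners ℝ E3 H3} [I3.Boundaryless]
  {Y : Type} [TopologicalSpace Y] [ChartedSpace H3 Y] [IsManifold I3 ∞ Y] [T2Space Y]
  [MeasurableSpace Y] [BorelSpace Y] [SecondCountableTopology Y] [CompactSpace Y]
  {κ : Type} [Fintype κ] {lam : Type} [Fintype lam] {D : YD I3 Y κ lam} {N : ND Y lam}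
  {β β' γ γ' : YC Y κ lam} {ζ ζ' : Circle} {q : YW I3 Y →₀ ℝ}

/-- equivalences of `t`-invariant configurations in temporal gauge are `t`-invariant -/
theorem stb_of_eqv (hD : D.OK) (hβ : D.Adm β) (hβ' : D.Adm β') (e : D.Eqv β β') :
    ∃ g ξ, Stb D β β' g ξ := by
  obtain ⟨u : Y × ℝ → CL β.m.V β'.m.V, ζ, e⟩ := e
  have hu : Sm (IC I3) u := contMDiffOn_univ.1 e.m.su
  have p := (Pj41.par0_iff ((Pj41.IsConn.on hβ'.adm.conn univ).proj' hD.B)).2 e.W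
  have h1 : ∀ y t, deriv (fun s => u (y, s)) t = 0 := fun y t => by
    have h2 : D.Z.D none u (y, t) + β'.W none y ∘L u (y, t) - u (y, t) ∘L β.W none y = 0 :=
      p (y, t) trivial none
    rw [hβ.tmp, hβ'.tmp, ContinuousLinearMap.zero_comp, ContinuousLinearMap.comp_zero, add_zero,
      sub_zero] at h2
    exact (D_none D.F.toPre hu (y, t)).symm.trans h2
  have h3 : u = fun x => u (x.1, 0) := funext fun x =>
    is_const_of_deriv_eq_zero ((sm_slice_snd hu x.1).differentiable (by simp)) (h1 x.1) x.2 0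
  have i := Pj41.Iso0.of_mEq isOpen_univ e.m (Pj41.OK.on hβ.adm.ok _) (Pj41.OK.on hβ'.adm.ok _)
  refine ⟨fun y => u (y, 0), ζ, h3 ▸ i, fun a x => ?_, fun y => (e.Φ (y, 0) trivial).symm⟩
  rw [← h3]; exact p x trivial a

section lim
variable {E : Type} [NormedAddCommGroup E] [NormedSpace ℝ E] [FiniteDimensional ℝ E]
  [MeasurableSpace E] [BorelSpace E]
  {HM : Type} [TopologicalSpace HM] {I : ModelWithCorners ℝ E HM} [I.Boundaryless]
  {M : Type} [TopologicalSpace M] [ChartedSpace HM M] [IsManifold I ∞ M]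
  [MeasurableSpace M] [BorelSpace M] [T2Space M] [SecondCountableTopology M]
  {B : Base M (Option κ) lam} {G : Geo I M (Option κ) lam} {K : Nk D B G} {r : ℕ}
  {c : Cfg M (Option κ) lam r} {l : Filter ℝ} {d d' : ℝ}

/-- the limit can be replaced by an isomorphic one -/
theorem lim_stb (hβ : D.Adm β) (hβ' : D.Adm β') (h : Ad0 c B G) {g ξ} (e : Stb D β β' g ξ)
    (H : K.Lim c β ζ l) : K.Lim c β' (ξ * ζ) l := by
  obtain ⟨u, H⟩ := H
  refine ⟨fun x => g x.1 ∘L u x, fun k η h0 => ?_⟩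
  have p : 0 < min η ((k : ℝ) + 1)⁻¹ := lt_min h0 (by positivity)
  obtain ⟨ε, e0, h1⟩ := Bki64.act_eta hβ hβ' p
  obtain ⟨S, a, b, f⟩ := H ⌈ε⁻¹⌉₊ ε e0
  have k2 := (Bki64.Cl.mono (h1 _ _ _ _ _ _ _ e (Bki64.cl_of_cls (c := K.pb (noz c)) hβ
    (admOn_pb K h b) ⟨f.op, f.m, f.A, f.P⟩)) (isOpen_univ.prod f.op) subset_rfl (j := k)
    (Nat.le_of_succ_le (Nat.cast_le.1 ((Nat.le_ceil _).trans' ((le_inv_comm₀ (by positivity) p).2
      (by push_cast; exact min_le_right _ _))))) (min_le_left _ _)).cls hβ' f.op (admOn_pb K h b)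
  exact ⟨S, a, b, k2.op, k2.m, k2.A, k2.P⟩

theorem lim_post (hD : D.OK) (hβ : D.Adm β) (hβ' : D.Adm β') (h : Ad0 c B G) (e : D.Eqv β β')
    (H : K.Lim c β ζ l) : ∃ ζ', K.Lim c β' ζ' l :=
  let ⟨_, _, e⟩ := stb_of_eqv hD hβ hβ' e
  ⟨_, lim_stb hβ hβ' h e H⟩

theorem elim_mono (H : K.ELim d c β ζ l) (h : d' ≤ d) : K.ELim d' c β ζ l :=
  let ⟨u, S, a, b, f, H⟩ := H
  ⟨u, S, a, b, f, fun k => let ⟨C, H⟩ := H k; ⟨|C|, fun s hs => by
    have m := mul_le_mul (le_abs_self C) (Real.exp_le_exp.2 (mul_le_mul_of_nonneg_right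
      (neg_le_neg h) (abs_nonneg s))) (Real.exp_pos _).le (abs_nonneg C)
    exact ⟨(H s hs).op, (H s hs).m, fun a w j x hx => ((H s hs).A a w j x hx).trans m,
      fun w j x hx => ((H s hs).P w j x hx).trans m⟩⟩⟩

end lim

theorem adm_crit (h : N.Crit D β) : D.Adm β := ⟨h.sol.toAdm, h.tmp⟩

theorem traj_post (hD : D.OK) {c : Cfg (Y × ℝ) (Option κ) lam 0} (h : N.Traj D q c β β' ζ ζ')
    (a : D.Adm β) (a' : D.Adm β') (b : D.Adm γ) (b' : D.Adm γ') (e : D.Eqv β γ)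
    (e' : D.Eqv β' γ') : ∃ ξ ξ', N.Traj D q c γ γ' ξ ξ' :=
  let ⟨_, k⟩ := lim_post hD a b (ad0 h.sol.toAdm) e h.bot
  let ⟨_, k'⟩ := lim_post hD a' b' (ad0 h.sol.toAdm) e' h.top
  ⟨_, _, h.sol, k, k'⟩

/-- INPUT (DEC-ELIM): trajectories converge exponentially -/
def Elz (S : N.CD D) (q : YW I3 Y →₀ ℝ) : Prop := ∀ i j c ζ ζ',
  N.Traj D q c (S.β i) (S.β j) ζ ζ' → (∃ d > 0, D.nk.ELim d c (S.β i) ζ atBot) ∧
    ∃ d > 0, D.nk.ELim d c (S.β j) ζ' atTop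

/-- **MS-POS**, with the energy bound -/
theorem ms_pos (hP : PosStmt I3 Y κ lam) (hD : D.OK) (h3 : Module.finrank ℝ E3 ≤ 3) (hN : N.OK D) :
    ∃ sz : YW I3 Y → ℝ, ∀ q, Sml sz q → ∀ S : N.CD D, Elz S q → S.Pos q ∧ ∀ i j c ζ ζ',
      N.Traj D q c (S.β i) (S.β j) ζ ζ' → Integrable (en D.Z c Prod.snd) D.Z.μ ∧
        ∫ x, en D.Z c Prod.snd x ∂D.Z.μ ≤ 16 * Real.pi ^ 2 * N.tE D c (S.β i) (S.β j) := by
  refine (hP N D hD h3 hN).imp fun sz H q hq S hE => ?_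
  have k := fun i j c ζ ζ' h => let ⟨⟨d, d0, a⟩, d', d1, b⟩ := hE i j c ζ ζ' h
    H q hq c _ _ ζ ζ' _ (lt_min d0 d1) (adm_crit (S.crit i)) (adm_crit (S.crit j)) h.sol
      (elim_mono a (min_le_left _ _)) (elim_mono b (min_le_right _ _))
  exact ⟨fun i j c ζ ζ' h => (k i j c ζ ζ' h).2.2, fun i j c ζ ζ' h =>
    ⟨(k i j c ζ ζ' h).1, (k i j c ζ ζ' h).2.1⟩⟩

/-- levels and energies of chains -/
theorem brk_en (hD : OKZ D) {S : N.CD D} {Γ : Gr S.C} (hl : S.Lev Γ q) (hp : S.Pos q)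
    {k j} (h : N.Brk D q β ζ β' ζ' k j) (a : N.Crit D β) (a' : N.Crit D β') : ∀ i i',
    D.Eqv β (S.β i) → D.Eqv β' (S.β i') → ∃ n : ℤ, k = Γ.k i' - Γ.k i + n ∧
      0 ≤ S.lE Γ i i' n ∧ (j ≠ 0 → 0 < S.lE Γ i i' n) := by
  have ad := fun i => ad0 (S.crit i).sol.toAdm
  induction h with
  | nil β ζ =>
    intro i i' e e'
    obtain rfl := S.sep i i' (IsoOn.trans hD.B hD.G isOpen_univ (ad i) (ad0 a.sol.toAdm) (ad i')
      (IsoOn.symm hD.B hD.G isOpen_univ (ad0 a.sol.toAdm) (ad i) e) e')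
    exact ⟨0, by simp, by simp [ND.CD.lE], fun h => (h rfl).elim⟩
  | bub _ ih =>
    intro i i' e e'
    obtain ⟨n, h1, h2, -⟩ := ih a a' i i' e e'
    have : 0 < S.lE Γ i i' (n + 1) := by rw [ND.CD.lE] at h2 ⊢; push_cast; linarith
    exact ⟨n + 1, by rw [h1]; push_cast; ring, this.le, fun _ => this⟩
  | mov c h1 h2 h3 _ ih =>
    intro i i' e e'
    obtain ⟨i₁, e₁⟩ := S.cov _ h3
    obtain ⟨n, h4, h5, -⟩ := ih h3 a' i₁ i' e₁ e'
    obtain ⟨ξ, ξ', t⟩ := traj_post hD.toOK h1 (adm_crit a) (adm_crit h3) (adm_crit (S.crit i))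
      (adm_crit (S.crit i₁)) e e₁
    obtain ⟨n', h6⟩ := hl _ _ c _ _ t
    have h7 := hp _ _ c _ _ t h2
    rw [ND.CD.tE_eq h6] at h7
    have : 0 < S.lE Γ i i' (n' + n) := by rw [ND.CD.lE] at h5 h7 ⊢; push_cast; linarith
    exact ⟨n' + n, by rw [h4, h6]; push_cast; ring, this.le, fun _ => this⟩

theorem brk_ch (Z : OKZ D) (hN : N.OK D) (S : N.CD D) (Γ : Gr S.C) : ∃ (C : ℝ) (V : Set ℝ),
    V.Finite ∧ ∀ q β ζ β' ζ' k j, S.Lev Γ q → S.Pos q → N.Crit D β → N.Crit D β' →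
      N.Brk D q β ζ β' ζ' k j → ∀ e, e = k + (N.lv D β - N.lv D β') / (8 * Real.pi ^ 2) →
        0 ≤ e ∧ |e - k| ≤ C ∧ ∃ v ∈ V, ∃ m : ℤ, e = v + m := by
  obtain ⟨L, hL⟩ : ∃ L : S.C → ℝ, ∀ i, N.lv D (S.β i) = L i := ⟨_, fun _ => rfl⟩
  refine ⟨∑ p : S.C × S.C, |(L p.1 - L p.2) / (8 * Real.pi ^ 2)|,
    range fun p : S.C × S.C => S.lE Γ p.1 p.2 0, finite_range _,
    fun q β ζ β' ζ' k j hl hp a a' b x hx => ?_⟩
  obtain ⟨i, e⟩ := S.cov _ a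
  obtain ⟨i', e'⟩ := S.cov _ a'
  obtain ⟨m, h1, h2, -⟩ := brk_en Z hl hp b a a' i i' e e'
  rw [(Z.lv_iso hN (ad0 a.sol.toAdm) (ad0 (S.crit i).sol.toAdm) e).symm.trans (hL i),
    (Z.lv_iso hN (ad0 a'.sol.toAdm) (ad0 (S.crit i').sol.toAdm) e').symm.trans (hL i')] at hx
  have E : x = S.lE Γ i i' m := by rw [hx, h1, ND.CD.lE, ND.CD.en, ND.CD.en, hL, hL]; ring
  refine ⟨h2.trans_eq E.symm, ?_, S.lE Γ i i' 0, ⟨(i, i'), rfl⟩, m, E.trans ?_⟩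
  · rw [hx, add_sub_cancel_left]
    exact Finset.single_le_sum (f := fun p : S.C × S.C => |(L p.1 - L p.2) / (8 * Real.pi ^ 2)|)
      (fun _ _ => abs_nonneg _) (Finset.mem_univ (i, i'))
  · rw [ND.CD.lE, ND.CD.lE, Int.cast_zero, add_zero]

section job
open M Fin37
variable {Wi : Type} {X : Mf 4} {A κ lam : Type} [Fintype A] [Fintype κ] [Fintype lam]
  [DecidableEq lam] {M : Mark X A κ} {W : World M} {N : ML M lam}
  {Λ : Lns W N} {A' h : Type} [Fintype A'] [DecidableEq A'] [Fintype h] {r n : ℕ}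
  {J : Job Wi Λ A' h r n} {Adm : (Wi →₀ ℝ) → Prop}

/-- **FIN-CHH**, one cross-section -/
theorem chX {T : Xs Wi κ lam} (hD : T.D.OK) (hN : T.N.OK T.D) (S : T.N.CD T.D) (Γ : Gr S.C)
    (H : ∀ q, Adm q → S.Lev Γ (T.q q) ∧ S.Pos (T.q q)) : ChX Adm T :=
  let ⟨C, V, hV, k⟩ := brk_ch (okZ hD T.Y.dim.le) hN S Γ
  ⟨C, V, hV, fun q β ζ β' ζ' x j hq a a' b =>
    k _ β ζ β' ζ' x j (H q hq).1 (H q hq).2 a a' b _ rfl⟩

/-- **FIN-CHH** -/
theorem chh (hJ : J.OK) (H : ∀ a ∈ J.hw, ¬M.pin a → ∃ (S : (J.xs a).N.CD (J.xs a).D) (Γ : Gr S.C),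
    ∀ q, Adm q → S.Lev Γ ((J.xs a).q q) ∧ S.Pos ((J.xs a).q q)) : CHH J Adm := fun a ha hp =>
  let ⟨S, Γ, H⟩ := H a ha hp
  chX (hJ.xs a).1.yd (hJ.xs a).2 S Γ H

end job

end Crest.Agent.X212.Dgr80
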