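import Crest.Agent.X212.Dgr80.Pos
import Crest.Agent.X212.Dgr80.Chh
import Crest.Agent.X212.Cay24.TmpE
import Crest.Agent.X212.Wrk63.Main
import Crest.Agent.X212.En36.Dir

/-!
# Row 212, DGR (helper80): POS without hypotheses
-/

namespace Crest.Agent.X212.Dgr80
open scoped Manifold ContDiff

variable {E3 : Type} [NormedAddCommGroup E3] [NormedSpace ℝ E3] [FiniteDimensional ℝ E3]
  [MeasurableSpace E3] [BorelSpace E3]
  {H3 : Type} [TopologicalSpace H3] {I3 : ModelWithCorners ℝ E3 H3} [I3.Boundaryless]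
  {Y : Type} [TopologicalSpace Y] [ChartedSpace H3 Y] [IsManifold I3 ∞ Y] [T2Space Y]
  [MeasurableSpace Y] [BorelSpace Y] [SecondCountableTopology Y] [CompactSpace Y]
  {κ : Type} [Fintype κ] {lam : Type} [Fintype lam]

/-- **POS** -/
theorem posStmt : PosStmt I3 Y κ lam := pos Cay24.tmpStmt Wrk63.wrkStmt En36.dirStmt

end Crest.Agent.X212.Dgr80
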