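import Crest.Agent.X212.Dgr80.Win
import Crest.Agent.X212.Nka63.A

/-!
# Row 212, DGR (helper80): functions of time localised near two points
-/

set_option autoImplicit false
set_option linter.unusedSectionVars false
noncomputable section
open scoped Topology ContDiff
open MeasureTheory Set Filter Real

namespace Crest.Agent.X212.Dgr80
open Nd18 Nka63

variable {δ ε a a' C L s t u : ℝ} {f c : ℝ → ℝ}

/-- two windows -/
def lz (ε a a' s : ℝ) : ℝ := b ε (s - a) + b ε (s - a')

theorem lz_pos (hε : 0 < ε) : 0 < lz ε a a' s := add_pos (b_pos hε _) (b_pos hε _)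

theorem one_le_lz (hε : 0 < ε) (h : |s - a| ≤ u ∨ |s - a'| ≤ u) :
    1 ≤ 4 / ε * exp (ε * u) * lz ε a a' s := by
  have k : ∀ {a}, |s - a| ≤ u → 1 ≤ 4 / ε * exp (ε * u) * b ε (s - a) := fun {a} h => by
    refine le_trans ?_ (mul_le_mul_of_nonneg_left (b_ge hε _) (by positivity))
    rw [show 4 / ε * exp (ε * u) * (ε / 4 * exp (-(ε * |s - a|))) =
      exp (ε * u) * exp (-(ε * |s - a|)) by field_simp, ← exp_add]
    exact one_le_exp (by nlinarith)
  have p : 0 ≤ 4 / ε * exp (ε * u) := by positivity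
  rcases h with h | h
  · exact (k h).trans (mul_le_mul_of_nonneg_left (le_add_of_nonneg_right (b_pos hε _).le) p)
  · exact (k h).trans (mul_le_mul_of_nonneg_left (le_add_of_nonneg_left (b_pos hε _).le) p)

theorem int_of_lz (hε : 0 < ε) (hf : AEStronglyMeasurable f volume)
    (h : ∀ s, |f s| ≤ C * lz ε a a' s) : Integrable f ∧ ∫ s, |f s| ≤ 2 * C := by
  have i := fun a => (integrable_b hε).comp_sub_right a
  have i2 : Integrable fun s => C * lz ε a a' s := ((i a).add (i a')).const_mul C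
  have k := i2.mono' hf (.of_forall h)
  refine ⟨k, (integral_mono k.abs i2 h).trans_eq ?_⟩
  simp only [lz, integral_const_mul, integral_add (i a) (i a'), integral_sub_right_eq_self (b ε),
    integral_b hε]
  ring

/-- bounded functions supported near the two points -/
theorem lz_of_bd (hε : 0 < ε) (h : ∀ s, |f s| ≤ C) (k : ∀ s, f s ≠ 0 → |s - a| ≤ u ∨ |s - a'| ≤ u)
    (s : ℝ) : |f s| ≤ C * (4 / ε * exp (ε * u)) * lz ε a a' s := by
  have p := (abs_nonneg _).trans (h s)
  rw [mul_assoc]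
  by_cases e : f s = 0
  · rw [e, abs_zero]; exact mul_nonneg p (mul_nonneg (by positivity) (lz_pos hε).le)
  · exact (h s).trans (le_mul_of_one_le_right p (one_le_lz hε (k s e)))

theorem int_of_bd (hf : Continuous f) (h : ∀ s, |f s| ≤ C)
    (k : ∀ s, f s ≠ 0 → |s - a| ≤ 2 ∨ |s - a'| ≤ 2) : Integrable f ∧ ∫ s, |f s| ≤ 80 * C := by
  have := int_of_lz one_pos hf.aestronglyMeasurable (lz_of_bd one_pos h k)
  refine ⟨this.1, this.2.trans ?_⟩
  have e : exp (1 * 2) ≤ 10 := by
    rw [one_mul, ← one_add_one_eq_two, exp_add]; nlinarith [exp_one_lt_d9, exp_pos 1]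
  generalize exp (1 * 2) = x at e ⊢
  linarith [mul_le_mul_of_nonneg_left e ((abs_nonneg _).trans (h 0))]

theorem bd_one_neg (δ s : ℝ) : bd δ 1 (-s) = -bd δ 1 s := by
  have h := (hasDerivAt_bd δ 0 (-s)).comp s (hasDerivAt_neg s)
  rw [show bd δ 0 ∘ Neg.neg = bd δ 0 from funext fun x => by simp [bd_zero, b_neg]] at h
  linarith [h.unique (hasDerivAt_bd δ 0 s)]

/-- the derivative of the convolution -/
def cv1 (δ : ℝ) (c : ℝ → ℝ) (s : ℝ) : ℝ := ∫ t, c t * bd δ 1 (s - t)

theorem cv1_eq (c : ℝ → ℝ) : cv1 δ c = wnd volume id δ 1 c := funext fun s => by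
  simp only [cv1, wnd, id, smul_eq_mul]
  congr 1; funext t; rw [← neg_sub t, bd_one_neg]; ring

theorem hasDerivAt_cv (hδ : 0 < δ) (hc : Continuous c) (hC : ∀ t, |c t| ≤ L) (s : ℝ) :
    HasDerivAt (cv δ c) (cv1 δ c s) s := by
  rw [cv_eq_wn, cv1_eq]; exact (wi_of_bdd hδ hc.aestronglyMeasurable hC).hasDerivAt_wn hδ s

theorem continuous_cv1 (hδ : 0 < δ) (hc : Continuous c) (hC : ∀ t, |c t| ≤ L) :
    Continuous (cv1 δ c) := by
  rw [cv1_eq]; exact ((wi_of_bdd hδ hc.aestronglyMeasurable hC).contDiff_wnd hδ 1).continuous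

/-- Fubini -/
theorem WI.fub {M : Type*} [MeasurableSpace M] {μ : Measure M} [SFinite μ] {τ h : M → ℝ}
    (hδ : 0 < δ) (hh : WI μ τ δ h) (hc : Continuous c) (hs : HasCompactSupport c) :
    Integrable (fun x => cv1 δ c (τ x) * h x) μ ∧
      ∫ x, cv1 δ c (τ x) * h x ∂μ = -∫ t, c t * wnd μ τ δ 1 h t := by
  have i : Integrable (fun z : M × ℝ => c z.2 * bd δ 1 (τ z.1 - z.2) * h z.1) (μ.prod volume) := by
    have i1 : Integrable fun t => |c t| * (δ * exp (δ * |t|)) :=
      Continuous.integrable_of_hasCompactSupport (by fun_prop) hs.abs.mul_right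
    refine (hh.i.mul_prod i1).mono' ((hc.aestronglyMeasurable.comp_snd.mul
      ((continuous_bd δ 1).comp_aestronglyMeasurable (hh.τm.comp_fst.sub
        measurable_snd.aestronglyMeasurable))).mul hh.m.comp_fst) (.of_forall fun z => ?_)
    have k := (abs_bd_one_le hδ (τ z.1 - z.2)).trans
      (mul_le_mul_of_nonneg_left (b_add_le hδ (τ z.1) (-z.2)) hδ.le)
    rw [abs_neg] at k
    rw [norm_mul, norm_mul]
    exact (mul_le_mul_of_nonneg_right (mul_le_mul_of_nonneg_left k (norm_nonneg _))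
      (norm_nonneg _)).trans_eq (by rw [Real.norm_eq_abs]; ring)
  have e : ∀ x, cv1 δ c (τ x) * h x = ∫ t, c t * bd δ 1 (τ x - t) * h x := fun x => by
    rw [cv1, integral_mul_const]
  simp only [e]
  refine ⟨i.integral_prod_left, (integral_integral_swap
    (f := fun x t => c t * bd δ 1 (τ x - t) * h x) i).trans ?_⟩
  rw [← integral_neg]
  congr 1; funext t
  rw [wnd, ← integral_const_mul, ← integral_neg]
  congr 1; funext x; simp only [smul_eq_mul]; ring

/-- the commutator of a cut-off with the convolution -/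
theorem comm_lz (hδ : 0 < δ) (hc : Continuous c) (hC : ∀ t, |c t| ≤ L) {θ : ℝ → ℝ}
    (hθ : Continuous θ) (h1 : ∀ t, θ t ∈ Icc (0 : ℝ) 1)
    (h2 : ∀ s t, θ s ≠ θ t → |s - a| ≤ |s - t| + 1 ∨ |s - a'| ≤ |s - t| + 1) (s : ℝ) :
    |θ s * cv1 δ c s - cv1 δ (fun t => θ t * c t) s| ≤
      L * (64 * exp (δ / 2)) * lz (δ / 2) a a' s := by
  have h0 := half_pos hδ
  have L0 := (abs_nonneg _).trans (hC 0)
  have m := ((continuous_bd δ 1).comp (continuous_const.sub continuous_id) :
    Continuous fun t => bd δ 1 (s - t))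
  have i0 : Integrable fun t => bd δ 1 (s - t) := ((integrable_b_sub hδ s).const_mul δ).mono'
    m.aestronglyMeasurable (.of_forall fun t => abs_bd_one_le hδ _)
  have i1 := i0.bdd_mul hc.aestronglyMeasurable (.of_forall hC)
  have i2 := i0.bdd_mul (hθ.fun_mul hc).aestronglyMeasurable (c := L) (.of_forall fun t => by
    rw [norm_mul, Real.norm_of_nonneg (h1 t).1]
    exact (mul_le_of_le_one_left (norm_nonneg _) (h1 t).2).trans (hC t))
  rw [cv1, cv1, ← integral_const_mul, ← integral_sub (i1.const_mul _) i2,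
    ← mul_one (_ * lz _ _ _ _), ← integral_b_sub h0 s, ← integral_const_mul]
  refine (Real.norm_eq_abs _).symm.trans_le (norm_integral_le_of_norm_le
    ((integrable_b_sub h0 s).const_mul _) (.of_forall fun t => ?_))
  have p := lz_pos (a := a) (a' := a') (s := s) h0
  have p' := b_pos h0 (s - t)
  by_cases e : θ s = θ t
  · rw [e, mul_assoc, sub_self, norm_zero]; positivity
  have k1 := one_le_lz h0 (h2 s t e)
  have k2 : |θ s - θ t| ≤ 1 := abs_le.2 ⟨by linarith [(h1 s).1, (h1 t).2],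
    by linarith [(h1 s).2, (h1 t).1]⟩
  have k3 := (abs_bd_one_le hδ (s - t)).trans (mul_le_mul_of_nonneg_left (b_le_exp hδ _) hδ.le)
  have k4 := b_ge h0 (s - t)
  rw [show θ s * (c t * bd δ 1 (s - t)) - θ t * c t * bd δ 1 (s - t) =
    c t * ((θ s - θ t) * bd δ 1 (s - t)) by ring, norm_mul, norm_mul, mul_assoc, mul_assoc]
  refine mul_le_mul (hC t) ((mul_le_mul (k2.trans k1) k3 (abs_nonneg _) (by positivity)).trans ?_)
    (by positivity) L0
  refine le_trans (le_of_eq ?_) (mul_le_mul_of_nonneg_left (mul_le_mul_of_nonneg_left k4 p.le)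
    (by positivity))
  rw [show -(δ * |s - t|) = -(δ / 2 * |s - t|) + -(δ / 2 * |s - t|) by ring, mul_add, mul_one,
    exp_add, exp_add, exp_neg]
  field_simp
  ring

/-! ### the cut-off functions -/

theorem st_ne (h : smoothTransition s ≠ smoothTransition t) : |s| ≤ |s - t| + 1 := by
  have h1 : 0 < s ∨ 0 < t := by
    by_contra! e
    exact h (by rw [smoothTransition.zero_of_nonpos e.1, smoothTransition.zero_of_nonpos e.2])
  have h2 : s < 1 ∨ t < 1 := by
    by_contra! e
    exact h (by rw [smoothTransition.one_of_one_le e.1, smoothTransition.one_of_one_le e.2])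
  have := le_abs_self (s - t)
  have := neg_abs_le (s - t)
  rcases h1 with h1 | h1 <;> rcases h2 with h2 | h2 <;> rw [abs_le] <;> constructor <;>
    linarith [abs_nonneg (s - t)]

theorem ct_ne (h : ct (some a) (some a') 3 s ≠ ct (some a) (some a') 3 t) :
    |s - (a + 3)| ≤ |s - t| + 1 ∨ |s - (a' - 3)| ≤ |s - t| + 1 := by
  by_contra! e
  refine h ?_
  simp only [ct, Option.elim_some]
  congr 1 <;> by_contra k <;> have := st_ne k
  · rw [show s - a - 3 - (t - a - 3) = s - t by ring, sub_sub] at this; linarith [e.1]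
  · rw [show a' - s - 3 - (a' - t - 3) = -(s - t) by ring, show a' - s - 3 = -(s - (a' - 3)) by ring,
      abs_neg, abs_neg] at this
    linarith [e.2]

theorem near_of (h : s ∈ Dp (some a) (some a') 2) (k : s ∉ Dq (some a) (some a') 5) :
    |s - (a + 3)| ≤ 2 ∨ |s - (a' - 3)| ≤ 2 := by
  have h1 := h.1 a rfl
  have h2 := h.2 a' rfl
  simp only [mem_Dq, Option.mem_def, Option.some.injEq, forall_eq', not_and_or, not_lt] at k
  exact k.imp (fun k => abs_le.2 ⟨by linarith, by linarith⟩) fun k =>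
    abs_le.2 ⟨by linarith, by linarith⟩

end Crest.Agent.X212.Dgr80
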