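import Crest.Agent.X212.Dgr80.Tk
import Crest.Agent.X212.Dgr80.E1a

/-!
# Row 212, DGR (helper80): the work of the neck terms, pointwise; cut-off functions of time
-/

set_option autoImplicit false
set_option linter.unusedSectionVars false
noncomputable section
open scoped Manifold ContDiff Topology InnerProductSpace Classical
open MeasureTheory Set Function Filter

namespace Crest.Agent.X212.Dgr80
open An Wz78 Nd18 Cyf70 Nka63

variable {E : Type} [NormedAddCommGroup E] [NormedSpace ℝ E] [FiniteDimensional ℝ E]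
  [MeasurableSpace E] [BorelSpace E]
  {HM : Type} [TopologicalSpace HM] {I : ModelWithCorners ℝ E HM}
  {M : Type} [TopologicalSpace M] [ChartedSpace HM M] [IsManifold I ∞ M]
  [MeasurableSpace M] [T2Space M] [BorelSpace M] {lam : Type} [Fintype lam] {r n : ℕ}

namespace PN
variable {ι : Type} [Fintype ι] [DecidableEq ι] {B : Base M ι lam} {G : Geo I M ι lam} {c : Cfg M ι lam r}
  {τ : M → ℝ} {a₀ : ι} {O : Set M} {x : M} (P : PN B G τ a₀ O) (A : c.Adm B G)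
include P A

theorem cT_cT (hx : x ∈ O) (v : c.m.V) : cT G.F c τ x (cT G.F c τ x v) = -c.m.p x v := by
  have h := (A.ok.cl x).rel a₀ a₀
  rw [P.BP hx, if_pos rfl, mul_one, ← two_smul ℝ, neg_smul, ← smul_neg] at h
  rw [P.toPrd.cT_eq c hx, ← mul_apply_eq_comp, smul_right_injective _ two_ne_zero h, neg_apply]

theorem norm_cT (hx : x ∈ O) (v : c.m.V) : ‖cT G.F c τ x v‖ ≤ ‖v‖ := by
  have h1 := P.cT_cT A hx v
  rw [P.toPrd.cT_eq c hx] at h1 ⊢
  have h2 := A.ok.ρsk a₀ x v (c.m.ρ a₀ x v)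
  have h3 := A.ok.psym x v (c.m.p x v)
  rw [← mul_apply_eq_comp, A.ok.pidem, real_inner_self_eq_norm_sq] at h3
  rw [h1, real_inner_self_eq_norm_sq, inner_neg_right, neg_neg] at h2
  have h4 := real_inner_le_norm v (c.m.p x v)
  exact (abs_le_of_sq_le_sq' (by nlinarith [sq_nonneg (‖v‖ - ‖c.m.p x v‖)]) (norm_nonneg _)).2

theorem p2_oT (hx : x ∈ O) (b : ι) :
    c.m.p2 B x (oT G.F τ x (xA G.F c τ x)) (a₀, b) = (4⁻¹ : ℝ) • xA G.F c τ x b := by
  have o : ∀ l, B.o a₀ b a₀ l x = 0 := fun l => by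
    linarith [P.hB.o12 a₀ b a₀ l x, P.hB.o23 b a₀ a₀ l x]
  have e : ∀ l, B.sd x (a₀, b) (a₀, l) = 4⁻¹ * B.P b l x - if l = a₀ then 4⁻¹ * B.P b a₀ x else 0 :=
    fun l => by simp only [Base.sd, Base.a2, Base.st, o, P.BP hx]; split_ifs <;> ring
  rw [Md.p2, idx_apply, Fintype.sum_prod_type, Finset.sum_comm]
  simp only [oT, map_smul, smul_comm (B.sd x _ _), P.toPrd.sum_dτ hx, e, pg_of_mem (P.xA_mem A x _),
    sub_smul, ite_smul, zero_smul, Finset.sum_sub_distrib, Finset.sum_ite_eq', Finset.mem_univ,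
    if_true, P.xA0 A hx, smul_zero, sub_zero, mul_smul, ← Finset.smul_sum, P.xA_proj A hx]

/-- the work of the gradient term -/
theorem wk_q1 {J : Type} [Fintype J] [DecidableEq J] (N : DG M ι lam r J) (e : N.τ = τ)
    (hx : x ∈ O) : wk G.F c τ (N.q1 B G.F : Pt M ι lam r n) x =
      -(⟪xA G.F c τ x, N.gA G.F c x⟫_ℝ + ⟪xP G.F c τ x, N.gP G.F c x⟫_ℝ) := by
  subst e
  have h1 : (N.q1 B G.F : Pt M ι lam r n).D c x = -cT G.F c N.τ x (c.m.pp B x (N.gP G.F c x)) := by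
    simp [DG.q1, cT]
  have h2 : (N.q1 B G.F : Pt M ι lam r n).C c x =
      (-8 : ℝ) • c.m.p2 B x (oT G.F N.τ x (N.gA G.F c x)) := rfl
  rw [wk, h1, h2, map_neg, P.cT_cT A hx, neg_neg, ← mul_apply_eq_comp, p_pp A.ok, pp_sym P.hB A.ok,
    P.pp_xP A hx, real_inner_smul_left, inner_p2 P.hB, real_inner_comm, P.toPrd.inner_oT hx,
    real_inner_comm (xP _ _ _ _), PiLp.inner_apply (xA _ _ _ _)]
  simp only [P.p2_oT A hx, real_inner_smul_left, ← Finset.mul_sum]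
  ring

theorem wk_le (hx : x ∈ O) (v : c.m.V) (η : Fm (ι × ι) c.m.A) :
    |⟪η, oT G.F τ x (xA G.F c τ x)⟫_ℝ / 2 - ⟪cT G.F c τ x v, xP G.F c τ x⟫_ℝ| ≤
      en G.F c τ x / 4 + (‖v‖ ^ 2 + ‖η‖ ^ 2) := by
  have h1 := abs_le.1 (abs_real_inner_le_norm η (oT G.F τ x (xA G.F c τ x)))
  have h2 := abs_le.1 ((abs_real_inner_le_norm (cT G.F c τ x v) (xP G.F c τ x)).trans
    (mul_le_mul_of_nonneg_right (P.norm_cT A hx v) (norm_nonneg _)))
  rw [P.toPrd.norm_oT hx] at h1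
  have h3 := sq_nonneg (‖η‖ - ‖xA G.F c τ x‖ / 4)
  have h4 := sq_nonneg (‖v‖ - ‖xP G.F c τ x‖ / 2)
  rw [en, abs_le]
  constructor <;> linarith [h1.1, h1.2, h2.1, h2.2]

end PN

/-! ### cut-off functions -/

section time
variable {p q : Option ℝ} {a a' d s : ℝ} {f : ℝ → ℝ}

/-- `(a, a') ⊆ (p, q)` -/
def Sb (p q : Option ℝ) (a a' : ℝ) : Prop := (∀ x ∈ p, x ≤ a) ∧ ∀ y ∈ q, a' ≤ y

theorem Sb.dp (h : Sb p q a a') : Dp (some a) (some a') d ⊆ Dp p q d := fun _ k =>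
  ⟨fun x hx => by linarith [h.1 x hx, k.1 a rfl], fun x hx => by linarith [h.2 x hx, k.2 a' rfl]⟩

theorem deriv_off {Z : Set ℝ} (hZ : IsClosed Z) (h : ∀ s ∉ Z, f s = 0) : ∀ s ∉ Z, deriv f s = 0 :=
  fun _ hs => by
    rw [EventuallyEq.deriv_eq (f := fun _ => (0 : ℝ)) (mem_of_superset (hZ.isOpen_compl.mem_nhds hs) h),
      deriv_const]

/-- a bound for the cut-off functions and two derivatives -/
def cA : ℝ := 1 + bd_ct.choose 2

theorem ct_le (i : ℕ) (hi : i ≤ 2 := by omega) : |iteratedDeriv i (ct p q d) s| ≤ cA :=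
  ((bd_ct.choose_spec p q d).2 2 i hi s).trans (le_add_of_nonneg_left zero_le_one)

theorem one_le_cA : 1 ≤ cA := le_add_of_nonneg_right ((bd_ct.choose_spec none none 0).nonneg 2)

theorem dct_le : |deriv (ct p q d) s| ≤ cA := iteratedDeriv_one (f := ct p q d) ▸ ct_le 1

/-- the cut-off -/
abbrev θc (a a' : ℝ) : ℝ → ℝ := ct (some a) (some a') 3

/-- the dominating function -/
def ζc (a a' s : ℝ) : ℝ := cA * (ct (some a) (some a') 2 s - ct (some a) (some a') 4 s)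

/-- the boundary layer -/
def Zc (a a' d d' : ℝ) : Set ℝ := Dp (some a) (some a') d \ Dq (some a) (some a') d'

theorem isClosed_Zc {d' : ℝ} : IsClosed (Zc a a' d d') := isClosed_Dp.sdiff isOpen_Dq

theorem Zc_sub : Zc a a' 3 4 ⊆ Zc a a' 2 5 :=
  sdiff_subset_sdiff (Dp_mono (by norm_num)) (Dq_mono (by norm_num))

theorem dθ_off : ∀ s ∉ Zc a a' 3 4, deriv (θc a a') s = 0 := fun s hs => by
  by_cases h : s ∈ Dp (some a) (some a') 3
  · exact dct_zero (by norm_num; exact by_contra fun e => hs ⟨h, e⟩)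
  · exact deriv_off isClosed_Dp (fun _ => ct_zero) s h

theorem sm_ζc : ContDiff ℝ ∞ (ζc a a') := contDiff_const.mul (contDiff_ct.sub contDiff_ct)

theorem ζc_off : ∀ s ∉ Zc a a' 2 5, ζc a a' s = 0 := fun s hs => by
  by_cases h : s ∈ Dp (some a) (some a') 2
  · have k : s ∈ Dp (some a) (some a') 5 := Dq_sub_Dp (by_contra fun e => hs ⟨h, e⟩)
    rw [ζc, ct_one (Dp_mono (by norm_num) k), ct_one (Dp_mono (by norm_num) k), sub_self, mul_zero]
  · rw [ζc, ct_zero h, ct_zero fun e => h (Dp_mono (by norm_num) e), sub_self, mul_zero]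

theorem le_ζc (h : ∀ s ∉ Zc a a' 3 4, f s = 0) (k : |f s| ≤ cA) : |f s| ≤ ζc a a' s ^ 2 := by
  by_cases hs : s ∈ Zc a a' 3 4
  · rw [ζc, ct_one (Dp_mono (by norm_num) hs.1), ct_zero' hs.2, sub_zero, mul_one]
    exact k.trans (le_self_pow₀ one_le_cA two_ne_zero)
  · rw [h s hs, abs_zero]; exact sq_nonneg _

theorem int_Zc (hf : Continuous f) {C : ℝ} (h : ∀ s, |f s| ≤ C) (k : ∀ s ∉ Zc a a' 2 5, f s = 0) :
    Integrable f ∧ ∫ s, |f s| ≤ 80 * C :=
  int_of_bd hf h fun s hs => let e := by_contra fun e => hs (k s e); near_of e.1 e.2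

theorem cd_deriv (hf : ContDiff ℝ ∞ f) : ContDiff ℝ ∞ (deriv f) := (contDiff_infty_iff_deriv.1 hf).2

theorem ζc_le : |ζc a a' s ^ 2 + deriv (ζc a a') s ^ 2| ≤ 8 * cA ^ 4 := by
  have d : ∀ d, HasDerivAt (ct (some a) (some a') d) (deriv (ct (some a) (some a') d) s) s :=
    fun _ => (contDiff_ct.differentiable (by simp) s).hasDerivAt
  have k : ∀ x y : ℝ, |x| ≤ cA → |y| ≤ cA → (cA * (x - y)) ^ 2 ≤ 4 * cA ^ 4 := fun x y hx hy => by
    have := pow_le_pow_left₀ (abs_nonneg _) ((abs_sub x y).trans (add_le_add hx hy)) 2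
    rw [sq_abs] at this
    nlinarith [mul_le_mul_of_nonneg_left this (sq_nonneg cA)]
  rw [abs_of_nonneg (by positivity), show deriv (ζc a a') s = _ from
    (((d 2).sub (d 4)).const_mul cA).deriv]
  linarith [k _ _ (dct_le (p := some a) (q := some a') (d := 2) (s := s))
    (dct_le (p := some a) (q := some a') (d := 4) (s := s)),
    show ζc a a' s ^ 2 ≤ _ from k _ _ (ct_le 0) (ct_le 0)]

end time

variable {E3 : Type} [NormedAddCommGroup E3] [NormedSpace ℝ E3] [FiniteDimensional ℝ E3]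
  [MeasurableSpace E3] [BorelSpace E3]
  {H3 : Type} [TopologicalSpace H3] {I3 : ModelWithCorners ℝ E3 H3} [I3.Boundaryless]
  {Y : Type} [TopologicalSpace Y] [ChartedSpace H3 Y] [IsManifold I3 ∞ Y] [T2Space Y]
  [MeasurableSpace Y] [BorelSpace Y] [SecondCountableTopology Y] [CompactSpace Y]
  {κ : Type} [Fintype κ] {D : YD I3 Y κ lam} {B : Base M (Option κ) lam}
  {G : Geo I M (Option κ) lam} (K : Nk D B G) {g : ℝ → ℝ} {a a' d : ℝ} {x : M}

theorem tm_eq (h : K.τ x ∈ Dp K.p K.q 2) : K.χ x = 1 ∧ x ∈ O K 1 ∧ K.τ x = K.tm x := by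
  have h1 : K.χ x = 1 := by rw [χ_eq]; exact ct_one (by norm_num; exact h)
  have h2 := mem_O_of_χ K (h1.trans_ne one_ne_zero)
  exact ⟨h1, h2, τ_eq K h2⟩

theorem D_time0 (hg : ContDiff ℝ ∞ g) (h : ∀ s ∉ Dp K.p K.q 2, g s = 0) :
    G.F.D none (fun x => g (K.τ x)) = fun x => deriv g (K.τ x) := funext fun x => by
  by_cases e : K.τ x ∈ Dp K.p K.q 2
  · exact D_time_none' K hg (tm_eq K e).2.1
  · rw [D_time_none K hg, deriv_off isClosed_Dp h _ e, smul_zero]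

theorem int_time (hg : Integrable g) (h : ∀ s ∉ Dp K.p K.q 2, g s = 0) :
    LB G.F.μ (fun x => |g (K.τ x)|) (vY D * ∫ s, |g s|) := by
  have e : (fun x => |g (K.τ x)|) = fun x => |g (K.τ x)| * K.χ x := funext fun x => by
    by_cases e : K.τ x ∈ Dp K.p K.q 2
    · rw [(tm_eq K e).1, mul_one]
    · rw [h _ e, abs_zero, zero_mul]
  rw [e]
  exact ⟨integrable_time_χ K hg.abs, integral_time_χ_le K hg.abs fun _ => abs_nonneg _⟩

variable {K} (S : Sb K.p K.q a a')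
include S

theorem Sb.off (hd : 2 ≤ d) (h : ∀ s ∉ Dp (some a) (some a') d, g s = 0) :
    ∀ s ∉ Dp K.p K.q 2, g s = 0 := fun s hs => h s fun e => hs (Dp_mono hd (S.dp e))

theorem Sb.ts (hg : ContDiff ℝ ∞ g) (hd : 2 ≤ d) {d' : ℝ} (hd' : d' < d)
    (h : ∀ s ∉ Dp (some a) (some a') d, g s = 0) : Ts I (O K d') fun x => g (K.τ x) := by
  have e : Icc (a + d) (a' - d) ⊆ Dp K.p K.q d := fun s hs => S.dp
    ⟨fun _ k => Option.some.inj k ▸ hs.1, fun _ k => Option.some.inj k ▸ hs.2⟩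
  have c := isCompact_slab K (e.trans (Dp_sub (by linarith)))
  have t : tsupport (fun x => g (K.τ x)) ⊆ K.tm ⁻¹' Icc (a + d) (a' - d) :=
    closure_minimal (fun x hx => by
      have k : K.τ x ∈ Dp (some a) (some a') d := by_contra fun e => hx (h _ e)
      rw [mem_preimage, ← (tm_eq K (Dp_mono hd (S.dp k))).2.2]
      exact ⟨k.1 a rfl, k.2 a' rfl⟩) c.isClosed
  exact ⟨sm_time K hg, c.of_isClosed_subset (isClosed_tsupport _) t,
    t.trans (preimage_mono (e.trans (Dp_sub_Dq hd')))⟩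

theorem Sb.offZ {d' : ℝ} (hd : 2 ≤ d) (h : ∀ s ∉ Zc a a' d d', g s = 0) :
    ∀ s ∉ Dp K.p K.q 2, g s = 0 := S.off hd fun s hs => h s fun e => hs e.1

theorem Sb.Dθ : G.F.D none (fun x => θc a a' (K.τ x)) = fun x => deriv (θc a a') (K.τ x) :=
  D_time0 K contDiff_ct (S.off (d := 3) (by norm_num) fun _ => ct_zero)

theorem Sb.DDθ : G.F.D none (fun x => deriv (θc a a') (K.τ x)) =
    fun x => deriv (deriv (θc a a')) (K.τ x) :=
  D_time0 K (cd_deriv contDiff_ct) (S.offZ (by norm_num) dθ_off)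

theorem Sb.tf : Tf G.F none (O K 2) (fun x => θc a a' (K.τ x)) fun x => ζc a a' (K.τ x) := by
  have t := S.ts (I := I) sm_ζc le_rfl one_lt_two fun s hs => ζc_off s fun e => hs e.1
  refine ⟨S.ts contDiff_ct (d := 3) (by norm_num) (by norm_num) fun _ => ct_zero,
    D_time_ne K contDiff_ct, ⟨t.sm, t.hc, subset_univ _⟩, fun x => ?_, fun x => ?_⟩
  · rw [S.Dθ]; exact le_ζc dθ_off dct_le
  · rw [S.Dθ, S.DDθ]
    exact le_ζc (deriv_off isClosed_Zc dθ_off) (by simpa [iteratedDeriv_succ] using ct_le 2)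

theorem Sb.lbZ (hg : Continuous g) {C : ℝ} (h : ∀ s, |g s| ≤ C) (k : ∀ s ∉ Zc a a' 2 5, g s = 0) :
    LB G.F.μ (fun x => |g (K.τ x)|) (vY D * (80 * C)) :=
  have := int_Zc hg h k
  (int_time K this.1 (S.offZ le_rfl k)).le (mul_le_mul_of_nonneg_left this.2 (vY_nonneg D))

theorem Sb.nz : nz G.F (fun x => ζc a a' (K.τ x)) ≤ vY D * (80 * (8 * cA ^ 4)) := by
  refine le_trans (le_of_eq ?_) (S.lbZ (G := G) (g := fun s => ζc a a' s ^ 2 + deriv (ζc a a') s ^ 2)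
    ((sm_ζc.continuous.pow 2).add
    ((cd_deriv sm_ζc).continuous.pow 2)) (fun _ => ζc_le) fun s hs => by
      simp [ζc_off s hs, deriv_off isClosed_Zc ζc_off s hs]).2
  rw [Dgr80.nz]
  congr 1; funext x
  beta_reduce
  rw [abs_of_nonneg (by positivity), Fintype.sum_option, D_time0 K sm_ζc (S.offZ le_rfl ζc_off)]
  simp [D_time_some K sm_ζc]

end Crest.Agent.X212.Dgr80
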