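import Crest.Agent.X212.Dgr80.An1
import Crest.Agent.X212.St29.SbD

/-!
# Row 212, SB-AN (helper80): the leaves AN-NM and AN-NKL
-/

set_option autoImplicit false
set_option linter.unusedSectionVars false
noncomputable section
open scoped Manifold ContDiff Topology InnerProductSpace Classical
open MeasureTheory Set Function Filter

namespace Crest.Agent.X212.Dgr80.An1
open An M G75 Nd18 Fk18 Nka63

variable {κ lam : Type} [Fintype κ] [Fintype lam] [DecidableEq lam] {Lm : LM κ lam}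
  {y₀ : G75.YD κ lam} {P : Fk18.Pk y₀} {S : Scene Lm} {z : Z0 P S} {Z : Z1 z} {T : ℝ}

theorem z_ok (h : Z.OK T) : Z.J.OK ∧ Z.ce ∈ Z.J.𝒦 :=
  ⟨(h.F.J Z.i (fun e => h.c (by rw [e]; rfl)) z.m z.k).1, Z.τ, none, Z.σ, rfl, nofun, h.c, h.sub⟩

theorem z_nil (x : S.A) (hx : x ≠ z.t.a) : Ink3.Nil (Z.J.xs x).N ∧ (Z.J.xs x).ty = 0 := by
  rw [show Z.J.xs x = _ from Z.F.xs_ne Z.i hx]
  exact ⟨Ink3.nd0_nil, rfl⟩

theorem z_ν (s : S.A ⊕ Unit → ℝ) : |Z.J.ν z.t.a s| ≤ 1 := by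
  rw [show Z.J.ν z.t.a s = swp Z.F.T (s (.inr ())) from if_pos rfl]
  exact (abs_of_nonneg (Real.smoothTransition.nonneg _)).trans_le (Real.smoothTransition.le_one _)

variable (Lm)

/-- **AN-NM** -/
theorem nm : St29.Sb.NmStmt Lm := fun y₀ P hP => by
  obtain ⟨K, hK⟩ := b1_q1 (y₀.N.cy_ok y₀.a).yd hP.N 1
  refine ⟨48 * |K| + 2, by linarith [abs_nonneg K], fun S t R c d D n m k T Z _ _ h he =>
    (nmJ (z_ok h).1 he z_nil z_ν (abs_nonneg K) ?_).mono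
      fun Adm u q y hq H => u q hq _ (z_ok h).2 _ y H⟩
  rw [show Z.J.xs _ = _ from Z.F.xs_a Z.i]
  intro S r n X ν hν
  rw [abs_of_nonneg (hK S r n X ν hν).K0]
  exact hK S r n X ν hν

/-- **AN-NKL** -/
theorem nl : St29.Sb.NlStmt Lm := fun y₀ P hP => by
  obtain ⟨sz, hC⟩ := nk_full (y₀.N.cy_ok y₀.a).yd hP.N
  obtain ⟨C, hC⟩ := hC 1
  refine ⟨2 * |C| + 80 * cA, by linarith [abs_nonneg C, one_le_cA],
    fun S t R c d D n m k T Z _ _ h he => (nlJ (z_ok h).1 he z_nil z_ν (abs_nonneg C) ?_).mono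
      fun Adm u q y hq H => u q hq _ (z_ok h).2 _ y H⟩
  rw [show Z.J.xs _ = _ from Z.F.xs_a Z.i]
  refine ⟨sz, fun S r n q ν X c σ ρ e a b k => le_trans (neg_le_neg ?_) (hC S r n q ν X c σ ρ e a b k)⟩
  exact mul_le_mul_of_nonneg_right (le_abs_self C)
    (by linarith [k.ρ.nonneg fun x => mul_nonneg ct_mem.1 (by positivity)])

end Crest.Agent.X212.Dgr80.An1
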