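import Crest.Agent.X212.Dgr80.E1d

/-!
# Row 212, DGR (helper80): **EN1**, the energy on a neck
-/

set_option autoImplicit false
set_option linter.unusedSectionVars false
noncomputable section
open scoped Manifold ContDiff Topology InnerProductSpace Classical
open MeasureTheory Set Function Filter

namespace Crest.Agent.X212.Dgr80
open An Wz78 Nd18 Cyf70 Nka63
open Mp86 (NK B0)

variable {E3 : Type} [NormedAddCommGroup E3] [NormedSpace ℝ E3] [FiniteDimensional ℝ E3]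
  [MeasurableSpace E3] [BorelSpace E3]
  {H3 : Type} [TopologicalSpace H3] {I3 : ModelWithCorners ℝ E3 H3} [I3.Boundaryless]
  {Y : Type} [TopologicalSpace Y] [ChartedSpace H3 Y] [IsManifold I3 ∞ Y] [T2Space Y]
  [MeasurableSpace Y] [BorelSpace Y] [SecondCountableTopology Y] [CompactSpace Y]
  {κ : Type} [Fintype κ] {lam : Type} [Fintype lam] {D : YD I3 Y κ lam} {S : ℝ} {r n : ℕ}
  {N : ND Y lam} {X : NK D S} {c : Cfg X.M (Option κ) lam r} {σ ρ : Pt X.M (Option κ) lam r n}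
  {q : YW I3 Y →₀ ℝ} {k : ℝ} {x : X.M}

theorem sq_add_le {V : Type} [NormedAddCommGroup V] (u v : V) :
    ‖u + v‖ ^ 2 ≤ 2 * ‖u‖ ^ 2 + 2 * ‖v‖ ^ 2 := by
  nlinarith [pow_le_pow_left₀ (norm_nonneg _) (norm_add_le u v) 2, sq_nonneg (‖u‖ - ‖v‖)]

/-- the work of the perturbation, pointwise -/
theorem wk_pt (hD : D.OK) (hδ : 0 < N.δ) (A : c.Adm X.B X.G) (hk : 1 ≤ k)
    (hq : Sml (fun T => k * sk T) q) (hx : x ∈ O X.K 2)
    (eD : σ.D c x = (N.pt X.K q : Pt _ _ _ r n).D c x + ρ.D c x)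
    (eC : σ.C c x = (N.pt X.K q : Pt _ _ _ r n).C c x + ρ.C c x) :
    wk X.G.F c X.K.τ σ x ≤ -(⟪xA X.G.F c X.K.τ x, (N.dg X.K).gA X.G.F c x⟫_ℝ +
      ⟪xP X.G.F c X.K.τ x, (N.dg X.K).gP X.G.F c x⟫_ℝ) + en X.G.F c X.K.τ x / 4 +
      2 * (‖ρ.D c x‖ ^ 2 + ‖ρ.C c x‖ ^ 2) + 4 * k⁻¹ * eT N X c (X.K.τ x) := by
  have P := pn2 hD X
  have h1 := P.wk_q1 (n := n) A (N.dg X.K) rfl hx
  have h2 := (abs_le.1 (P.wk_le A hx ((qq N X q r n).D c x + ρ.D c x)
    ((qq N X q r n).C c x + ρ.C c x))).2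
  have h3 := (qq_le (n := n) X hδ A hk hq x).2
  rw [← h1]
  simp only [wk, eD, eC, ND.pt, ND.q1, Pt.add, inner_add_left, map_add] at h2 ⊢
  linarith [sq_add_le ((qq N X q r n).D c x) (ρ.D c x), sq_add_le ((qq N X q r n).C c x) (ρ.C c x)]

/-- the estimate with a compactly supported cut-off -/
theorem E1.loc {e a a' K W C : ℝ} (h : E1 N q X c σ ρ e) (hD : D.OK) (hδ : 0 < N.δ) (hk : 1 ≤ k)
    (hq : Sml (fun T => k * sk T) q) (T : Sb X.K.p X.K.q a a')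
    (hK : B0 X.B X.G (N.q1 X.K : Pt _ _ _ r n) K) (hC : LB X.G.F.μ (N.ew X.K c) C)
    (hW : Integrable (fun x => θc a a' (X.K.τ x) * (⟪xA X.G.F c X.K.τ x, (N.dg X.K).gA X.G.F c x⟫_ℝ +
      ⟪xP X.G.F c X.K.τ x, (N.dg X.K).gP X.G.F c x⟫_ℝ)) X.G.F.μ ∧
      |∫ x, θc a a' (X.K.τ x) * (⟪xA X.G.F c X.K.τ x, (N.dg X.K).gA X.G.F c x⟫_ℝ +
        ⟪xP X.G.F c X.K.τ x, (N.dg X.K).gP X.G.F c x⟫_ℝ) ∂X.G.F.μ| ≤ W) :
    3 / 4 * ∫ x, θc a a' (X.K.τ x) * Dgr80.en X.G.F c X.K.τ x ∂X.G.F.μ ≤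
      8 * Real.pi ^ 2 * ∫ x, θc a a' (X.K.τ x) * c.m.kd X.B X.G.F c.W x ∂X.G.F.μ +
      ((4 * K + 4) * (1 + e) * (vY D * (80 * cA)) + cA * e / 2 + W + 2 * e +
        4 * k⁻¹ * (vY D * C)) := by
  have P := pn2 hD X
  have A := h.gd.adm
  have t := T.tf (G := X.G)
  have g0 : ∀ x, 0 ≤ ‖ρ.D c x‖ ^ 2 + ‖ρ.C c x‖ ^ 2 := fun x => by positivity
  have e0 := h.ρ.nonneg fun x => mul_nonneg ct_mem.1 (g0 x)
  have K0 := hK.K0
  have hΦ : ∀ x, ‖c.Φ x‖ ^ 2 ≤ 1 + e := fun x => by nlinarith [h.Φ x, sq_nonneg (‖c.Φ x‖ ^ 2 - 1)]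
  have e1 := en_id P h.sol t.ts t.d0
  have e2 := T.dirac hD A g0 (U := (4 * K + 4) * (1 + e)) (by positivity)
    (fun x => (hΦ x).trans (by nlinarith)) h.ρ fun x hx => by
      have h1 := h.sol.D x
      rw [Cfg.eD, sub_eq_zero, h.eD x hx] at h1
      have h2 := (hK.D c _ A (by linarith) hΦ).le x
      have h3 := pow_le_one₀ (n := 2) (norm_nonneg _) (qq_le (n := n) X hδ A hk hq x).1
      rw [h1]
      refine (sq_add_le _ _).trans ?_
      have h4 : ‖(N.pt X.K q : Pt _ _ _ r n).D c x‖ ^ 2 ≤ _ :=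
        sq_add_le ((N.q1 X.K : Pt _ _ _ r n).D c x) ((qq N X q r n).D c x)
      linarith [sq_nonneg ‖ρ.C c x‖]
  have i1 := (t.ts.mul (P.sm_en A)).int X.G.F
  have l := T.lb_eT hδ A hC
  have k0 : 0 ≤ 4 * k⁻¹ := by positivity
  have e3 := integral_mono ((ts_wk P h.sol t.ts).int X.G.F) (((hW.1.neg.add (i1.div_const 4)).add
    (h.ρ.1.const_mul 2)).add (l.1.const_mul (4 * k⁻¹))) fun x => by
      simp only [Pi.add_apply, Pi.neg_apply]
      by_cases hx : X.K.τ x ∈ Dp (some a) (some a') 3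
      · have o : x ∈ O X.K 2 := by
          have := T.dp hx
          rw [(tm_eq X.K (Dp_mono (by norm_num) this)).2.2] at this
          exact dp_sub_O X.K (by norm_num) this
        have b := mul_le_mul_of_nonneg_left (wk_pt hD hδ A hk hq o (h.eD x (O_sub_dp X.K o))
          (h.eC x (O_sub_dp X.K o))) (ct_mem (p := some a) (q := some a') (d := 3) (s := X.K.τ x)).1
        rw [show X.K.cut 2 (X.K.τ x) = 1 from ct_one (by norm_num; exact T.dp hx)]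
        linarith [mul_le_of_le_one_left (g0 x)
          (ct_mem (p := some a) (q := some a') (d := 3) (s := X.K.τ x)).2]
      · simp only [show θc a a' (X.K.τ x) = 0 from ct_zero hx, zero_mul, mul_zero]
        linarith [mul_nonneg (ct_mem (p := X.K.p) (q := X.K.q) (d := 2) (s := X.K.τ x)).1 (g0 x)]
  simp only [Pi.add_apply, Pi.neg_apply] at e3
  rw [integral_add ((hW.1.fun_neg.fun_add (i1.div_const 4)).fun_add (h.ρ.1.const_mul 2))
    (l.1.const_mul _), integral_add (hW.1.fun_neg.fun_add (i1.div_const 4)) (h.ρ.1.const_mul 2),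
    integral_add hW.1.fun_neg (i1.div_const 4), integral_neg, integral_div, integral_const_mul,
    integral_const_mul] at e3
  linarith [(abs_le.1 hW.2).1, h.ρ.2, mul_le_mul_of_nonneg_left l.2 k0]

/-- **EN1** -/
theorem en1 : En1Stmt I3 Y κ lam := fun N D hD hN => by
  obtain ⟨C, C1, hC⟩ := exists_ew hD hN
  have v := vY_nonneg D
  have k1 : 1 ≤ 16 * (vY D * C) + 1 := le_add_of_nonneg_left (by positivity)
  refine ⟨fun T => (16 * (vY D * C) + 1) * sk T, fun S hS R r n => ?_⟩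
  obtain ⟨k, k0, h1, h2⟩ := ((eventually_ge_atTop (0 : ℝ)).and ((eventually_all.2 (Mp86.db_dg
    (r := r) hD hN hS)).and (eventually_all.2 (tr_dg (r := r) hD hN hS)))).exists
  obtain ⟨m, m1, a, b⟩ := ((eventually_ge_atTop 1).and ((Mp86.gd_fn (S := S) (g := none) hD
    (by simp [OF])).and (Mp86.ev_nat (cb N.δ 1)))).exists
  have hφ := hN.sm.comp (Mp86.cd_cx (N := N))
  obtain ⟨L, L1, hL⟩ := Mp86.ball_bd hφ (|k| * vY D)
  have R1 : 1 ≤ (|R| + 1) * L := one_le_mul_of_one_le_of_one_le (by linarith [abs_nonneg R]) L1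
  set K : ℝ := 64 * m * (2 ^ Fintype.card N.J * ∑ _j : N.J, k * ((m * ((|R| + 1) * L)) ^ 2 * m))
  set W : ℝ := Fintype.card N.J * (cW N.δ k ((|R| + 1) * L) * vY D) + 80 * (2 * cA * ((|R| + 1) * L))
  refine ⟨2 * ((4 * K + 4) * (vY D * (80 * cA)) + cA + W + 2), fun q ν X c σ ρ e hq hν h => ?_⟩
  have sφ : ContDiff ℝ ∞ ((N.smul ν).dg (r := r) X.K).φ := contDiff_const.mul hφ
  have l : ∀ x : N.J → ℝ, ‖x‖ ≤ |k| * vY D → |ν * (N.φ ∘ N.cx) x| ≤ (|R| + 1) * L ∧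
      ‖fderiv ℝ (fun x => ν * (N.φ ∘ N.cx) x) x‖ ≤ (|R| + 1) * L := fun x hx => by
    have n1 : |ν| ≤ |R| + 1 := by linarith [le_abs_self R]
    refine ⟨(abs_mul _ _).trans_le (mul_le_mul n1 (hL x hx).1 (abs_nonneg _) (by positivity)), ?_⟩
    exact (congrArg _ ((hφ.differentiable (by simp) x).hasFDerivAt.const_mul ν).fderiv).trans_le
      ((norm_smul _ _).trans_le (mul_le_mul n1 (hL x hx).2 (norm_nonneg _) (by positivity)))
  have hK : B0 X.B X.G ((N.smul ν).q1 X.K : Pt _ _ _ r n) K :=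
    Mp86.dg_b0 X.hb X.hB m1 (a X) (fun j => h1 j X) k0 (fun _ => hN.δ0) (fun _ => b) R1 fun c h =>
      (co_bd hN.δ0 (N := (N.smul ν).dg X.K) rfl rfl (fun _ => rfl) (fun j => (h1 j X).ct c h) (fun j => (h1 j X).le c h)
        (fun j => Mp86.den_off X j c) sφ l).2.2.2
  have P := pn2 hD X
  have A := h.gd.adm
  obtain ⟨ϖ, hϖ⟩ := h.amb
  have T := fun i : ℕ => sb_getD X.K.p X.K.q (-i) i
  have w := fun i => (T i).work P.dv hN.δ0 (N := (N.smul ν).dg X.K) (P.sm_xA A) (P.sm_xP A) rfl rfl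
    (fun _ => rfl) (fun j => h2 j X c h.gd) k0 (fun j => Mp86.den_off X j c) sφ l
  have key := le_of_tendsto_of_tendsto' ((tend_θ X (P.sm_en A).continuous h.en).const_mul _)
    (((tend_θ X (P.sm_kd A).continuous h.kd).const_mul _).add_const _) fun i =>
      h.loc hD hN.δ0 k1 hq (T i) hK (hC S r X c ϖ _ A hϖ ⟨h.en, le_rfl⟩) (W := W) (w i)
  have e0 := h.ρ.nonneg fun x => mul_nonneg ct_mem.1 (by positivity)
  have W0 : 0 ≤ W := (abs_nonneg _).trans (w 0).2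
  have E0 : 0 ≤ ∫ x, X.K.cut 3 (X.K.τ x) * en X.G.F c X.K.τ x ∂X.G.F.μ :=
    integral_nonneg fun x => mul_nonneg ct_mem.1 (en_nonneg _ _ _ _)
  have b1 : (16 * (vY D * C) + 1)⁻¹ * (vY D * C) ≤ 1 / 16 := by
    rw [inv_mul_le_iff₀ (by linarith)]; linarith
  nlinarith [mul_le_mul_of_nonneg_right b1 E0, mul_nonneg W0 e0, one_le_cA,
    mul_nonneg (zero_le_one.trans one_le_cA) e0]

end Crest.Agent.X212.Dgr80
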