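import Crest.Agent.X212.Dgr80.Uk1
import Crest.Agent.X212.Dgr80.En1
import Crest.Agent.X212.Dec35.Cyl

/-!
# Row 212, LOC-K (helper80): the constants of the neck densities do not depend on the ambient manifold
-/

set_option autoImplicit false
set_option linter.unusedSectionVars false
open Set Filter Topology Module MeasureTheory
open scoped Manifold ContDiff InnerProductSpace Classical

noncomputable section

namespace Crest.Agent.X212.Dgr80.Uk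
open An Wz78 Wrd81 Nd18 Nka63 Cyf70
open Mp86 hiding fn_χ fn_ext la_sz ll_sz nk_geo gd_fn sc_ext lt_sz sw_sz sep_sz sb_cyc db_cut db_pk
  db_dg sb_cy Gd
open Cyc79 (Cy Cu SepN)

variable {E3 : Type} [NormedAddCommGroup E3] [NormedSpace ℝ E3] [FiniteDimensional ℝ E3]
  [MeasurableSpace E3] [BorelSpace E3]
  {H3 : Type} [TopologicalSpace H3] {I3 : ModelWithCorners ℝ E3 H3} [I3.Boundaryless]
  {Y : Type} [TopologicalSpace Y] [ChartedSpace H3 Y] [IsManifold I3 ∞ Y] [T2Space Y]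
  [MeasurableSpace Y] [BorelSpace Y] [SecondCountableTopology Y] [CompactSpace Y]
  {κ : Type} [Fintype κ] {lam : Type} [Fintype lam]

/-- all necks (with a number of parameters) -/
abbrev NS (D : YD I3 Y κ lam) : Type 1 := Σ p : ℝ × ℕ, NK D p.1

variable {D : YD I3 Y κ lam}

theorem fn_χ : ∀ᶠ n : ℕ in atTop, ∀ X : NS D, Fn X.2.G.F n X.2.K.χ :=
  let ⟨_, h⟩ := cbs_χ D
  (ev_nat _).mono fun _ hn X => (fn_cbs (h X.2.K)).mono hn

theorem fn_ext {f : Y → ℝ} (hf : Sm I3 f) :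
    ∀ᶠ n : ℕ in atTop, ∀ X : NS D, Fn X.2.G.F n (X.2.K.ext f) :=
  let ⟨_, h⟩ := cbs_ext D hf
  (ev_nat _).mono fun _ hn X => (fn_cbs (h X.2.K)).mono hn

theorem la_sz {t : La Y} (ht : laOK I3 t) :
    ∀ᶠ n : ℕ in atTop, ∀ X : NS D, LaSz n (X.2.K.la t) ∧ LaC (X.2.K.la t) := by
  cases t with
  | mul f => exact ((ev_nat 1).and (fn_ext ht)).mono fun n h X =>
      ⟨(h.2 X).abs_le h.1, (h.2 X).sm.continuous⟩
  | G => exact .of_forall fun _ _ => ⟨trivial, trivial⟩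

theorem ll_sz {w : List (La Y)} (h : ∀ t ∈ w, laOK I3 t) : ∀ᶠ n : ℕ in atTop, ∀ X : NS D,
    LLSz n (w.map X.2.K.la) ∧ ∀ t ∈ w.map X.2.K.la, LaC t :=
  (ev_list fun t ht => la_sz (D := D) (h t ht)).mono fun _ k X =>
    ⟨⟨by simpa using k.1, List.forall_mem_map.2 fun t ht => (k.2 t ht X).1⟩,
      List.forall_mem_map.2 fun t ht => (k.2 t ht X).2⟩

variable (hD : D.OK)
include hD

/-- the geometry of the neck is bounded -/
theorem nk_geo : ∃ L, 0 ≤ L ∧ ∀ X : NS D, ∀ x ∈ X.2.K.ψ.target,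
    (∀ a b k, |X.2.G.F.Gam a b k x| ≤ L) ∧ (∀ a, |X.2.G.F.dv a x| ≤ L) ∧ ∀ a, ‖X.2.G.a a x‖ ≤ L := by
  have f : ∀ {N : Type} [NormedAddCommGroup N] [NormedSpace ℝ N] {f : Y → N}, Sm I3 f →
      D.Z.Cb fun x => f x.1 := fun h => Cht98.Cb_fst _ (Sob92.Cb_of_compact h)
  have p : ∀ a b, D.Z.Cb (D.Z.P a b) := fun a b => by
    cases a <;> cases b
    exacts [Sob92.Cb_const _, Sob92.Cb_const _, Sob92.Cb_const _, f (D.F.P_sm _ _)]
  have c : ∀ a b l, D.Z.Cb (D.Z.c a b l) := fun a b l => by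
    cases a <;> cases b <;> cases l <;> first | exact Sob92.Cb_const _ | exact f (D.F.c_sm _ _ _)
  have d : ∀ a, D.Z.Cb (D.Z.dv a) := fun a => by
    cases a
    exacts [Sob92.Cb_const _, f (D.F.dv_sm _)]
  have e : ∀ a, D.Z.Cb (D.G.a a) := fun a => by
    cases a
    exacts [Sob92.Cb_const _, f (sm_a hD _)]
  obtain ⟨L, h0, h1, h2, h3, h4⟩ := ((eventually_ge_atTop (0 : ℝ)).and
    ((eventually_all.2 fun a => eventually_all.2 fun b => eventually_all.2 fun l =>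
      ev_cb (Sob92.Cb_D (p b l) a)).and ((eventually_all.2 fun a => eventually_all.2 fun b =>
        eventually_all.2 fun l => ev_cb (c a b l)).and ((eventually_all.2 fun a => ev_cb (d a)).and
          (eventually_all.2 fun a => ev_cb (e a)))))).exists
  refine ⟨3 * L, by linarith, fun X x hx => ⟨fun a b k => ?_, fun a => ?_, fun a => ?_⟩⟩
  · rw [X.2.K.rel'.Gam hx, Fr.Gam, abs_le]
    simp only [Real.norm_eq_abs, abs_le] at h1 h2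
    constructor <;> linarith [h1 a b k (X.2.K.ψ.symm x), h1 b a k (X.2.K.ψ.symm x),
      h1 k a b (X.2.K.ψ.symm x), h2 a b k (X.2.K.ψ.symm x), h2 a k b (X.2.K.ψ.symm x),
      h2 b k a (X.2.K.ψ.symm x), (h1 a b k (X.2.K.ψ.symm x)).1]
  · rw [X.2.K.rel'.dv hx X.2.hG.vol hD.G.vol]; exact (h3 a _).trans (by linarith)
  · rw [← X.2.K.ψ.right_inv hx, X.2.K.a a _ (X.2.K.ψ.map_target hx)]; exact (h4 a _).trans (by linarith)

theorem gd_fn {g : Option (Y → ℝ)} (hg : OF I3 g) :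
    ∀ᶠ n : ℕ in atTop, ∀ X : NS D, Mp86.Gd X.2.G.F n (X.2.K.fn g) := by
  obtain ⟨L, h0, hL⟩ := nk_geo hD
  obtain ⟨C, hC⟩ := cbs_D_fn D hg
  refine (ev_nat _).mono fun n hn X => (gd_cbs (X.2.K.cd_fn hg).1 (hC X.2.K) h0 fun x a b k =>
    (em _).symm.imp (fun hx => ?_) fun hx => (hL X x hx).1 a b k).mono hn
  cases g with
  | some g => exact X.2.D_off (fun y hy => X.2.K.ext_zero g fun e => hy (dp_mono _ (by norm_num) e)) hx b
  | none =>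
    cases b with
    | none => exact (congrFun X.2.K.D_τ_none x).trans (dtf_zero X.2.K.len fun e =>
        hx (X.2.K.dp_sub one_half_pos e))
    | some b => exact congrFun (X.2.K.D_τ_some b) x

theorem sc_ext {s : Y → Eu lam} (hs : Sm I3 s) :
    ∀ᶠ n : ℕ in atTop, ∀ X : NS D, Sc X.2.G n (X.2.K.ext s) := by
  obtain ⟨L, h0, hL⟩ := nk_geo hD
  obtain ⟨C, hC⟩ := cbs_ext D hs
  exact (ev_nat _).mono fun n hn X => (sc_cbs (hC X.2.K) h0 fun x a => (em _).symm.imp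
    (fun hx => X.2.K.ext_zero s fun e => hx (X.2.K.dp_sub one_pos e))
    fun hx => (hL X x hx).2.2 a).mono hn

theorem lt_sz {t : YL Y} (ht : t.OK I3) :
    ∀ᶠ n : ℕ in atTop, ∀ X : NS D, LtSz X.2.G.F n (X.2.K.lt t) := by
  cases t with
  | mul f => exact fn_ext ht
  | cl g => exact gd_fn hD ht
  | im => exact .of_forall fun _ _ => trivial
  | G => exact .of_forall fun _ _ => trivial

theorem sw_sz {u : List (YL Y)} (h : ∀ t ∈ u, YL.OK I3 t) :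
    ∀ᶠ n : ℕ in atTop, ∀ X : NS D, SWSz X.2.G.F n (u.map X.2.K.lt) :=
  (ev_list fun t ht => lt_sz hD (h t ht)).mono fun _ k X =>
    ⟨by simpa using k.1, List.forall_mem_map.2 fun t ht => k.2 t ht X⟩

theorem sep_sz {f f' : Y → ℝ} (h : Cyc79.Sep D.F.toPre f f') : ∀ᶠ n : ℕ in atTop, ∀ X : NS D,
    SepN X.2.G.F n (X.2.K.ext f) (X.2.K.ext f') ∧ ∃ φ, Cu X.2.G.F n φ ∧
      (∀ x, X.2.K.ext f x ≠ 0 → 1 ≤ φ x) ∧ (∀ x, X.2.K.ext f' x ≠ 0 → φ x ≤ 0) ∧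
      ∀ x ∉ X.2.K.dp (1 / 2), φ x ≤ 0 := by
  obtain ⟨⟨_, a, -⟩, ⟨_, b, -⟩, φ, ⟨_, h1, -⟩, h2, h3⟩ := h
  obtain ⟨L, h0, hL⟩ := nk_geo hD
  obtain ⟨C, hC⟩ := cbs_ex2 D h1
  filter_upwards [ev_nat 1, fn_ext (D := D) a, fn_ext (D := D) b, ev_nat _] with n n1 a b hn X
  have z : ∀ y ∉ X.2.K.dp (1 / 2), ex2 X.2.K φ y = 0 := fun y hy => by
    by_cases e : y ∈ X.2.K.ψ.target
    · rw [ex2, push_of_mem _ _ e, X.2.K.snd_symm e, dtf_zero X.2.K.len hy, zero_smul]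
    · exact push_of_notMem _ _ e
  have c := (cu_cbs (hC X.2.K) h0 fun x a => (em _).symm.imp (fun hx => X.2.D_off z hx a)
    fun hx => (hL X x hx).2.1 a).mono hn
  have e1 : ∀ x, X.2.K.ext f x ≠ 0 → 1 ≤ ex2 X.2.K φ x := fun x hx => by
    rw [ex2_eq _ φ (mem_O_of_χ _ (left_ne_zero_of_smul hx))]
    exact h2 _ (right_ne_zero_of_smul hx)
  have e2 : ∀ x, X.2.K.ext f' x ≠ 0 → ex2 X.2.K φ x ≤ 0 := fun x hx => by
    rw [ex2_eq _ φ (mem_O_of_χ _ (left_ne_zero_of_smul hx))]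
    exact h3 _ (right_ne_zero_of_smul hx)
  exact ⟨⟨n1, (a X).sm.continuous, (b X).sm.continuous, (a X).abs_le n1, (b X).abs_le n1, _, c, e1,
    e2⟩, _, c, e1, e2, fun x hx => (z x hx).le⟩

/-- the Sobolev inequality on necks -/
theorem l4_nk : ∃ S > 0, ∀ X : NS D, Cht98.L4On X.2.G.F.toPre (X.2.K.dp (1 / 2)) S :=
  let ⟨C, h⟩ := Dec35.tame_Z hD
  ⟨max 1 (C 0), lt_max_of_lt_left one_pos, fun X => Cht98.L4On.iso (K' := univ)
    (Sob92.iso_symm X.2.K.iso) (X.2.K.dp_sub one_half_pos) (mapsTo_univ _ _) fun f a b _ =>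
      ((l4_of_tame h).mono (le_max_right _ _)) f a b⟩

theorem bs_nk {f f' : Y → ℝ} (h : Cyc79.Sep D.F.toPre f f') : ∀ᶠ n : ℕ in atTop, ∀ (X : NS D)
    (c : Cfg X.2.M (Option κ) lam X.1.2), c.Adm X.2.B X.2.G → ∀ z,
      ‖Cyc79.bf X.2.G.F c (X.2.K.ext f) (X.2.K.ext f') z‖ ≤ Cyc79.kB 0 n := by
  obtain ⟨S, S0, hS⟩ := l4_nk hD
  obtain ⟨m, hm⟩ := (sep_sz hD h).exists
  refine (ev_nat (kU S m)).mono fun n hn X c a z => ?_
  obtain ⟨s, φ, p1, p2, p3, p4⟩ := hm X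
  exact (bs_loc (Cyc79.pq_conn X.2.hB X.2.hT a.ok a.conn) X.2.K.isClosed_dp (hS X) S0 s.one s.b s.c'
    s.b' p1 p2 p3 p4 z).trans (hn.trans (Cyc79.le_kB n.cast_nonneg).2)

/-- the size of a seed -/
theorem cy_nk {d : Cy Y} (hd : d.OK D.F) : ∀ᶠ n : ℕ in atTop, ∀ X : NS D,
    (X.2.K.cyc d).Sz X.2.G.F n ∧ ((∀ t ∈ (X.2.K.cyc d).w, LaC t) ∧ ∀ t ∈ (X.2.K.cyc d).w', LaC t) ∧
    ∀ c : Cfg X.2.M (Option κ) lam X.1.2, c.Adm X.2.B X.2.G →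
      BB X.2.G.F c (X.2.K.cyc d) (Cyc79.kB 0 n) := by
  filter_upwards [sep_sz hD hd.sep, ll_sz (D := D) fun t ht => laOK_of (hd.w t ht),
    ll_sz (D := D) fun t ht => laOK_of (hd.w' t ht), bs_nk hD hd.sep.symm, bs_nk hD hd.sep]
    with n a b c l r X
  exact ⟨⟨(a X).1, (b X).1, (c X).1⟩, ⟨(b X).2, (c X).2⟩, fun x k => ⟨l X x k, r X x k⟩⟩

theorem sb_cyc {d : Cy Y} (hd : d.OK D.F) {w : List (La Y)} (hw : ∀ t ∈ w, laOK I3 t) :
    ∃ k, ∀ X : NS D, SB (r := X.1.2) X.2.B X.2.G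
      (((X.2.K.cyc d).sed X.2.G.F).wd X.2.G.F (w.map X.2.K.la)) k := by
  obtain ⟨n, n1, a, e⟩ := ((eventually_ge_atTop 1).and ((cy_nk hD hd).and (ll_sz (D := D) hw))).exists
  exact ⟨_, fun X => (sb_cy X.2.hB X.2.hT (a X).1 (a X).2.2 (a X).2.1.1 (a X).2.1.2).wd X.2.hb n1
    (e X).1 (e X).2⟩

omit hD in
theorem db_cut {d : ∀ X : NS D, Den X.2.M (Option κ) lam X.1.2} (h : ∃ k, ∀ X, DB X.2.B X.2.G (d X) k) :
    ∀ᶠ k in atTop, ∀ X : NS D, DB X.2.B X.2.G (dcut X.2.K.χ (d X)) k := by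
  obtain ⟨k, h⟩ := h
  obtain ⟨n, n1, a⟩ := ((ev_nat 1).and (fn_χ (D := D))).exists
  exact (eventually_ge_atTop _).mono fun _ hk X => ((h X).cut (a X) n1 fun x =>
    (abs_of_nonneg (χ_mem X.2.K x).1).trans_le (χ_mem X.2.K x).2).mono hk

theorem db_pk {T : ∀ X : NS D, Pk X.2.M lam} (hT : ∀ᶠ n : ℕ in atTop, ∀ X, PkSz X.2.G n (T X))
    {u v : List (YL Y)} (hu : ∀ t ∈ u, YL.OK I3 t) (hv : ∀ t ∈ v, YL.OK I3 t) :
    ∀ᶠ k in atTop, ∀ X : NS D, DB (r := X.1.2) X.2.B X.2.G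
      (dcut X.2.K.χ (Den.sw X.2.G.F (T X) (u.map X.2.K.lt) (v.map X.2.K.lt))) k := by
  obtain ⟨n, n1, a, b, c⟩ := ((eventually_ge_atTop 1).and (hT.and ((sw_sz hD hu).and
    (sw_sz hD hv)))).exists
  exact db_cut ⟨_, fun X => db_sw X.2.hb X.2.hB n1 (a X) (b X) (c X)⟩

theorem db_den {d : YDen Y} (hd : d.OK D.F) : ∀ᶠ k in atTop, ∀ X : NS D,
    DB (r := X.1.2) X.2.B X.2.G (X.2.K.den d) k := by
  cases d with
  | sw a b => exact db_pk hD (T := fun _ => .one) (.of_forall fun _ _ => trivial) hd.1 hd.2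
  | cy d w d' w' =>
    obtain ⟨k, a⟩ := sb_cyc hD hd.1 hd.2.1
    obtain ⟨k', b⟩ := sb_cyc hD hd.2.2.1 hd.2.2.2
    exact db_cut ⟨_, fun X => ((a X).mono (le_max_left k k')).den ((b X).mono (le_max_right k k'))⟩

omit hD in
theorem tr_cut {d : ∀ X : NS D, Den X.2.M (Option κ) lam X.1.2} (h : ∃ k, ∀ X, TrX X.1.2 X.2 (d X) k) :
    ∀ᶠ k in atTop, ∀ X : NS D, TrX X.1.2 X.2 (dcut X.2.K.χ (d X)) k :=
  let ⟨_, h⟩ := h
  (eventually_ge_atTop _).mono fun _ hk X c hc => ((h X c hc).cut (isOpen_O X.2.K) X.2.K.cb_χ (fun x =>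
    (abs_of_nonneg (χ_mem X.2.K x).1).trans_le (χ_mem X.2.K x).2) fun _ => χ_one X.2.K).mono hk

theorem tr_pk {T : ∀ X : NS D, Pk X.2.M lam} (hT : ∀ᶠ n : ℕ in atTop, ∀ X, PkSz X.2.G n (T X))
    (oT : ∀ X, (T X).OK X.2.G.F) (pT : ∀ X, (T X).Pr none (O X.2.K 2) X.2.G) {u v : List (YL Y)}
    (hu : ∀ t ∈ u, YL.OK I3 t) (hv : ∀ t ∈ v, YL.OK I3 t) : ∀ᶠ k in atTop, ∀ X : NS D,
      TrX X.1.2 X.2 (dcut X.2.K.χ (Den.sw X.2.G.F (T X) (u.map X.2.K.lt) (v.map X.2.K.lt))) k := by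
  obtain ⟨n, n1, a, b, c⟩ := ((eventually_ge_atTop 1).and (hT.and ((sw_sz hD hu).and
    (sw_sz hD hv)))).exists
  exact tr_cut ⟨_, fun X _ h => h.tr_sw (pn2 hD X.2) n1 (oT X) (X.2.K.ok_sw hu) (X.2.K.ok_sw hv) (a X)
    (b X) (c X) (pT X) (pr_lt hD X.2 hu) (pr_lt hD X.2 hv)⟩

theorem tr_cyc {d : Cy Y} (hd : d.OK D.F) {w : List (La Y)}
    (hw : ∀ t ∈ w, laOK I3 t) : ∀ᶠ k in atTop, ∀ (X : NS D) (c : Cfg X.2.M (Option κ) lam X.1.2),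
      Gd X.2.B X.2.G c → RS.Tr X.2.G.F (c.m.adW c.W) (QP X.2.G.F c.m.pg) none (O X.2.K 2)
        (xA X.2.G.F c X.2.K.τ) (xP X.2.G.F c X.2.K.τ) k
        ((((X.2.K.cyc d).sed X.2.G.F).wd X.2.G.F (w.map X.2.K.la)).rs c) := by
  have o := fun t ht => laOK_of (hd.w t ht)
  have o' := fun t ht => laOK_of (hd.w' t ht)
  obtain ⟨n, a, e⟩ := ((cy_nk hD hd).and (ll_sz (D := D) hw)).exists
  obtain ⟨k, k1, k2, k3⟩ := ((eventually_ge_atTop (Cyc79.kT (Cyc79.kB 0 n) (n + 3))).and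
    ((eventually_ge_atTop (n : ℝ)).and (eventually_ge_atTop (1 : ℝ)))).exists
  exact (eventually_ge_atTop _).mono fun _ hk X c h => (tr_cy h (pn2 hD X.2) ((a X).2.2 c h.adm)
    (ok_cyc X.2.K hd) (a X).1 ⟨fun _ => D_ext_none_zero X.2.K hd.sep.1.choose_spec.1,
      fun _ => D_ext_none_zero X.2.K hd.sep.2.1.choose_spec.1, pr_la X.2 o, pr_la X.2 o'⟩ k1 k2 k3
    (X.2.K.ok_las hw) (e X).1 (pr_la X.2 hw)).mono hk

theorem tr_den {d : YDen Y} (hd : d.OK D.F) : ∀ᶠ k in atTop, ∀ X : NS D,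
    TrX X.1.2 X.2 (X.2.K.den d) k := by
  cases d with
  | sw a b =>
    exact tr_pk hD (T := fun _ => .one) (.of_forall fun _ _ => trivial) (fun _ => trivial)
      (fun _ => trivial) hd.1 hd.2
  | cy d w d' w' =>
    obtain ⟨k, k1, a, b⟩ := ((eventually_ge_atTop (1 : ℝ)).and ((tr_cyc hD hd.1
      hd.2.1).and (tr_cyc hD hd.2.2.1 hd.2.2.2))).exists
    exact tr_cut ⟨_, fun X c h => h.tr_sed (pn2 hD X.2) k1 (a X c h) (b X c h)⟩

omit hD in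
variable (D) in
/-- `k` bounds the density `d` on all necks -/
def _root_.Crest.Agent.X212.Dgr80.UK (d : YDen Y) (k : ℝ) : Prop := ∀ (S : ℝ) (r : ℕ) (X : NK D S),
  DB (r := r) X.B X.G (X.K.den d) k ∧ TrX r X (X.K.den d) k

/-- **LOC-K** -/
theorem _root_.Crest.Agent.X212.Dgr80.uk {d : YDen Y} (hd : d.OK D.F) : ∀ᶠ k in atTop, UK D d k :=
  ((db_den hD hd).and (tr_den hD hd)).mono fun _ h S r X => ⟨h.1 ⟨(S, r), X⟩, h.2 ⟨(S, r), X⟩⟩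

variable {N : ND Y lam} (hN : N.OK D)
include hN

theorem dg_nk (j : N.J) : ∀ᶠ k in atTop, ∀ X : NS D,
    DB (r := X.1.2) X.2.B X.2.G ((N.dg X.2.K).d j) k ∧ TrX X.1.2 X.2 ((N.dg X.2.K).d j) k := by
  simp only [forall_and]
  rcases j with j | j | j
  · exact (db_den hD (hN.d0 j)).and (tr_den hD (hN.d0 j))
  · exact (db_pk hD (T := fun X => .re (X.2.K.ext (N.d2 j).s)) (sc_ext hD (hN.d2 j).1)
      (hN.d2 j).2.1 (hN.d2 j).2.2).and (tr_pk hD (T := fun X => .re (X.2.K.ext (N.d2 j).s))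
      (sc_ext hD (hN.d2 j).1) (fun X => X.2.K.cb_ext (hN.d2 j).1) (fun X => pr_ext X.2 (hN.d2 j).1)
      (hN.d2 j).2.1 (hN.d2 j).2.2)
  · exact (db_pk hD (T := fun X => .im (X.2.K.ext (N.d2 j).s)) (sc_ext hD (hN.d2 j).1)
      (hN.d2 j).2.1 (hN.d2 j).2.2).and (tr_pk hD (T := fun X => .im (X.2.K.ext (N.d2 j).s))
      (sc_ext hD (hN.d2 j).1) (fun X => X.2.K.cb_ext (hN.d2 j).1) (fun X => pr_ext X.2 (hN.d2 j).1)
      (hN.d2 j).2.1 (hN.d2 j).2.2)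

/-- **EN1** with a constant that only depends on the cross-section -/
theorem _root_.Crest.Agent.X212.Dgr80.en1U : ∃ sz : YW I3 Y → ℝ, ∀ R : ℝ, ∃ C, ∀ (S : ℝ) (r n : ℕ)
    (q : YW I3 Y →₀ ℝ) (ν : ℝ) (X : NK D S) (c : Cfg X.M (Option κ) lam r)
    (σ ρ : Pt X.M (Option κ) lam r n) (e : ℝ), Nd18.Sml sz q → |ν| ≤ R → E1 (N.smul ν) q X c σ ρ e →
      ∫ x, X.K.cut 3 (X.K.τ x) * en X.G.F c X.K.τ x ∂X.G.F.μ ≤
        16 * Real.pi ^ 2 * ∫ x, X.K.cut 3 (X.K.τ x) * c.m.kd X.B X.G.F c.W x ∂X.G.F.μ +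
          C * (1 + e) := by
  obtain ⟨C, C1, hC⟩ := exists_ew hD hN
  have v := vY_nonneg D
  have k1 : 1 ≤ 16 * (vY D * C) + 1 := le_add_of_nonneg_left (by positivity)
  refine ⟨fun T => (16 * (vY D * C) + 1) * sk T, fun R => ?_⟩
  obtain ⟨k, k0, h⟩ := ((eventually_ge_atTop (0 : ℝ)).and (eventually_all.2 (dg_nk hD hN))).exists
  obtain ⟨m, m1, a, b⟩ := ((eventually_ge_atTop 1).and ((gd_fn (g := none) hD
    (by simp [OF])).and (Mp86.ev_nat (cb N.δ 1)))).exists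
  have hφ := hN.sm.comp (Mp86.cd_cx (N := N))
  obtain ⟨L, L1, hL⟩ := Mp86.ball_bd hφ (|k| * vY D)
  have R1 : 1 ≤ (|R| + 1) * L := one_le_mul_of_one_le_of_one_le (by linarith [abs_nonneg R]) L1
  set K : ℝ := 64 * m * (2 ^ Fintype.card N.J * ∑ _j : N.J, k * ((m * ((|R| + 1) * L)) ^ 2 * m))
  set W : ℝ := Fintype.card N.J * (cW N.δ k ((|R| + 1) * L) * vY D) + 80 * (2 * cA * ((|R| + 1) * L))
  refine ⟨2 * ((4 * K + 4) * (vY D * (80 * cA)) + cA + W + 2), fun S r n q ν X c σ ρ e hq hν => ?_⟩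
  have h1 := fun j X => (h j ⟨(S, r), X⟩).1
  have h2 := fun j X => (h j ⟨(S, r), X⟩).2
  replace a := fun X => a ⟨(S, r), X⟩
  clear h
  intro h
  have sφ : ContDiff ℝ ∞ ((N.smul ν).dg (r := r) X.K).φ := contDiff_const.mul hφ
  have l : ∀ x : N.J → ℝ, ‖x‖ ≤ |k| * vY D → |ν * (N.φ ∘ N.cx) x| ≤ (|R| + 1) * L ∧
      ‖fderiv ℝ (fun x => ν * (N.φ ∘ N.cx) x) x‖ ≤ (|R| + 1) * L := fun x hx => by
    have n1 : |ν| ≤ |R| + 1 := by linarith [le_abs_self R]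
    refine ⟨(abs_mul _ _).trans_le (mul_le_mul n1 (hL x hx).1 (abs_nonneg _) (by positivity)), ?_⟩
    exact (congrArg _ ((hφ.differentiable (by simp) x).hasFDerivAt.const_mul ν).fderiv).trans_le
      ((norm_smul _ _).trans_le (mul_le_mul n1 (hL x hx).2 (norm_nonneg _) (by positivity)))
  have hK : B0 X.B X.G ((N.smul ν).q1 X.K : Pt _ _ _ r n) K :=
    Mp86.dg_b0 X.hb X.hB m1 (a X) (fun j => h1 j X) k0 (fun _ => hN.δ0) (fun _ => b) R1 fun c h =>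
      (co_bd hN.δ0 (N := (N.smul ν).dg X.K) rfl rfl (fun _ => rfl) (fun j => (h1 j X).ct c h) (fun j => (h1 j X).le c h)
        (fun j => Mp86.den_off X j c) sφ l).2.2.2
  have P := pn2 hD X
  have A := h.gd.adm
  obtain ⟨ϖ, hϖ⟩ := h.amb
  have T := fun i : ℕ => sb_getD X.K.p X.K.q (-i) i
  have w := fun i => (T i).work P.dv hN.δ0 (N := (N.smul ν).dg X.K) (P.sm_xA A) (P.sm_xP A) rfl rfl
    (fun _ => rfl) (fun j => h2 j X c h.gd) k0 (fun j => Mp86.den_off X j c) sφ l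
  have key := le_of_tendsto_of_tendsto' ((tend_θ X (P.sm_en A).continuous h.en).const_mul _)
    (((tend_θ X (P.sm_kd A).continuous h.kd).const_mul _).add_const _) fun i =>
      h.loc hD hN.δ0 k1 hq (T i) hK (hC S r X c ϖ _ A hϖ ⟨h.en, le_rfl⟩) (W := W) (w i)
  have e0 := h.ρ.nonneg fun x => mul_nonneg ct_mem.1 (by positivity)
  have W0 : 0 ≤ W := (abs_nonneg _).trans (w 0).2
  have E0 : 0 ≤ ∫ x, X.K.cut 3 (X.K.τ x) * en X.G.F c X.K.τ x ∂X.G.F.μ :=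
    integral_nonneg fun x => mul_nonneg ct_mem.1 (en_nonneg _ _ _ _)
  have b1 : (16 * (vY D * C) + 1)⁻¹ * (vY D * C) ≤ 1 / 16 := by
    rw [inv_mul_le_iff₀ (by linarith)]; linarith
  nlinarith [mul_le_mul_of_nonneg_right b1 E0, mul_nonneg W0 e0, one_le_cA,
    mul_nonneg (zero_le_one.trans one_le_cA) e0]

end Crest.Agent.X212.Dgr80.Uk
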