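import Crest.Agent.X212.Neck67.Lb
import Crest.Agent.X212.Eqv71.Gau
import Crest.Agent.X212.Nd18.Api
import Crest.Agent.X212.Abel74.Iso
import Crest.Agent.X212.Cht98.Cov

/-!
# Row 212, LIMA (helper80): a parallel section seen in a gauge that converges
-/

set_option autoImplicit false
set_option linter.unusedSectionVars false
noncomputable section
open scoped Manifold ContDiff Topology InnerProductSpace
open Set Function Filter

namespace Crest.Agent.X212.Dgr80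
open An Wz78 Nd18 Cyf70 Eqv71
open Neck67 (Lb)
open Abel74 (RedOn)

section alg
variable {κ κ' : Type} [Fintype κ] [Fintype κ']

theorem norm_le_of_trn {T P : En κ} (h : trn T ∘L T = P) (hP : trn P ∘L P = P) : ‖T‖ ≤ 1 := by
  have h1 := (congrArg norm h).symm.trans (ContinuousLinearMap.norm_adjoint_comp_self T)
  have h2 := (congrArg norm hP).symm.trans (ContinuousLinearMap.norm_adjoint_comp_self P)
  have h3 : ‖P‖ ≤ 1 := by nlinarith [norm_nonneg P]
  nlinarith [norm_nonneg T]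

variable {u Du : CL (Eu κ) (Eu κ')} {W ξ p : En κ} {W' : En κ'} (h1 : trn u ∘L u = p)
  (h2 : p * ξ = ξ) (h3 : ξ * p = ξ)
include h1 h2 h3

theorem eta_D (sk : Skw W) (sk' : Skw W') :
    Du ∘L ξ ∘L trn u + u ∘L (-(W * ξ - ξ * W) ∘L trn u + ξ ∘L trn Du) =
      ((Du + W' ∘L u - u ∘L W) ∘L trn u - W') ∘L (u ∘L ξ ∘L trn u) +
        (u ∘L ξ ∘L trn u) ∘L (trnL ((Du + W' ∘L u - u ∘L W) ∘L trn u) + W') := by
  have e1 : ∀ a, trn u (u a) = p a := fun a => congrArg (fun T : En κ => T a) h1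
  have e2 : ∀ a, p (ξ a) = ξ a := fun a => congrArg (fun T : En κ => T a) h2
  have e3 : ∀ a, ξ (p a) = ξ a := fun a => congrArg (fun T : En κ => T a) h3
  have e4 : trnL ((Du + W' ∘L u - u ∘L W) ∘L trn u) =
      u ∘L (trn Du + trn u ∘L (-W') - (-W) ∘L trn u) := by
    rw [← trn_of_skw sk, ← trn_of_skw sk', ← trn_comp, ← trn_comp]
    exact (trn_comp _ _).trans (congrArg₂ _ (trn_trn u) ((map_sub trnL _ _).trans
      (congrArg (· - _) (map_add trnL _ _))))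
  rw [e4]
  ext1 v
  simp only [add_apply, sub_apply, neg_apply, ContinuousLinearMap.comp_apply, mul_apply_eq_comp,
    map_add, map_sub, map_neg, e1, e2, e3]
  abel

theorem eta_le (sk : Skw ξ) (sq : ξ * ξ = -p) (pp : p * p = p) : ‖u ∘L ξ ∘L trn u‖ ≤ 1 := by
  have e1 : ∀ a, trn u (u a) = p a := fun a => congrArg (fun T : En κ => T a) h1
  have e2 : ∀ a, p (ξ a) = ξ a := fun a => congrArg (fun T : En κ => T a) h2
  have e3 : ∀ a, ξ (ξ a) = -p a := fun a => congrArg (fun T : En κ => T a) sq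
  have e4 : ∀ a, p (p a) = p a := fun a => congrArg (fun T : En κ => T a) pp
  have e5 : trn p = p := by rw [← h1, trn_comp, trn_trn]
  refine norm_le_of_trn (P := u ∘L p ∘L trn u) ?_ ?_ <;> ext1 v <;>
    simp only [trn_comp, trn_trn, trn_of_skw sk, e5, ContinuousLinearMap.comp_apply,
      neg_apply, e1, e2, e3, e4, neg_neg]

end alg

section ode
variable {E : Type} [NormedAddCommGroup E] [NormedSpace ℝ E] [FiniteDimensional ℝ E]
  [MeasurableSpace E] [BorelSpace E]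
  {HM : Type} [TopologicalSpace HM] {I : ModelWithCorners ℝ E HM}
  {M : Type} [TopologicalSpace M] [ChartedSpace HM M] [IsManifold I ∞ M]
  [MeasurableSpace M] {ι : Type} [Fintype ι] {V : Type} [NormedAddCommGroup V] [NormedSpace ℝ V]

/-- solutions of linear systems with bounded coefficients -/
theorem lb_ode (F : Pre I M ι) (A A' : ℝ) (k : ℕ) : ∃ C, ∀ S, IsOpen S →
    ∀ (L R : ι → M → CL V V) (η : M → CL V V), (∀ a, Lb F S k (L a) A) → (∀ a, Lb F S k (R a) A') →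
      Lb F S 0 η 1 → (∀ a, ∀ x ∈ S, F.D a η x = L a x ∘L η x + η x ∘L R a x) → Lb F S k η C := by
  induction k with
  | zero => exact ⟨1, fun _ _ _ _ _ _ _ h _ => h⟩
  | succ k ih =>
    obtain ⟨C, hC⟩ := ih
    refine ⟨max 1 (2 ^ k * |A| * |C| + 2 ^ k * |C| * |A'|), fun S hS L R η h1 h2 h3 h4 => ?_⟩
    have h := hC S hS L R η (fun a => (h1 a).pred) (fun a => (h2 a).pred) h3 h4
    exact ⟨h3.mono (le_max_left _ _), fun a => (((((h1 a).pred.comp hS h).add hS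
      (h.comp hS (h2 a).pred)).congr hS (h4 a)).mono (le_max_right _ _))⟩

end ode

variable {E3 : Type} [NormedAddCommGroup E3] [NormedSpace ℝ E3] [FiniteDimensional ℝ E3]
  [MeasurableSpace E3] [BorelSpace E3]
  {H3 : Type} [TopologicalSpace H3] {I3 : ModelWithCorners ℝ E3 H3} [I3.Boundaryless]
  {Y : Type} [TopologicalSpace Y] [ChartedSpace H3 Y] [IsManifold I3 ∞ Y] [T2Space Y]
  [MeasurableSpace Y] [BorelSpace Y] [SecondCountableTopology Y] [CompactSpace Y]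
  {κ : Type} [Fintype κ] {lam : Type} [Fintype lam] {D : YD I3 Y κ lam}
  {E : Type} [NormedAddCommGroup E] [NormedSpace ℝ E] [FiniteDimensional ℝ E]
  [MeasurableSpace E] [BorelSpace E]
  {HM : Type} [TopologicalSpace HM] {I : ModelWithCorners ℝ E HM} [I.Boundaryless]
  {M : Type} [TopologicalSpace M] [ChartedSpace HM M] [IsManifold I ∞ M] [T2Space M]
  [MeasurableSpace M] [BorelSpace M] [SecondCountableTopology M]
  {B : Base M (Option κ) lam} {G : Geo I M (Option κ) lam} {r : ℕ}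

/-- **the transported section has bounded derivatives** -/
theorem lb_eta (K : Nk D B G) {c : Cfg M (Option κ) lam r} (A : c.Adm B G) {β : YC Y κ lam}
    (hβ : D.Adm β) (k : ℕ) : ∃ C, ∀ (ξ : M → c.m.A) u ζ S, S ⊆ K.J →
      D.Cls (K.pb c) β u ζ S k 1 → RedOn G.F c.m c.W (K.tm ⁻¹' S) ξ →
      (∀ a, Lb D.Z.toPre (univ ×ˢ S) k (D.dA (K.pb c) β u a) 1) ∧
        Lb D.Z.toPre (univ ×ˢ S) k (fun x => u x ∘L opL (ξ (K.ψ x)) ∘L trn (u x)) C := by
  have sW := hβ.adm.conn.cc.sm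
  choose W hW using fun a => Cht98.Cb_fst D.F.toPre (Sob92.Cb_of_compact (u := β.W a)
    (sm_slice_fst (u := (cy β).W a) (sW a) 0))
  obtain ⟨W', hW'⟩ := Finite.bddAbove_range fun a => W a k
  obtain ⟨C, hC⟩ := lb_ode (V := β.m.V) D.Z.toPre (1 + |W'|) 
    (‖trnL (κ := Fin β.m.N) (κ' := Fin β.m.N)‖ * 1 + W') k
  refine ⟨C, fun ξ u ζ S hS h R => ?_⟩
  have o : IsOpen ((univ : Set Y) ×ˢ S) := isOpen_univ.prod h.op
  have src : ∀ {x : Y × ℝ}, x ∈ univ ×ˢ S → x ∈ K.ψ.source := fun hx => K.mem_src.2 (hS hx.2)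
  have tm : ∀ {x : Y × ℝ}, x ∈ univ ×ˢ S → K.ψ x ∈ K.tm ⁻¹' S := fun hx =>
    mem_preimage.2 ((K.tm_ψ _ (src hx)).symm ▸ hx.2)
  have su : ∀ {x : Y × ℝ}, x ∈ univ ×ˢ S → SA (IC I3) u x := fun hx =>
    h.m.su.contMDiffAt (o.mem_nhds hx)
  have sξ : ∀ {x : Y × ℝ}, x ∈ univ ×ˢ S → SA (IC I3) (fun x => opL (ξ (K.ψ x))) x := fun hx =>
    SA.clm opL (K.rel.sm (src hx) (R.sm _ (tm hx)))
  have lA : ∀ a, Lb D.Z.toPre (univ ×ˢ S) k (D.dA (K.pb c) β u a) 1 := fun a =>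
    .of_Dw (fun x hx => sa_comp (((Sob92.dv_smoothAt (D.Z.sm a x) (su hx)).add
      (sa_comp (sW a x) (su hx))).sub (sa_comp (su hx) (K.rel.sm (src hx) (A.conn.cc.sm a _))))
      (sa_trn (su hx))) (h.A a)
  have lW : ∀ a, Lb D.Z.toPre (univ ×ˢ S) k (fun x => β.W a x.1) W' := fun a =>
    (Lb.of_CB (hW a).1 ((hW a).2 k)).mono (hW' ⟨a, rfl⟩)
  have g1 := fun {x : Y × ℝ} (hx : x ∈ univ ×ˢ S) => g_p (R.mem _ (tm hx))
  have g2 := fun {x : Y × ℝ} (hx : x ∈ univ ×ˢ S) => g_p' A.ok (R.mem _ (tm hx))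
  refine ⟨lA, hC _ o _ _ _ (fun a => (lA a).sub' o (lW a)) (fun a => ((lA a).clm o trnL).add o (lW a))
    (fun x hx => ⟨sa_comp (su hx) (sa_comp (sξ hx) (sa_trn (su hx))), eta_le (h.m.uu x hx)
      (g1 hx) (g2 hx) (g_skw (R.mem _ (tm hx)))
      (R.sq _ (tm hx)) (A.ok.pidem _)⟩) fun a x hx => ?_⟩
  have e := opL_nab (e := G.F.e) (W := c.W) a (R.sm _ (tm hx))
  rw [R.par _ (tm hx), map_zero, nabE, add_eq_zero_iff_eq_neg] at e
  have e3 := (K.rel.D (src hx) a (u' := fun y => opL (ξ y)) (u := fun x => opL (ξ (K.ψ x)))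
    (.of_forall fun _ => rfl)).trans e
  have e1 := (dv_ccomp (e := D.Z.e a) (sξ hx) (sa_trn (su hx))).trans
    (congrArg₂ (fun s t => s ∘L trn (u x) + opL (ξ (K.ψ x)) ∘L t) e3 (dv_trn (su hx)))
  refine (dv_ccomp (e := D.Z.e a) (su hx) (sa_comp (sξ hx) (sa_trn (su hx)))).trans ?_
  refine (congrArg (fun t => _ + u x ∘L t) e1).trans ?_
  exact eta_D (h.m.uu x hx) (g1 hx) (g2 hx) (A.conn.sk a _) (hβ.adm.conn.sk a x)

end Crest.Agent.X212.Dgr80
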