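import Crest.Agent.X212.Dgr80.Tr
import Crest.Agent.X212.Sob92.Fun

/-!
# Row 212, DGR (helper80): weighted `H¹` bounds for equations in divergence form
-/

set_option autoImplicit false
set_option linter.unusedSectionVars false
noncomputable section
open scoped Manifold ContDiff Topology InnerProductSpace
open MeasureTheory Set Function Filter

namespace Crest.Agent.X212.Dgr80
open An Wz78 Sob92
open Mp86 (Mc Bumps)

/-- integrable with integral at most `a` -/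
def LB {X : Type*} [MeasurableSpace X] (μ : Measure X) (g : X → ℝ) (a : ℝ) : Prop :=
  Integrable g μ ∧ ∫ x, g x ∂μ ≤ a

section lb
variable {X : Type*} [MeasurableSpace X] {μ : Measure X} {g g' : X → ℝ} {a a' : ℝ}

theorem LB.le (h : LB μ g a) (ha : a ≤ a') : LB μ g a' := ⟨h.1, h.2.trans ha⟩

theorem LB.mono (h : LB μ g a) (hm : AEStronglyMeasurable g' μ) (h0 : ∀ x, 0 ≤ g' x)
    (hle : ∀ x, g' x ≤ g x) : LB μ g' a := by
  have i := h.1.mono' hm (.of_forall fun x => by rw [Real.norm_of_nonneg (h0 x)]; exact hle x)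
  exact ⟨i, (integral_mono i h.1 hle).trans h.2⟩

theorem LB.add (h : LB μ g a) (k : LB μ g' a') : LB μ (fun x => g x + g' x) (a + a') :=
  ⟨h.1.add k.1, by rw [integral_add h.1 k.1]; exact add_le_add h.2 k.2⟩

theorem LB.mul (h : LB μ g a) {c : ℝ} (hc : 0 ≤ c) : LB μ (fun x => c * g x) (c * a) :=
  ⟨h.1.const_mul c, by rw [integral_const_mul]; exact mul_le_mul_of_nonneg_left h.2 hc⟩

theorem LB.nonneg (h : LB μ g a) (h0 : ∀ x, 0 ≤ g x) : 0 ≤ a := (integral_nonneg h0).trans h.2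

theorem LB.sum {κ : Type*} (s : Finset κ) {g : κ → X → ℝ} {a : κ → ℝ}
    (h : ∀ k ∈ s, LB μ (g k) (a k)) : LB μ (fun x => ∑ k ∈ s, g k x) (∑ k ∈ s, a k) :=
  ⟨integrable_finsetSum _ fun k hk => (h k hk).1, by
    rw [integral_finsetSum _ fun k hk => (h k hk).1]
    exact Finset.sum_le_sum fun k hk => (h k hk).2⟩

theorem LB.lim {f : ℕ → X → ℝ} {b : ℕ → ℝ} (hg : Measurable g) (g0 : ∀ x, 0 ≤ g x)
    (hm : ∀ n, Measurable (f n)) (f0 : ∀ n x, 0 ≤ f n x) (h : ∀ n, LB μ (f n) (b n))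
    (hb : Tendsto b atTop (𝓝 a)) (hl : ∀ x, Tendsto (fun n => f n x) atTop (𝓝 (g x))) :
    LB μ g a := by
  have key : ∀ ε > 0, LB μ g (a + ε) := fun ε hε => by
    obtain ⟨N, hN⟩ := eventually_atTop.1 (hb.eventually (gt_mem_nhds (lt_add_of_pos_right a hε)))
    exact Mp86.fatou (f := fun n => f (n + N)) hg g0 (fun n => hm _) (fun n => (h _).1)
      (fun n => f0 _) (fun n => (h _).2.trans (hN _ le_add_self).le)
      fun x => (hl x).comp (tendsto_add_atTop_nat N)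
  exact ⟨(key 1 one_pos).1, le_of_forall_pos_le_add fun ε hε => (key ε hε).2⟩

end lb

variable {E : Type} [NormedAddCommGroup E] [NormedSpace ℝ E] [FiniteDimensional ℝ E]
  [MeasurableSpace E] [BorelSpace E]
  {HM : Type} [TopologicalSpace HM] {I : ModelWithCorners ℝ E HM}
  {M : Type} [TopologicalSpace M] [ChartedSpace HM M] [IsManifold I ∞ M]
  [MeasurableSpace M] [T2Space M] [BorelSpace M] {ι : Type} [Fintype ι]
  {V : Type} [NormedAddCommGroup V] [InnerProductSpace ℝ V]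
  {F : Fr I M ι} {A : ι → M → CL V V} {W ϖ : M → ℝ} {u v w s l : M → V} {g : ι → M → V}

variable (F) in
/-- weights with small logarithmic derivative -/
structure Wg (W : M → ℝ) : Prop where
  sm : Sm I W
  pos : ∀ x, 0 < W x
  gr : ∀ x, 4 * ∑ a, F.D a W x ^ 2 ≤ W x ^ 2

variable (F) in
/-- an exhausting sequence of cut-off functions -/
structure Cut (χ : ℕ → M → ℝ) (C : ℝ) : Prop where
  ts : ∀ n, Ts I univ (χ n)
  le : ∀ n x, |χ n x| ≤ 1
  gr : ∀ n x a, |F.D a (χ n) x| ≤ C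
  ev : ∀ x, ∀ᶠ n in atTop, χ n x = 1 ∧ ∀ a, F.D a (χ n) x = 0

variable (F) in
/-- the ambient hypotheses: maximum principle, cut-offs, one integrable weight -/
structure Amb (ϖ : M → ℝ) : Prop where
  bu : Bumps I F.e F.dv
  cut : ∃ χ C, Cut F χ C
  wg : Wg F ϖ
  int : Integrable ϖ F.μ

theorem exists_cut [SecondCountableTopology M] {C : ℕ → ℝ} (h : Exh F.toPre C) :
    ∃ χ C, Cut F χ C := by
  obtain ⟨χ, S, h1, h2, h3⟩ := h.seq
  refine ⟨χ, C 1, fun n => ⟨(h1 n).1.1, (h1 n).2.1, subset_univ _⟩, fun n x => abs_le.2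
    ⟨by linarith [((h1 n).2.2.1 x).1], ((h1 n).2.2.1 x).2⟩,
    fun n x a => (h1 n).1.2 1 [a] le_rfl x, fun x => ?_⟩
  obtain ⟨N, hN⟩ : ∃ N, x ∉ S N := by
    by_contra! h4
    exact (h3 ▸ mem_iInter.2 h4 : x ∈ (∅ : Set M))
  filter_upwards [eventually_ge_atTop N] with n hn
  have hx : x ∉ S n := fun h4 => hN (h2 hn h4)
  refine ⟨(h1 n).2.2.2.2 x hx, fun a => ?_⟩
  rw [Pre.D_def, dv_congr (v := fun _ => 1) (mem_of_superset ((h1 n).2.2.2.1.isOpen_compl.mem_nhds hx)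
    fun y hy => (h1 n).2.2.2.2 y hy), dv_const]
  rfl

theorem amb_of_tame [SecondCountableTopology M] [BoundarylessManifold I M] {C : ℕ → ℝ}
    (h : F.Tame C) (hϖ : Wg F ϖ) (hi : Integrable ϖ F.μ) : Amb F ϖ :=
  ⟨Mp86.bumps_of_tame F h, exists_cut (Exh.of_tame h), hϖ, hi⟩

theorem wg_one : Wg F fun _ => 1 :=
  ⟨contMDiff_const, fun _ => one_pos, fun x => by simp [Pre.D_def]⟩

theorem Wg.inv (h : Wg F W) : Wg F fun x => (W x)⁻¹ := by
  refine ⟨h.sm.inv₀ fun x => (h.pos x).ne', fun x => inv_pos.2 (h.pos x), fun x => ?_⟩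
  have p := h.pos x
  have e : ∀ a, F.D a (fun x => (W x)⁻¹) x = -(W x ^ 2)⁻¹ * F.D a W x := fun a => by
    rw [Pre.D_def, dv_comp (SA.md (h.sm x)) (hasDerivAt_inv p.ne').hasFDerivAt]
    simp [mul_comm, Pre.D_def]
  simp only [e, mul_pow, ← Finset.mul_sum]
  have := h.gr x
  field_simp
  exact this

theorem Wg.add {W' : M → ℝ} (h : Wg F W) (k : Wg F W') : Wg F fun x => W x + W' x := by
  refine ⟨h.sm.add k.sm, fun x => add_pos (h.pos x) (k.pos x), fun x => ?_⟩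
  have e : ∀ a, F.D a (fun x => W x + W' x) x = F.D a W x + F.D a W' x := fun a =>
    dv_add' (h.sm x) (k.sm x)
  have h1 := Finset.sum_mul_sq_le_sq_mul_sq Finset.univ (fun a => F.D a W x) fun a => F.D a W' x
  have h2 : 4 * ∑ a, F.D a W x * F.D a W' x ≤ W x * W' x := by
    refine (abs_le_of_sq_le_sq' ?_ (mul_pos (h.pos x) (k.pos x)).le).2
    have := mul_le_mul (h.gr x) (k.gr x) (by positivity) (by positivity)
    nlinarith
  simp only [e, add_sq, Finset.sum_add_distrib, mul_assoc, ← Finset.mul_sum]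
  linarith [h.gr x, k.gr x]

theorem Wg.mul (h : Wg F W) {c : ℝ} (hc : 0 < c) : Wg F fun x => c * W x := by
  refine ⟨contMDiff_const.mul h.sm, fun x => mul_pos hc (h.pos x), fun x => ?_⟩
  have e : ∀ a, F.D a (fun x => c * W x) x = c * F.D a W x := fun a => by
    rw [Pre.D_def, dv_mul contMDiffAt_const (h.sm x)]; simp [Pre.D_def]
  simp only [e, mul_pow, ← Finset.mul_sum]
  nlinarith [mul_le_mul_of_nonneg_left (h.gr x) (sq_nonneg c)]

variable (F A) in
/-- squared norm of the covariant derivative -/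
def g2 (u : M → V) (x : M) : ℝ := ∑ a, ‖nab I F.e A a u x‖ ^ 2

theorem g2_nonneg (x : M) : 0 ≤ g2 F A u x := Finset.sum_nonneg fun _ _ => sq_nonneg _

theorem le_g2 (a : ι) (x : M) : ‖nab I F.e A a u x‖ ^ 2 ≤ g2 F A u x :=
  Finset.single_le_sum (f := fun a => ‖nab I F.e A a u x‖ ^ 2) (fun _ _ => sq_nonneg _)
    (Finset.mem_univ a)

theorem cont_g2 (hA : Mc I A) (hu : Sm I u) : Continuous (g2 F A u) :=
  continuous_finsetSum _ fun a _ => (sm_nab hA.sm a hu).continuous.norm.pow 2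

variable (F A) in
/-- the divergence `∑ ∇ₐ gₐ` -/
def dvn (g : ι → M → V) (x : M) : V := ∑ a, (nab I F.e A a (g a) x + F.dv a x • g a x)

theorem sm_dvn (hA : Mc I A) (hg : ∀ a, Sm I (g a)) : Sm I (dvn F A g) :=
  sm_sum _ fun a => (sm_nab hA.sm a (hg a)).add ((F.dv_sm a).smul (hg a))

theorem lap_eq_dvn (x : M) : lap I F.e F.dv A u x = -dvn F A (fun a => nab I F.e A a u) x := rfl

theorem integral_dvn (hA : Mc I A) (hg : ∀ a, Sm I (g a)) (hw : Sm I w)
    (hc : ∀ a, HasCompactSupport fun x => ⟪g a x, w x⟫_ℝ)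
    (hi : Integrable (fun x => ∑ a, ⟪g a x, nab I F.e A a w x⟫_ℝ) F.μ) :
    ∫ x, ⟪dvn F A g x, w x⟫_ℝ ∂F.μ = -∫ x, ∑ a, ⟪g a x, nab I F.e A a w x⟫_ℝ ∂F.μ := by
  have h1 : ∀ a, Sm I fun y => ⟪g a y, w y⟫_ℝ := fun a => sm_inner (hg a) hw
  have e : ∀ x, ⟪dvn F A g x, w x⟫_ℝ = dvg I F.e F.dv (fun a y => ⟪g a y, w y⟫_ℝ) x -
      ∑ a, ⟪g a x, nab I F.e A a w x⟫_ℝ := fun x => by
    simp only [dvn, dvg, sum_inner, inner_add_left, real_inner_smul_left, Finset.sum_add_distrib,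
      fun a => dv_inner (e := F.e) a (hA.sk a x) (hg a x) (hw x)]
    ring
  simp only [e]
  rw [integral_sub (integ_dvg h1 hc) hi, integral_dvg h1 hc, zero_sub]

theorem ts_pair (hA : Mc I A) (hg : ∀ a, Sm I (g a)) (hw : Ts I univ w) :
    Ts I univ fun x => ∑ a, ⟪g a x, nab I F.e A a w x⟫_ℝ :=
  hw.of_supp (sm_sum _ fun a => sm_inner (hg a) (sm_nab hA.sm a hw.sm))
    (closure_minimal (fun x hx => by_contra fun h => hx (by
      simp [nab, dv_eq_zero_of_notMem h, image_eq_zero_of_notMem_tsupport h])) (isClosed_tsupport _))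

theorem integral_dvn' (hA : Mc I A) (hg : ∀ a, Sm I (g a)) (hw : Ts I univ w) :
    ∫ x, ⟪dvn F A g x, w x⟫_ℝ ∂F.μ = -∫ x, ∑ a, ⟪g a x, nab I F.e A a w x⟫_ℝ ∂F.μ :=
  integral_dvn hA hg hw.sm (fun a => (hw.inner (hg a)).hc) ((ts_pair hA hg hw).int F)

theorem young (s t : ℝ) (u v : V) : -(s ^ 2 * ‖u‖ ^ 2 + t ^ 2 * ‖v‖ ^ 2) ≤ 2 * s * t * ⟪u, v⟫_ℝ := by
  have := sq_nonneg ‖s • u + t • v‖
  rw [norm_add_sq_real, norm_smul, norm_smul, real_inner_smul_left, real_inner_smul_right, mul_pow,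
    mul_pow, Real.norm_eq_abs, Real.norm_eq_abs, sq_abs, sq_abs] at this
  linarith

/-- Caccioppoli inequality with a weight -/
theorem cacc (hA : Mc I A) (hW : Wg F W) {ζ : M → ℝ} (hζ : Ts I univ ζ) (hw : Sm I w)
    (hg : ∀ a, Sm I (g a)) (e : ∀ x, w x + lap I F.e F.dv A w x = s x - dvn F A g x) :
    3 / 8 * ∫ x, ζ x ^ 2 * (W x * (‖w x‖ ^ 2 + g2 F A w x)) ∂F.μ ≤
      3 * ∫ x, ζ x ^ 2 * (W x * (‖s x‖ ^ 2 + ∑ a, ‖g a x‖ ^ 2)) ∂F.μ +
      10 * ∫ x, (∑ a, F.D a ζ x ^ 2) * (W x * ‖w x‖ ^ 2) ∂F.μ := by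
  have hs : Sm I s := by
    rw [show s = fun x => w x + lap I F.e F.dv A w x + dvn F A g x from funext fun x => by
      rw [e, sub_add_cancel]]
    exact (hw.add (sm_lap hA.sm hw)).add (sm_dvn hA hg)
  have hη : Ts I univ fun x => ζ x * (ζ x * W x) := hζ.mul (hζ.sm.mul hW.sm)
  have hφ := hη.smul hw
  have sN := fun a => sm_nab (F := F) hA.sm a hw
  have t0 := (hφ.inner hw).int F
  have t1 := (ts_pair (F := F) hA sN hφ).int F
  have t2 := (hφ.inner hs).int F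
  have t3 := (ts_pair (F := F) hA hg hφ).int F
  have id : ∫ x, (⟪w x, (ζ x * (ζ x * W x)) • w x⟫_ℝ + ∑ a, ⟪nab I F.e A a w x,
      nab I F.e A a (fun x => (ζ x * (ζ x * W x)) • w x) x⟫_ℝ - ⟪s x, (ζ x * (ζ x * W x)) • w x⟫_ℝ -
      ∑ a, ⟪g a x, nab I F.e A a (fun x => (ζ x * (ζ x * W x)) • w x) x⟫_ℝ) ∂F.μ = 0 := by
    rw [integral_sub ((t0.fun_add t1).sub' t2) t3, integral_sub (t0.fun_add t1) t2, integral_add t0 t1,
      ← integral_lap hA.sm hA.sk hw hφ.sm hφ.hc, ← neg_eq_iff_eq_neg.2 (integral_dvn' hA hg hφ),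
      ← integral_add t0 ((hφ.inner (sm_lap hA.sm hw)).int F)]
    simp only [← inner_add_left, e, inner_sub_left]
    rw [integral_sub t2 ((hφ.inner (sm_dvn hA hg)).int F)]
    ring
  have c2 : HasCompactSupport fun x => ζ x ^ 2 := hζ.hc.mono fun x hx h => hx (by simp [h])
  have c3 : HasCompactSupport fun x => ∑ a, F.D a ζ x ^ 2 :=
    hζ.hc.of_isClosed_subset (isClosed_tsupport _) (closure_minimal (fun x hx => by_contra fun h =>
      hx (by simp [Pre.D_def, dv_eq_zero_of_notMem h])) (isClosed_tsupport _))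
  have k1 := hW.sm.continuous
  have k2 := hζ.sm.continuous
  have k3 := hw.continuous
  have k4 := cont_g2 (F := F) hA hw
  have k5 := hs.continuous
  have k6 := fun a => (hg a).continuous
  have k7 := fun a => (F.sm_D hζ.sm a).continuous
  have i1 : Integrable (fun x => ζ x ^ 2 * (W x * (‖w x‖ ^ 2 + g2 F A w x))) F.μ :=
    Continuous.integrable_of_hasCompactSupport (by fun_prop) c2.mul_right
  have i2 : Integrable (fun x => ζ x ^ 2 * (W x * (‖s x‖ ^ 2 + ∑ a, ‖g a x‖ ^ 2))) F.μ :=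
    Continuous.integrable_of_hasCompactSupport (by fun_prop) c2.mul_right
  have i3 : Integrable (fun x => (∑ a, F.D a ζ x ^ 2) * (W x * ‖w x‖ ^ 2)) F.μ :=
    Continuous.integrable_of_hasCompactSupport (by fun_prop) c3.mul_right
  rw [← sub_nonpos, ← integral_const_mul, ← integral_const_mul, ← integral_const_mul,
    ← integral_add (i2.const_mul _) (i3.const_mul _),
    ← integral_sub (i1.const_mul _) ((i2.const_mul _).fun_add (i3.const_mul _)), ← id]
  refine integral_mono ((i1.const_mul _).sub ((i2.const_mul _).add (i3.const_mul _)))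
    (((t0.add t1).sub t2).sub t3) fun x => ?_
  have p := hW.pos x
  obtain ⟨k, hk⟩ : ∃ k : ι → ℝ, ∀ a, F.D a W x = W x * k a :=
    ⟨fun a => F.D a W x / W x, fun a => by field_simp⟩
  have hk2 : 4 * ∑ a, k a ^ 2 ≤ 1 := by
    have := hW.gr x
    simp only [hk, mul_pow, ← Finset.mul_sum] at this
    by_contra! h
    nlinarith [mul_lt_mul_of_pos_left h (pow_pos p 2)]
  have hD : ∀ a, nab I F.e A a (fun x => (ζ x * (ζ x * W x)) • w x) x =
      W x • ((2 * ζ x * F.D a ζ x + ζ x ^ 2 * k a) • w x + ζ x ^ 2 • nab I F.e A a w x) := fun a => by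
    rw [nab_smul a (hη.sm x) (hw x), dv_mul (hζ.sm x) (SA.mul (hζ.sm x) (hW.sm x)),
      dv_mul (hζ.sm x) (hW.sm x), ← Pre.D_def, ← Pre.D_def, hk]
    module
  have key : ∀ a, 7 / 18 * ζ x ^ 2 * ‖nab I F.e A a w x‖ ^ 2 - 3 * ζ x ^ 2 * ‖g a x‖ ^ 2 -
      10 * F.D a ζ x ^ 2 * ‖w x‖ ^ 2 - 5 / 4 * ζ x ^ 2 * k a ^ 2 * ‖w x‖ ^ 2 ≤
      ⟪nab I F.e A a w x - g a x,
        (2 * ζ x * F.D a ζ x + ζ x ^ 2 * k a) • w x + ζ x ^ 2 • nab I F.e A a w x⟫_ℝ := fun a => by
    simp only [inner_sub_left, inner_add_right, real_inner_smul_right, real_inner_self_eq_norm_sq]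
    linarith [young (ζ x / 3) (3 * F.D a ζ x) (nab I F.e A a w x) (w x),
      young (ζ x) (-F.D a ζ x) (g a x) (w x), young (ζ x / 2) (ζ x * k a) (nab I F.e A a w x) (w x),
      young (ζ x) (-(ζ x * k a / 2)) (g a x) (w x),
      young (ζ x) (-(ζ x / 2)) (g a x) (nab I F.e A a w x)]
  have k8 := Finset.sum_le_sum (s := Finset.univ) fun a _ => key a
  simp only [Finset.sum_sub_distrib, ← Finset.mul_sum, ← Finset.sum_mul, inner_sub_left] at k8
  have k9 := young (ζ x) (-(ζ x / 2)) (s x) (w x)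
  have k10 := mul_le_mul_of_nonneg_left hk2 (mul_nonneg (sq_nonneg (ζ x)) (sq_nonneg ‖w x‖))
  have k11 := mul_nonneg (sq_nonneg (ζ x)) (sq_nonneg ‖w x‖)
  have k12 := mul_nonneg (sq_nonneg (ζ x)) (sq_nonneg ‖s x‖)
  have k13 := mul_nonneg (sq_nonneg (ζ x)) (g2_nonneg (F := F) (A := A) (u := w) x)
  simp only [hD, real_inner_smul_right (r := W x), real_inner_smul_right (r := ζ x * (ζ x * W x)),
    ← Finset.mul_sum, real_inner_self_eq_norm_sq]
  unfold g2 at k13 ⊢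
  generalize (∑ a, ⟪nab I F.e A a w x, _⟫_ℝ) = S1 at k8 ⊢
  generalize (∑ a, ⟪g a x, _⟫_ℝ) = S2 at k8 ⊢
  have k14 : 3 / 8 * (ζ x ^ 2 * (‖w x‖ ^ 2 + ∑ a, ‖nab I F.e A a w x‖ ^ 2)) -
      (3 * (ζ x ^ 2 * (‖s x‖ ^ 2 + ∑ a, ‖g a x‖ ^ 2)) + 10 * ((∑ a, F.D a ζ x ^ 2) * ‖w x‖ ^ 2)) ≤
      ζ x ^ 2 * ‖w x‖ ^ 2 + S1 - ζ x ^ 2 * ⟪s x, w x⟫_ℝ - S2 := by linarith
  linarith [mul_le_mul_of_nonneg_left k14 p.le]

theorem Cut.tend {χ : ℕ → M → ℝ} {C : ℝ} (h : Cut F χ C) {f : M → ℝ} (hf : Integrable f F.μ)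
    (a : ι) : Tendsto (fun n => ∫ x, F.D a (χ n) x * f x ∂F.μ) atTop (𝓝 0) := by
  have := tendsto_integral_of_dominated_convergence (μ := F.μ) (F := fun n x => F.D a (χ n) x * f x)
    (f := fun _ => 0) (fun x => C * ‖f x‖)
    (fun n => (F.sm_D (h.ts n).sm a).continuous.aestronglyMeasurable.mul hf.1) (hf.norm.const_mul C)
    (fun n => .of_forall fun x => by
      rw [norm_mul]; exact mul_le_mul_of_nonneg_right (h.gr n x a) (norm_nonneg _))
    (.of_forall fun x => tendsto_const_nhds.congr' ((h.ev x).mono fun n hn => by simp [hn.2]))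
  simpa using this

theorem Cut.tend1 {χ : ℕ → M → ℝ} {C : ℝ} (h : Cut F χ C) {f : M → ℝ} (hf : Integrable f F.μ) :
    Tendsto (fun n => ∫ x, χ n x * f x ∂F.μ) atTop (𝓝 (∫ x, f x ∂F.μ)) :=
  tendsto_integral_of_dominated_convergence (F := fun n x => χ n x * f x) (fun x => ‖f x‖)
    (fun n => (h.ts n).sm.continuous.aestronglyMeasurable.mul hf.1) hf.norm
    (fun n => .of_forall fun x => by
      rw [norm_mul]; exact mul_le_of_le_one_left (norm_nonneg _) (h.le n x))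
    (.of_forall fun x => tendsto_const_nhds.congr' ((h.ev x).mono fun n hn => by simp [hn.1]))

theorem wk0 (hc : ∃ χ C, Cut F χ C) (hA : Mc I A) (hW : Wg F W) (hw : Sm I w) (hs : Continuous s)
    (hg : ∀ a, Sm I (g a)) (e : ∀ x, w x + lap I F.e F.dv A w x = s x - dvn F A g x)
    (i0 : Integrable (fun x => W x * ‖w x‖ ^ 2) F.μ) {D : ℝ}
    (h : LB F.μ (fun x => W x * (‖s x‖ ^ 2 + ∑ a, ‖g a x‖ ^ 2)) D) :
    LB F.μ (fun x => W x * (‖w x‖ ^ 2 + g2 F A w x)) (8 * D) := by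
  obtain ⟨χ, C, hχ⟩ := hc
  have k1 := hW.sm.continuous
  have k2 := fun n => (hχ.ts n).sm.continuous
  have k3 := hw.continuous
  have k4 := cont_g2 (F := F) hA hw
  have k6 := fun a => (hg a).continuous
  have k7 := fun n a => (F.sm_D (hχ.ts n).sm a).continuous
  have p := fun x => (hW.pos x).le
  have q := g2_nonneg (F := F) (A := A) (u := w)
  have C0 : ∀ n x a, F.D a (χ n) x ^ 2 ≤ C * |F.D a (χ n) x| := fun n x a => by
    rw [← sq_abs, sq]; exact mul_le_mul_of_nonneg_right (hχ.gr n x a) (abs_nonneg _)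
  have t : Tendsto (fun n => ∫ x, (∑ a, F.D a (χ n) x ^ 2) * (W x * ‖w x‖ ^ 2) ∂F.μ) atTop (𝓝 0) := by
    have := tendsto_integral_of_dominated_convergence (μ := F.μ)
      (F := fun n x => (∑ a, F.D a (χ n) x ^ 2) * (W x * ‖w x‖ ^ 2)) (f := fun _ => 0)
      (fun x => (∑ _a : ι, C ^ 2) * (W x * ‖w x‖ ^ 2))
      (fun n => Continuous.aestronglyMeasurable (by fun_prop)) (i0.const_mul _)
      (fun n => .of_forall fun x => by
        have := p x
        rw [Real.norm_of_nonneg (by positivity)]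
        exact mul_le_mul_of_nonneg_right (Finset.sum_le_sum fun a _ =>
          sq_le_sq' (abs_le.1 (hχ.gr n x a)).1 (abs_le.1 (hχ.gr n x a)).2) (by positivity))
      (.of_forall fun x => tendsto_const_nhds.congr' ((hχ.ev x).mono fun n hn => by simp [hn.2]))
    simpa using this
  have t2 := (t.const_mul (80 / 3)).const_add (8 * D)
  rw [mul_zero, add_zero] at t2
  refine LB.lim (f := fun n x => χ n x ^ 2 * (W x * (‖w x‖ ^ 2 + g2 F A w x)))
    (Continuous.measurable (by fun_prop)) (fun x => mul_nonneg (p x) (add_nonneg (sq_nonneg _) (q x)))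
    (fun n => Continuous.measurable (by fun_prop))
    (fun n x => mul_nonneg (sq_nonneg _) (mul_nonneg (p x) (add_nonneg (sq_nonneg _) (q x))))
    (fun n => ⟨Continuous.integrable_of_hasCompactSupport (by fun_prop) (HasCompactSupport.mul_right
      ((hχ.ts n).hc.mono fun x hx h => hx (by simp [h]))), ?_⟩) t2
    fun x => tendsto_const_nhds.congr' ((hχ.ev x).mono fun n hn => by simp [hn.1])
  have h1 := cacc hA hW (hχ.ts n) hw hg e
  have h2 := (h.mono (g' := fun x => χ n x ^ 2 * (W x * (‖s x‖ ^ 2 + ∑ a, ‖g a x‖ ^ 2)))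
    (Continuous.aestronglyMeasurable (by fun_prop)) (fun x => by have := p x; positivity) fun x =>
      mul_le_of_le_one_left (by have := p x; positivity) ((sq_le_one_iff_abs_le_one _).2
        (hχ.le n x))).2
  linarith

/-- **weighted `H¹` bound** -/
theorem Amb.wk (h : Amb F ϖ) (hA : Mc I A) (hW : Wg F W) (hw : Sm I w) (hs : Continuous s)
    (hg : ∀ a, Sm I (g a)) (e : ∀ x, w x + lap I F.e F.dv A w x = s x - dvn F A g x)
    (i0 : Integrable (fun x => ϖ x * ‖w x‖ ^ 2) F.μ) {D : ℝ}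
    (hb : LB F.μ (fun x => W x * (‖s x‖ ^ 2 + ∑ a, ‖g a x‖ ^ 2)) D) :
    LB F.μ (fun x => W x * (‖w x‖ ^ 2 + g2 F A w x)) (8 * D) := by
  have np : ∀ n : ℕ, (0 : ℝ) < n + 1 := fun n => by positivity
  set Wn : ℕ → M → ℝ := fun n x => ((W x)⁻¹ + ((n + 1) * ϖ x)⁻¹)⁻¹ with hWn
  have h1 : ∀ n, Wg F (Wn n) := fun n => (hW.inv.add (h.wg.mul (np n)).inv).inv
  have h2 : ∀ n x, Wn n x ≤ W x := fun n x => by
    have := h.wg.pos x
    have := hW.pos x
    rw [hWn, inv_le_comm₀ (by positivity) this]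
    exact le_add_of_nonneg_right (by positivity)
  have h3 : ∀ n x, Wn n x ≤ (n + 1) * ϖ x := fun n x => by
    have := h.wg.pos x
    have := hW.pos x
    rw [hWn, inv_le_comm₀ (by positivity) (by positivity)]
    exact le_add_of_nonneg_left (by positivity)
  have k1 := hW.sm.continuous
  have k2 := fun n => (h1 n).sm.continuous
  have k3 := hw.continuous
  have k4 := cont_g2 (F := F) hA hw
  have k6 := fun a => (hg a).continuous
  have q := g2_nonneg (F := F) (A := A) (u := w)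
  refine LB.lim (f := fun n x => Wn n x * (‖w x‖ ^ 2 + g2 F A w x)) (b := fun _ => 8 * D)
    (Continuous.measurable (by fun_prop))
    (fun x => mul_nonneg (hW.pos x).le (add_nonneg (sq_nonneg _) (q x)))
    (fun n => Continuous.measurable (by fun_prop))
    (fun n x => mul_nonneg ((h1 n).pos x).le (add_nonneg (sq_nonneg _) (q x)))
    (fun n => wk0 h.cut hA (h1 n) hw hs hg e ?_ ?_) tendsto_const_nhds fun x => ?_
  · refine ((LB.mul ⟨i0, le_rfl⟩ (np n).le).mono (Continuous.aestronglyMeasurable (by fun_prop))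
      (fun x => mul_nonneg ((h1 n).pos x).le (sq_nonneg _)) fun x => ?_).1
    rw [← mul_assoc]; exact mul_le_mul_of_nonneg_right (h3 n x) (sq_nonneg _)
  · exact hb.mono (Continuous.aestronglyMeasurable (by fun_prop))
      (fun x => mul_nonneg ((h1 n).pos x).le (by positivity))
      fun x => mul_le_mul_of_nonneg_right (h2 n x) (by positivity)
  · refine Tendsto.mul_const _ ?_
    have t : Tendsto (fun n : ℕ => (((n : ℝ) + 1) * ϖ x)⁻¹) atTop (𝓝 0) :=
      ((tendsto_atTop_add_const_right _ 1 tendsto_natCast_atTop_atTop).atTop_mul_const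
        (h.wg.pos x)).inv_tendsto_atTop
    have := (t.const_add (W x)⁻¹).inv₀ (by simpa using (hW.pos x).ne')
    rwa [add_zero, inv_inv] at this

theorem Amb.int_bdd (h : Amb F ϖ) {f : M → ℝ} (hf : Continuous f) {K : ℝ} (hK : ∀ x, |f x| ≤ K) :
    Integrable (fun x => ϖ x * f x) F.μ :=
  h.int.mul_bdd (c := K) hf.aestronglyMeasurable (.of_forall hK)

theorem Amb.int_sq (h : Amb F ϖ) {N : Type} [NormedAddCommGroup N] {w : M → N} (hw : Continuous w)
    (hK : ∃ K, ∀ x, ‖w x‖ ≤ K) : Integrable (fun x => ϖ x * ‖w x‖ ^ 2) F.μ := by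
  obtain ⟨K, hK⟩ := hK
  exact h.int_bdd (hw.norm.pow 2) (K := K ^ 2) fun x => by
    rw [abs_of_nonneg (sq_nonneg _)]; exact pow_le_pow_left₀ (norm_nonneg _) (hK x) 2

/-- the weighted bound for bounded solutions -/
theorem Amb.wk_res (h : Amb F ϖ) (hA : Mc I A) (hW : Wg F W) (hu : F.IsRes A s u) {D : ℝ}
    (hb : LB F.μ (fun x => W x * ‖s x‖ ^ 2) D) :
    LB F.μ (fun x => W x * (‖u x‖ ^ 2 + g2 F A u x)) (8 * D) :=
  h.wk (g := fun _ _ => 0) hA hW hu.1 (Mp86.sm_isRes hA.sm hu).continuous (fun _ => contMDiff_const)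
    (fun x => by simp [hu.2.2, dvn, nab]) (h.int_sq hu.1.continuous hu.2.1) (by simpa using hb)

end Crest.Agent.X212.Dgr80
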