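import Crest.Agent.X212.Dgr80.As2

/-!
# Row 212, LEAF DG-ASM (helper80): global gauges from patched neck gauges
-/

set_option autoImplicit false
set_option linter.unusedSectionVars false
noncomputable section
open scoped Manifold ContDiff Topology
open Set Function Filter Real

namespace Crest.Agent.X212.Dgr80
open An An.Job M Nd18 Gj67 Gb50 Cht98 Pj41
open Cay24 (At ev_at)
open Neck67 (Lb)
open Cyf70 (IC)
open Bki64 (dA dP Cl win ZZ)
open Sob92 (dv dv_congr)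

variable {Wi : Type} {X : Mf 4} {A κ lam : Type} [Fintype A] [Fintype κ] [Fintype lam]
  [DecidableEq lam] {M : Mark X A κ} {W : World M} {L : ML M lam} {Λ : Lns W L}
  {A' h : Type} [Fintype A'] [DecidableEq A'] [Fintype h] {r n : ℕ}
  {J : Job Wi Λ A' h r n} {σ : Cel A'} {a : A'}
  {U Up R : Type} [NormedAddCommGroup U] [NormedSpace ℝ U] [NormedAddCommGroup Up]
  [NormedSpace ℝ Up] [NormedAddCommGroup R] [NormedSpace ℝ R] {d : Dat J σ a U Up R}
  {q₀ : Wi →₀ ℝ} {δ : ℝ} (H : d.OK q₀ δ)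

include H

/-- **LEAF DG-ASM** -/
theorem asm : d.Pat q₀ δ → d.Glb q₀ δ := by
  rintro ⟨e, he, hP⟩
  obtain ⟨δ', hδ, hA, hΦ⟩ := H.dec
  have δ0 := H.δ0
  have R1 := H.R1
  obtain ⟨e₁, b1, b2, b3⟩ : ∃ e₁ > δ, e₁ ≤ e ∧ e₁ ≤ δ' :=
    ⟨min e δ', lt_min he (by linarith), min_le_left _ _, min_le_right _ _⟩
  refine ⟨(δ + e₁) / 2, by linarith, fun α 𝒰 q y hq hs hd j ε ε0 => ?_⟩
  obtain ⟨C, T₁, g, θ, ul, cl, hp⟩ := hP α 𝒰 q y hq hs hd j
  obtain ⟨Cn, hn⟩ := gp_nk H (by linarith) hA hΦ j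
  obtain ⟨Ct, Ct0, ht⟩ := gp_tk H j
  obtain ⟨t, t1, t2, t3, t4⟩ := ((eventually_ge_atTop T₁).and ((eventually_ge_atTop (d.R0 + 4)).and
    ((eventually_all.2 fun k : h => eventually_gt_atTop
      (d.hS (J.cut (J.cf a) k).x0 + d.R0 + 2)).and
    ((((tendsto_exp_atBot.comp ((tendsto_atTop_add_const_right _ (-d.R0 - 2)
      tendsto_id).const_mul_atTop_of_neg (show (δ - e₁) / 2 < 0 by linarith))).const_mul
        (|C| + |Cn|)).eventually_le_const (u := ε) (by simpa using ε0)))))).exists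
  obtain ⟨η, η0, η1, η2⟩ : ∃ η > 0, η ≤ ε ∧ η + Ct * η ≤ ε * exp (-((δ + e₁) / 2) * t) :=
    ⟨min ε (ε * exp (-((δ + e₁) / 2) * t) / (1 + Ct)), by positivity, min_le_left _ _, by
      rw [← one_add_mul, ← le_div_iff₀' (by positivity)]; exact min_le_right _ _⟩
  have s1 : Tendsto (fun i => (y i).s a) 𝒰 (𝓝 1) := by
    have := (continuous_apply a).continuousAt.tendsto.comp hd.s
    rwa [← s_one H, Dat.s, ee_a] at this
  obtain ⟨s₀, s2, s3⟩ := H.ok.lin
  filter_upwards [hp t t1 η η0, ev_lp H ul (hs.mono fun _ k => k.sol.ok) t j η0,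
    s1.eventually (eventually_nhdsWithin_iff.1 (ev_ta H (hn.and ((ev_lg H).and ((ev_at (geo H)).and
      ((geo H).la.eventually_ge_atTop (t + 2))))))), s1.eventually (Ici_mem_nhds s2),
    (tendsto_iff_norm_sub_tendsto_zero.1 ul.z).eventually_le_const ε0, eventually_all.2 fun k =>
      (tendsto_iff_norm_sub_tendsto_zero.1 (cl k).choose_spec).eventually_le_const ε0]
    with i ⟨ha, u, v, k1, ag, k2⟩ lp k3 k4 k5 k6
  have e1 := (s3 a _ H.hd _ k4).1
  obtain ⟨τ, e2, gn, T, G, hl⟩ := k3 (e1 ▸ ha.2.2.1 _ (fr0 _))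
  have e3 : d.ln (y i) = nl τ := congrArg nl (e1.trans e2.symm)
  rw [e3] at ag k2
  have tk : ∀ w ∈ (d.φ τ).source, (d.KX τ).tm (d.φ τ w) ∉ Icc t (nl τ - t) →
      ∀ᶠ w' in 𝓝 w, gG d τ t v (g i) (d.φ τ w') = g i w' := fun w hw k => by
    filter_upwards [(d.φ τ).open_source.mem_nhds hw, ((d.KX τ).cont.continuousAt.comp
      ((d.φ τ).continuousAt hw)).eventually (isClosed_Icc.isOpen_compl.mem_nhds k)] with w' a1 a2
    rw [gG, if_neg (show (d.KX τ).tm (d.φ τ w') ∉ _ from a2), (d.φ τ).left_inv a1]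
  have gp : ∀ x, GP (d.FX τ).F0 (J.G M.c0 (y i).s).F (y i).x (d.rf τ u) (gG d τ t v (g i)) (θ i) j
      (ε * exp (-((δ + e₁) / 2) * d.hX τ x)) x := fun x => by
    by_cases hx : (d.KX τ).tm x ∈ Icc t (nl τ - t)
    · obtain ⟨a1, a2⟩ := nk_pt H T (by linarith) hx
      have a3 : x ∈ (d.ψ τ).target := G.ψ.2.2.1 ▸ show 0 < d.hX τ x by linarith
      obtain ⟨z, hz, rfl⟩ : ∃ z ∈ (d.ψ τ).source, d.ψ τ z = x :=
        ⟨_, (d.ψ τ).map_target a3, (d.ψ τ).right_inv a3⟩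
      rw [tm_ψ H T hz] at hx a2
      refine (gn _ ha u _ v _ _ (win d.Y (z.2 + nl τ / 2) 1) (e1.trans e2.symm) z hz ?_
        ⟨trivial, sub_lt_self _ one_pos, lt_add_one _⟩ (k2 _ hx)).mono ?_
      · filter_upwards [(d.ψ τ).open_source.mem_nhds hz, (show Continuous fun z : d.Y × ℝ =>
          z.2 + nl τ / 2 by fun_prop).continuousAt.eventually (Ioo_mem_nhds
            (show t - 1 < z.2 + nl τ / 2 by linarith [hx.1])
            (show z.2 + nl τ / 2 < nl τ - t + 1 by linarith [hx.2]))] with z' a4 a5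
        exact gG_nk H T G ag (by linarith) (by linarith) (hx.1.trans hx.2) a4 a5
      rw [← (G.ψ.2.2.2 z hz).1]
      generalize d.hX τ (d.ψ τ z) = s at a1 a2
      have a4 : ∀ c m b : ℝ, e₁ ≤ b → s ≤ m → c * exp (-b * m) ≤ |c| * exp (-e₁ * s) :=
        fun c m b a5 a6 => mul_le_mul (le_abs_self _) (exp_le_exp.2 (by nlinarith)) (exp_pos _).le
          (abs_nonneg _)
      refine (add_le_add (a4 _ _ _ b2 a2) (a4 _ _ _ b3 le_rfl)).trans ?_
      rw [← add_mul]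
      refine le_trans ?_ (mul_le_mul_of_nonneg_right t4 (exp_pos _).le)
      rw [mul_assoc, comp_apply, ← exp_add]
      exact mul_le_mul_of_nonneg_left (exp_le_exp.2 (by simp only [id]; nlinarith)) (by positivity)
    · have a1 := tk_pt H T (by linarith) hx
      have a3 : x ∈ (d.φ τ).target := G.φ.2.2.1 ▸ show d.hX τ x < _ by linarith
      obtain ⟨w, hw, rfl⟩ : ∃ w ∈ (d.φ τ).source, d.φ τ w = x :=
        ⟨_, (d.φ τ).map_target a3, (d.φ τ).right_inv a3⟩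
      have a2 := (G.φ.2.2.2 w hw).1
      refine (ht τ G _ u _ _ _ η ha.2.2.1 w (by linarith) (tk w hw hx) (lp w (by linarith))).mono
        (((add_le_add_right (mul_le_mul_of_nonneg_left k1 Ct0) _).trans η2).trans
          (mul_le_mul_of_nonneg_left (exp_le_exp.2 (by nlinarith)) ε0.le))
  refine ⟨τ, u, θ i, gG d τ t v (g i), e2, ⟨fun x _ => (gp x).iso.su x rfl,
    fun x _ => (gp x).iso.iso x rfl, fun x _ => (gp x).iso.J x rfl, fun x _ => (gp x).iso.ρ x rfl,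
    fun x _ => (gp x).iso.j x rfl⟩, fun b w hw x => ((gp x).A b).Dw w hw,
    fun w hw x => (gp x).P.Dw w hw, k1.trans η1, k5, fun k => ⟨(cl k).choose i, ?_⟩⟩
  have a1 : (J.cut (J.cf a) k).x0 ∈ (d.φ τ).source :=
    G.φ.2.1 ▸ show d.hS _ < d.la τ by linarith [t3 k]
  have a2 := (congrArg (gG d τ t v (g i)) (φ_x0 H τ k).symm).trans (tk _ a1 fun a2 => by
    linarith [(nk_pt H T (by linarith) a2).1, (G.φ.2.2.2 _ a1).1, t3 k]).self_of_nhds
  exact (congrArg (fun s : CL (y i).x.m.V d.y.x.m.V => ‖(csE d.Jc ((cl k).choose i) ∘L s).compLpL 2 μc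
    ((y i).ψ k : L2c (Fin (y i).x.m.N)) - (d.y.ψ k : L2c (Fin d.N))‖) a2).trans_le (k6 k)

end Crest.Agent.X212.Dgr80
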