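import Crest.Agent.X212.Dgr80.Defs
import Crest.Agent.X212.Wz78.Var
import Crest.Agent.X212.Mp86.Res

/-!
# Row 212, DGR (helper80): the translation identity for the engine
-/

set_option autoImplicit false
set_option linter.unusedSectionVars false
noncomputable section
open scoped Manifold ContDiff Topology InnerProductSpace
open MeasureTheory Set Function Filter

namespace Crest.Agent.X212.Dgr80
open An Wz78 Sob92
open Wrd81 (wd)
open Mp86 (Mc)

variable {E : Type} [NormedAddCommGroup E] [NormedSpace ℝ E] [FiniteDimensional ℝ E]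
  [MeasurableSpace E] [BorelSpace E]
  {HM : Type} [TopologicalSpace HM] {I : ModelWithCorners ℝ E HM}
  {M : Type} [TopologicalSpace M] [ChartedSpace HM M] [IsManifold I ∞ M]
  [MeasurableSpace M] [T2Space M] [BorelSpace M] {ι : Type} [Fintype ι]
  {V U : Type} [NormedAddCommGroup V] [InnerProductSpace ℝ V]
  [NormedAddCommGroup U] [InnerProductSpace ℝ U]
  {F : Fr I M ι} {A : ι → M → CL V V} {a₀ : ι} {O : Set M} {θ : M → ℝ} {u v w l : M → V}

variable (I) in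
/-- smooth with compact support in `O` -/
structure Ts {N : Type} [NormedAddCommGroup N] [NormedSpace ℝ N] (O : Set M) (w : M → N) :
    Prop where
  sm : Sm I w
  hc : HasCompactSupport w
  sub : tsupport w ⊆ O

section ts
variable {N N' : Type} [NormedAddCommGroup N] [NormedSpace ℝ N] [NormedAddCommGroup N']
  [NormedSpace ℝ N']

theorem Ts.of_supp {f : M → N} {g : M → N'} (hf : Ts I O f) (hg : Sm I g)
    (h : tsupport g ⊆ tsupport f) : Ts I O g :=
  ⟨hg, hf.hc.of_isClosed_subset (isClosed_tsupport _) h, h.trans hf.sub⟩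

theorem Ts.of_zero {f : M → N} {g : M → N'} (hf : Ts I O f) (hg : Sm I g)
    (h : ∀ x, f x = 0 → g x = 0) : Ts I O g :=
  hf.of_supp hg (closure_mono fun x hx h0 => hx (h x h0))

theorem Ts.zero {f : M → N} (hf : Ts I O f) {x : M} (hx : x ∉ O) : f x = 0 :=
  image_eq_zero_of_notMem_tsupport fun h => hx (hf.sub h)

theorem Ts.D {f : M → N} (hf : Ts I O f) (a : ι) : Ts I O (F.D a f) :=
  hf.of_supp (F.sm_D hf.sm a) (F.tsupport_D f a)

theorem Ts.smul {g : M → N} (hθ : Ts I O θ) (hg : Sm I g) : Ts I O fun x => θ x • g x :=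
  hθ.of_zero (hθ.sm.smul hg) fun x hx => by simp [hx]

theorem Ts.mul {g : M → ℝ} (hθ : Ts I O θ) (hg : Sm I g) : Ts I O fun x => θ x * g x :=
  hθ.smul hg

theorem Ts.add {f g : M → N} (hf : Ts I O f) (hg : Ts I O g) : Ts I O fun x => f x + g x :=
  ⟨hf.sm.add hg.sm, hf.hc.add hg.hc, (tsupport_add f g).trans (union_subset hf.sub hg.sub)⟩

theorem Ts.int {f : M → ℝ} (hf : Ts I O f) (F : Fr I M ι) : Integrable f F.μ := integ hf.sm hf.hc

theorem sm_inner (hu : Sm I u) (hw : Sm I w) : Sm I fun x => ⟪u x, w x⟫_ℝ := fun x =>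
  SA.inner (hu x) (hw x)

theorem Ts.inner (hu : Sm I u) (hw : Ts I O w) : Ts I O fun x => ⟪u x, w x⟫_ℝ :=
  hw.of_zero (sm_inner hu hw.sm) fun x hx => by simp [hx]

theorem Ts.nab (hA : ∀ a, Sm I (A a)) (hw : Ts I O w) (a : ι) : Ts I O (nab I F.e A a w) := by
  have h1 : Ts I O fun x => A a x (w x) :=
    hw.of_zero ((hA a).clm_apply hw.sm) fun x hx => by simp [hx]
  exact (hw.D (F := F) a).add h1

theorem sm_sum {κ : Type*} (s : Finset κ) {f : κ → M → N} (hf : ∀ k, Sm I (f k)) :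
    Sm I fun x => ∑ k ∈ s, f k x := fun x => SA.sum s fun k _ => hf k x

end ts

/-- integration by parts along a divergence free direction -/
theorem ibp0 (hA : Mc I A) (hdv : ∀ x ∈ O, F.dv a₀ x = 0) (hu : Sm I u) (hw : Ts I O w) :
    ∫ x, ⟪nab I F.e A a₀ u x, w x⟫_ℝ ∂F.μ = -∫ x, ⟪u x, nab I F.e A a₀ w x⟫_ℝ ∂F.μ := by
  have h1 := F.ibp a₀ _ (hw.inner hu).sm (hw.inner hu).hc
  have h2 : ∀ x, F.dv a₀ x * ⟪u x, w x⟫_ℝ = 0 := fun x => by
    by_cases hx : x ∈ O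
    · rw [hdv x hx, zero_mul]
    · rw [hw.zero hx, inner_zero_right, mul_zero]
  simp only [h2, integral_zero, neg_zero] at h1
  have h3 : F.D a₀ (fun x => ⟪u x, w x⟫_ℝ) = fun x =>
      ⟪nab I F.e A a₀ u x, w x⟫_ℝ + ⟪u x, nab I F.e A a₀ w x⟫_ℝ := funext fun x =>
    dv_inner a₀ (hA.sk a₀ x) (hu x) (hw.sm x)
  rw [h3, integral_add ((hw.inner (sm_nab hA.sm a₀ hu)).int F)
    (((hw.nab hA.sm a₀).inner hu).int F)] at h1
  linarith

theorem ibp0_fun (hdv : ∀ x ∈ O, F.dv a₀ x = 0) {f : M → ℝ} (hf : Ts I O f) :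
    ∫ x, F.D a₀ f x ∂F.μ = 0 := by
  have h1 := F.ibp a₀ _ hf.sm hf.hc
  have h2 : ∀ x, F.dv a₀ x * f x = 0 := fun x => by
    by_cases hx : x ∈ O
    · rw [hdv x hx, zero_mul]
    · rw [hf.zero hx, mul_zero]
  simpa only [h2, integral_zero, neg_zero] using h1

theorem nab_comm0 (hA : Mc I A) {x : M} (hc : ∀ a l, F.c a₀ a l x = 0) (hu : Sm I u) (a : ι) :
    nab I F.e A a (nab I F.e A a₀ u) x =
      nab I F.e A a₀ (nab I F.e A a u) x - curv I F.e F.c A a₀ a x (u x) := by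
  rw [← (frm F).nab_comm (fun a => hA.sm a x) a₀ a (hu x)]
  simp [hc]

variable (F A a₀) in
/-- the error density of one resolvent -/
def eb (θ : M → ℝ) (v l : M → V) (x : M) : ℝ :=
  2 * F.D a₀ θ x * ⟪nab I F.e A a₀ v x, nab I F.e A a₀ l x⟫_ℝ +
    F.D a₀ (F.D a₀ θ) x * ⟪nab I F.e A a₀ v x, l x⟫_ℝ

theorem ts_eb (hA : Mc I A) (hθ : Ts I O θ) (hv : Sm I v) (hl : Sm I l) :
    Ts I O (eb F A a₀ θ v l) := by
  have h1 := (hθ.D (F := F) a₀).mul ((contMDiff_const (c := (2 : ℝ))).mul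
    (sm_inner (sm_nab (F := F) hA.sm a₀ hv) (sm_nab (F := F) hA.sm a₀ hl)))
  have h2 := ((hθ.D (F := F) a₀).D (F := F) a₀).mul (sm_inner (sm_nab (F := F) hA.sm a₀ hv) hl)
  convert h1.add h2 using 1
  funext x; simp only [eb, Pi.mul_apply]; ring

/-- the identity for one resolvent -/
theorem blk (hA : Mc I A) (hdv : ∀ x ∈ O, F.dv a₀ x = 0) (hc : ∀ x ∈ O, ∀ a l, F.c a₀ a l x = 0)
    (hθ : Ts I O θ) (hθ0 : ∀ a x, a ≠ a₀ → F.D a θ x = 0) (hv : Sm I v) {l' : M → V}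
    (hl : Sm I l') (eu : ∀ x, v x + lap I F.e F.dv A v x = u x)
    (el : ∀ x, l' x + lap I F.e F.dv A l' x = l x) :
    ∫ x, θ x * ⟪nab I F.e A a₀ v x, l x⟫_ℝ ∂F.μ =
      ∫ x, θ x * ⟪nab I F.e A a₀ u x, l' x⟫_ℝ ∂F.μ -
      ∫ x, θ x * ∑ a, (⟪nab I F.e A a l' x, curv I F.e F.c A a₀ a x (v x)⟫_ℝ +
        ⟪nab I F.e A a v x, curv I F.e F.c A a₀ a x (l' x)⟫_ℝ) ∂F.μ +
      ∫ x, eb F A a₀ θ v l' x ∂F.μ := by
  have sN : ∀ a {u : M → V}, Sm I u → Sm I (nab I F.e A a u) := fun a _ h => sm_nab hA.sm a h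
  have sK := sm_curv (F := F) hA.sm a₀
  have hu : Sm I u := by rw [← funext eu]; exact hv.add (sm_lap hA.sm hv)
  have hφ : Ts I O fun x => θ x • l' x := hθ.smul hl
  have hψ : Ts I O fun x => θ x • nab I F.e A a₀ v x := hθ.smul (sN a₀ hv)
  have hφ1 := hφ.nab (F := F) hA.sm a₀
  set X := ∫ x, θ x * ⟪nab I F.e A a₀ v x, l' x⟫_ℝ ∂F.μ with hX
  have iX := (hθ.mul (sm_inner (sN a₀ hv) hl)).int F
  have eA : ∫ x, θ x * ⟪nab I F.e A a₀ v x, l x⟫_ℝ ∂F.μ = X + ∑ a, ∫ x, ⟪nab I F.e A a l' x,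
      nab I F.e A a (fun x => θ x • nab I F.e A a₀ v x) x⟫_ℝ ∂F.μ := by
    rw [← integral_finsetSum _ fun a _ => ((hψ.nab hA.sm a).inner (sN a hl)).int F,
      ← integral_lap hA.sm hA.sk hl hψ.sm hψ.hc, hX,
      ← integral_add iX ((hψ.inner (sm_lap hA.sm hl)).int F)]
    congr 1; funext x
    rw [← el x, inner_add_right, real_inner_smul_right, real_inner_comm (lap _ _ _ _ _ x)]; ring
  have eB : ∫ x, θ x * ⟪nab I F.e A a₀ u x, l' x⟫_ℝ ∂F.μ = X - ∑ a, ∫ x, ⟪nab I F.e A a v x,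
      nab I F.e A a (nab I F.e A a₀ fun x => θ x • l' x) x⟫_ℝ ∂F.μ := by
    have h1 := ibp0 hA hdv hu hφ
    have h2 := ibp0 hA hdv hv hφ
    simp only [real_inner_smul_right] at h1 h2
    rw [h1, hX, h2, ← integral_finsetSum _ fun a _ => ((hφ1.nab hA.sm a).inner (sN a hv)).int F,
      ← integral_lap hA.sm hA.sk hv hφ1.sm hφ1.hc, ← neg_add',
      ← integral_add ((hφ1.inner hv).int F) ((hφ1.inner (sm_lap hA.sm hv)).int F)]
    congr 2; funext x
    rw [← eu x, inner_add_left]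
  have eC : ∀ a, ∫ x, ⟪nab I F.e A a v x,
      nab I F.e A a (nab I F.e A a₀ fun x => θ x • l' x) x⟫_ℝ ∂F.μ =
      -∫ x, ⟪nab I F.e A a₀ (nab I F.e A a v) x, nab I F.e A a (fun x => θ x • l' x) x⟫_ℝ ∂F.μ -
        ∫ x, θ x * ⟪nab I F.e A a v x, curv I F.e F.c A a₀ a x (l' x)⟫_ℝ ∂F.μ := fun a => by
    rw [ibp0 hA hdv (sN a hv) (hφ.nab hA.sm a), neg_neg,
      ← integral_sub ((((hφ.nab hA.sm a).nab hA.sm a₀).inner (sN a hv)).int F)
        ((hθ.mul (sm_inner (sN a hv) ((sK a).clm_apply hl))).int F)]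
    congr 1; funext x
    by_cases hx : x ∈ O
    · rw [nab_comm0 hA (hc x hx) hφ.sm, inner_sub_right, map_smul, real_inner_smul_right]
    · rw [(hφ1.nab hA.sm a).zero hx, ((hφ.nab hA.sm a).nab hA.sm a₀).zero hx, hθ.zero hx]; simp
  have eD : ∀ a, ∫ x, ⟪nab I F.e A a l' x,
      nab I F.e A a (fun x => θ x • nab I F.e A a₀ v x) x⟫_ℝ ∂F.μ -
      ∫ x, ⟪nab I F.e A a₀ (nab I F.e A a v) x, nab I F.e A a (fun x => θ x • l' x) x⟫_ℝ ∂F.μ =
      ∫ x, F.D a θ x * (⟪nab I F.e A a₀ v x, nab I F.e A a l' x⟫_ℝ -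
        ⟪nab I F.e A a₀ (nab I F.e A a v) x, l' x⟫_ℝ) ∂F.μ -
      ∫ x, θ x * ⟪nab I F.e A a l' x, curv I F.e F.c A a₀ a x (v x)⟫_ℝ ∂F.μ := fun a => by
    rw [← integral_sub (((hψ.nab hA.sm a).inner (sN a hl)).int F)
        (((hφ.nab hA.sm a).inner (sN a₀ (sN a hv))).int F),
      ← integral_sub (((hθ.D a).mul ((sm_inner (sN a₀ hv) (sN a hl)).sub
        (sm_inner (sN a₀ (sN a hv)) hl))).int F)
        ((hθ.mul (sm_inner (sN a hl) ((sK a).clm_apply hv))).int F)]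
    congr 1; funext x
    rw [nab_smul a (hθ.sm x) (sN a₀ hv x), nab_smul a (hθ.sm x) (hl x)]
    by_cases hx : x ∈ O
    · rw [nab_comm0 hA (hc x hx) hv]
      simp only [inner_add_right, inner_sub_right, real_inner_smul_right, smul_sub, Pre.D_def,
        real_inner_comm (nab I F.e A a l' x)]
      ring
    · have := (hθ.D (F := F) a).zero hx
      rw [Pre.D_def] at this
      simp [this, hθ.zero hx, Pre.D_def]
  have eE : ∑ a, ∫ x, F.D a θ x * (⟪nab I F.e A a₀ v x, nab I F.e A a l' x⟫_ℝ -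
      ⟪nab I F.e A a₀ (nab I F.e A a v) x, l' x⟫_ℝ) ∂F.μ = ∫ x, eb F A a₀ θ v l' x ∂F.μ := by
    rw [Finset.sum_eq_single a₀ (fun a _ ha => by simp [hθ0 a _ ha]) (by simp)]
    have t1 := hθ.D (F := F) a₀
    have h1 := ibp0 hA hdv (sN a₀ hv) (t1.smul hl)
    have i1 := (t1.mul (sm_inner (sN a₀ hv) (sN a₀ hl))).int F
    have i2 := (t1.mul (sm_inner (sN a₀ (sN a₀ hv)) hl)).int F
    simp only [real_inner_smul_right] at h1
    simp only [mul_sub]
    rw [integral_sub i1 i2, h1, sub_neg_eq_add,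
      ← integral_add i1 ((((t1.smul hl).nab hA.sm a₀).inner (sN a₀ hv)).int F)]
    congr 1; funext x
    rw [nab_smul a₀ (t1.sm x) (hl x)]
    simp only [eb, inner_add_right, real_inner_smul_right, Pre.D_def]
    ring
  have eF : ∫ x, θ x * ∑ a, (⟪nab I F.e A a l' x, curv I F.e F.c A a₀ a x (v x)⟫_ℝ +
        ⟪nab I F.e A a v x, curv I F.e F.c A a₀ a x (l' x)⟫_ℝ) ∂F.μ =
      ∑ a, (∫ x, θ x * ⟪nab I F.e A a l' x, curv I F.e F.c A a₀ a x (v x)⟫_ℝ ∂F.μ +
        ∫ x, θ x * ⟪nab I F.e A a v x, curv I F.e F.c A a₀ a x (l' x)⟫_ℝ ∂F.μ) := by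
    have i1 := fun a => (hθ.mul (sm_inner (sN a hl) ((sK a).clm_apply hv))).int F
    have i2 := fun a => (hθ.mul (sm_inner (sN a hv) ((sK a).clm_apply hl))).int F
    simp only [Finset.mul_sum, mul_add]
    exact (integral_finsetSum _ fun a _ => (i1 a).add (i2 a)).trans
      (Finset.sum_congr rfl fun a _ => integral_add (i1 a) (i2 a))
  rw [eA, eB, eF, ← eE, Finset.sum_congr rfl fun a _ => eC a,
    Finset.sum_congr rfl fun a _ => sub_eq_iff_eq_add.1 (eD a)]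
  simp only [Finset.sum_add_distrib, Finset.sum_sub_distrib, Finset.sum_neg_distrib]
  ring

variable [CompleteSpace V] [CompleteSpace U] {r : CL U (CL V V)} {α : M → Fm ι U}
  {Q : (M → V) → Prop}

theorem inner_cur (x : M) (ξ : Fm ι U) : ⟪ξ, cur F A r v l x⟫_ℝ =
    ∑ a, (⟪nab I F.e A a l x, r (ξ a) (v x)⟫_ℝ + ⟪nab I F.e A a v x, r (ξ a) (l x)⟫_ℝ) := by
  rw [real_inner_comm, PiLp.inner_apply]
  exact Finset.sum_congr rfl fun a _ => by rw [cur, inner_add_left, inner_tp, inner_tp]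

theorem sm_tp (hv : Sm I v) (hl : Sm I l) : Sm I fun x => tp r (v x) (l x) := by
  have h1 : Sm I fun x => r.flip (v x) := r.flip.contMDiff.comp hv
  have h2 : Sm I fun x => ContinuousLinearMap.adjoint (r.flip (v x)) :=
    (ContinuousLinearMap.adjoint (𝕜 := ℝ) (E := U) (F := V)).contDiff.contMDiff.comp h1
  exact h2.clm_apply hl

theorem sm_toLp {α' N : Type} [Fintype α'] [NormedAddCommGroup N] [InnerProductSpace ℝ N]
    {f : α' → M → N} (hf : ∀ a, Sm I (f a)) :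
    Sm I fun x => (WithLp.toLp 2 fun a => f a x : Fm α' N) :=
  (PiLp.continuousLinearEquiv 2 ℝ fun _ : α' => N).symm.contDiff.contMDiff.comp
    (contMDiff_pi_space.2 hf)

theorem sm_cur (hA : ∀ a, Sm I (A a)) (hv : Sm I v) (hl : Sm I l) : Sm I (cur F A r v l) :=
  sm_toLp fun a => (sm_tp hv (sm_nab hA a hl)).add (sm_tp hl (sm_nab hA a hv))

variable (F A) in
/-- a class of smooth sections on which the resolvent is a true solution -/
structure Cls (Q : (M → V) → Prop) : Prop where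
  sm : ∀ u, Q u → Sm I u
  res : ∀ u, Q u → F.IsRes A u (F.res A u)
  G : ∀ u, Q u → Q (F.res A u)

/-- the letter preserves the class -/
def SL.Ok (Q : (M → V) → Prop) : SL M V → Prop
  | .op T => ∀ u, Q u → Q (fun x => T x (u x)) ∧
      Q fun x => ContinuousLinearMap.adjoint (T x) (u x)
  | .G => True

variable (F A a₀ O) in
/-- the letter is smooth and parallel in the direction `a₀` over `O` -/
def SL.Par : SL M V → Prop
  | .op T => Sm I T ∧ ∀ x ∈ O, nabE I F.e A a₀ T x = 0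
  | .G => True

theorem Cls.sl (h : Cls F A Q) {t : SL M V} (ht : t.Ok Q) (hu : Q u) : Q (sl F A t u) := by
  cases t with
  | op T => exact (ht u hu).1
  | G => exact h.G u hu

theorem Cls.slT (h : Cls F A Q) {t : SL M V} (ht : t.Ok Q) (hu : Q u) : Q (slT F A t u) := by
  cases t with
  | op T => exact (ht u hu).2
  | G => exact h.G u hu

theorem Cls.wd (h : Cls F A Q) {s : M → V} (hs : Q s) :
    ∀ {w : List (SL M V)}, (∀ t ∈ w, t.Ok Q) → Q (wd (Dgr80.sl F A) s w)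
  | [], _ => hs
  | t :: _, hw => h.sl (hw t (by simp)) (h.wd hs fun t ht => hw t (by simp [ht]))

theorem Cls.bk (h : Cls F A Q) :
    ∀ {w : List (SL M V)} {l : M → V}, (∀ t ∈ w, t.Ok Q) → Q l → Q (bk F A w l)
  | [], _, _, hl => hl
  | t :: w, l, hw, hl => Cls.bk h (w := w) (l := Dgr80.slT F A t l)
      (fun t ht => hw t (by simp [ht])) (h.slT (hw t (by simp)) hl)

theorem Cls.sm_gc (h : Cls F A Q) (hA : ∀ a, Sm I (A a)) {s : M → V} :
    ∀ {w : List (SL M V)} {l : M → V}, (∀ t ∈ w, t.Ok Q) → Q l → Sm I (gc F A r s w l)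
  | [], _, _, _ => contMDiff_const
  | .op T :: w, l, hw, hl => Cls.sm_gc h hA (w := w) (l := Dgr80.slT F A (.op T) l)
      (fun t ht => hw t (by simp [ht])) (h.slT (hw (.op T) (by simp)) hl)
  | .G :: w, l, hw, hl => (Cls.sm_gc h hA (w := w) (l := F.res A l)
      (fun t ht => hw t (by simp [ht])) (h.G _ hl)).sub
      (sm_cur hA (Mp86.sm_res _ _ _) (Mp86.sm_res _ _ _))

variable (F A a₀) in
/-- the total error density of a word -/
def er (θ : M → ℝ) (s : M → V) : List (SL M V) → (M → V) → M → ℝ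
  | [], _ => 0
  | .op T :: w, l => er θ s w (slT F A (.op T) l)
  | .G :: w, l => fun x => er θ s w (F.res A l) x +
      eb F A a₀ θ (F.res A (wd (sl F A) s w)) (F.res A l) x

theorem int_er (hA : Mc I A) (hθ : Ts I O θ) (s : M → V) :
    ∀ (w : List (SL M V)) (l : M → V), Integrable (er F A a₀ θ s w l) F.μ
  | [], _ => integrable_zero _ _ _
  | .op _ :: w, _ => int_er hA hθ s w _
  | .G :: w, _ => (int_er hA hθ s w _).add
      ((ts_eb hA hθ (Mp86.sm_res _ _ _) (Mp86.sm_res _ _ _)).int F)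

/-- **translation identity**: if `r α` is the curvature `F(e a₀, ·)` on the class `Q`, pairing the
gradient of `∫ ⟪w s, l⟫` with `θ ẋ` gives the time derivative of the word up to the error `er` -/
theorem tr_wd (h : Cls F A Q) (hA : Mc I A) (hdv : ∀ x ∈ O, F.dv a₀ x = 0)
    (hc : ∀ x ∈ O, ∀ a l, F.c a₀ a l x = 0) (hθ : Ts I O θ)
    (hθ0 : ∀ a x, a ≠ a₀ → F.D a θ x = 0) (hα : Sm I α)
    (hK : ∀ u, Q u → ∀ x ∈ O, ∀ a, curv I F.e F.c A a₀ a x (u x) = r (α x a) (u x))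
    {s : M → V} (hs : Q s) : ∀ {w : List (SL M V)} {l : M → V}, (∀ t ∈ w, t.Ok Q) →
      (∀ t ∈ w, t.Par F A a₀ O) → Q l →
      ∫ x, θ x * ⟪α x, gc F A r s w l x⟫_ℝ ∂F.μ +
        ∫ x, θ x * ⟪nab I F.e A a₀ s x, bk F A w l x⟫_ℝ ∂F.μ =
      ∫ x, θ x * ⟪nab I F.e A a₀ (wd (sl F A) s w) x, l x⟫_ℝ ∂F.μ -
        ∫ x, er F A a₀ θ s w l x ∂F.μ
  | [], l, _, _, _ => by simp [gc, bk, er]
  | .op T :: w, l, hw, hp, hl => by
    have hw' : ∀ t ∈ w, t.Ok Q := fun t ht => hw t (by simp [ht])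
    have ih := tr_wd h hA hdv hc hθ hθ0 hα hK hs hw' (fun t ht => hp t (by simp [ht]))
      (h.slT (hw (.op T) (by simp)) hl)
    obtain ⟨h1, h2⟩ := hp (.op T) (by simp)
    rw [gc, bk, er, ih]
    congr 2; funext x
    by_cases hx : x ∈ O
    · rw [Wrd81.wd_cons, sl, nab_app' a₀ (h1 x) (h.sm _ (h.wd hs hw') x), h2 x hx, slT,
        ContinuousLinearMap.adjoint_inner_right]
      simp
    · simp [hθ.zero hx]
  | .G :: w, l, hw, hp, hl => by
    have hw' : ∀ t ∈ w, t.Ok Q := fun t ht => hw t (by simp [ht])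
    have ih := tr_wd h hA hdv hc hθ hθ0 hα hK hs hw' (fun t ht => hp t (by simp [ht])) (h.G _ hl)
    have hu := h.wd hs hw'
    have e := blk hA hdv hc hθ hθ0 (h.res _ hu).1 (h.res _ hl).1 (h.res _ hu).2.2 (h.res _ hl).2.2
    have e2 : ∫ x, θ x * ∑ a, (⟪nab I F.e A a (F.res A l) x,
        curv I F.e F.c A a₀ a x (F.res A (wd (sl F A) s w) x)⟫_ℝ +
        ⟪nab I F.e A a (F.res A (wd (sl F A) s w)) x, curv I F.e F.c A a₀ a x (F.res A l x)⟫_ℝ)
        ∂F.μ = ∫ x, θ x * ⟪α x, cur F A r (F.res A (wd (sl F A) s w)) (F.res A l) x⟫_ℝ ∂F.μ := by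
      congr 1; funext x
      by_cases hx : x ∈ O
      · simp only [inner_cur, hK _ (h.G _ hu) x hx, hK _ (h.G _ hl) x hx]
      · simp [hθ.zero hx]
    simp only [gc, bk, er, slT, Wrd81.wd_cons, sl, inner_sub_right, mul_sub]
    rw [integral_sub ((hθ.mul (sm_inner hα (h.sm_gc hA.sm hw' (h.G _ hl)))).int F)
      ((hθ.mul (sm_inner hα (sm_cur hA.sm (Mp86.sm_res _ _ _) (Mp86.sm_res _ _ _)))).int F),
      integral_add (int_er hA hθ s w _)
        ((ts_eb hA hθ (Mp86.sm_res _ _ _) (Mp86.sm_res _ _ _)).int F), e, e2]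
    linarith

end Crest.Agent.X212.Dgr80
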