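import Crest.Agent.X212.Dgr80.Uk3
import Crest.Agent.X212.St29.SbA
import Crest.Agent.X212.Mp86.Un
import Crest.Agent.X212.Ink3.Main

/-!
# Row 212, SB-AN (helper80): the spinor and the level on necks, independently of the ambient manifold
-/

set_option autoImplicit false
set_option linter.unusedSectionVars false
open Set Filter Topology Module MeasureTheory
open scoped Manifold ContDiff InnerProductSpace Classical

noncomputable section

namespace Crest.Agent.X212.Dgr80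
open An Wz78 Nd18 Nka63 Cyf70 Sob92
open Mp86 (NK)
open St29.Sb (Chi Nm kL sol_loc)

variable {E3 : Type} [NormedAddCommGroup E3] [NormedSpace ℝ E3] [FiniteDimensional ℝ E3]
  [MeasurableSpace E3] [BorelSpace E3]
  {H3 : Type} [TopologicalSpace H3] {I3 : ModelWithCorners ℝ E3 H3} [I3.Boundaryless]
  {Y : Type} [TopologicalSpace Y] [ChartedSpace H3 Y] [IsManifold I3 ∞ Y] [T2Space Y]
  [MeasurableSpace Y] [BorelSpace Y] [SecondCountableTopology Y] [CompactSpace Y]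
  {κ : Type} [Fintype κ] {lam : Type} [Fintype lam] {D : YD I3 Y κ lam} {N : ND Y lam}

theorem B1.nm {S K : ℝ} {r n : ℕ} {X : NK D S} {τ : Pt X.M (Option κ) lam r n}
    (h : B1 X.B X.G τ K) {c : Cfg X.M (Option κ) lam r} (A : c.Adm X.B X.G) : Nm X.G c τ K :=
  ⟨h.D c A, _, h.C c A, fun _ => le_add_of_nonneg_left h.K0⟩

theorem cb_t {V : Type} [NormedAddCommGroup V] [NormedSpace ℝ V] {f : Y × ℝ → V}
    (hf : Sm (IC I3) f) (e : ∀ x, f x = f (x.1, 0)) : D.Z.Cb f :=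
  funext e ▸ Cht98.Cb_fst _ (Sob92.Cb_of_compact (hf.comp (contMDiff_id.prodMk contMDiff_const)))

variable (hD : D.OK)
include hD

/-- the zeroth order term of the Weitzenboeck formula on necks -/
theorem nk_a : ∃ a, 0 ≤ a ∧ ∀ S (X : NK D S), ∀ x ∈ X.K.ψ.target,
    √(∑ s, fP X.B X.G x s ^ 2) - sc X.G x / 4 ≤ a := by
  have p : ∀ a b, D.Z.Cb (D.B.P a b) := fun a b =>
    cb_t (hD.B.sP a b) fun _ => by cases a <;> cases b <;> rfl
  have s : Mp86.Sf D.Z.toPre (univ : Set ℝ) D.B (fun _ => D.G) fun a b _ => D.Z.P a b :=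
    ⟨fun _ _ => hD.G.P, fun _ _ a x => (D.Z.P_e a x).symm, fun a b => .fixed (p a b), p,
      fun a b c d => cb_t (hD.B.so a b c d) fun _ => rfl, cb_t hD.B.sl fun _ => rfl,
      fun a b k => .fixed (cb_t (D.Z.c_sm a b k) fun _ => by cases a <;> cases b <;> cases k <;> rfl),
      fun a => .fixed (cb_t (hD.G.con.sm a) fun _ => by cases a <;> rfl)⟩
  obtain ⟨a, a0, ha⟩ := s.pscal (isCompact_singleton (x := 0)) (subset_univ _)
  refine ⟨a, a0, fun S X x hx => ?_⟩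
  obtain ⟨z, hz, rfl⟩ : ∃ z ∈ X.K.ψ.source, X.K.ψ z = x := ⟨_, X.K.ψ.map_target hx, X.K.ψ.right_inv hx⟩
  have R := X.K.rel
  have o := X.K.ψ.open_source.eventually_mem hz
  have e1 : ∀ t, fL X.B X.G (X.K.ψ z) t = fL D.B D.G z t := fun t => by
    rw [fL, fL, ← R.curv hz (A := D.G.a) fun a => o.mono fun y hy => (X.K.a a y hy).symm, X.K.l z hz,
      X.K.il]
    rfl
  have e2 : D.B.sd z = X.B.sd (X.K.ψ z) := by
    funext s t
    simp only [Base.sd, Base.st, Base.a2, X.K.o _ _ _ _ z hz, X.K.P _ _ z hz]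
  have e3 : sc X.G (X.K.ψ z) = sc D.G z := by
    have g := fun a b m l => R.D hz a (u := D.Z.Gam b m l) (o.mono fun y hy => R.Gam hy b m l)
    simp only [Pre.D_def] at g
    simp only [sc, scal, Rm, ← g, ← R.Gam hz, ← R.c hz]
    rfl
  simp only [fP, e1, ← e2, e3]
  exact ha 0 rfl z

theorem nk_chi : ∃ N > 0, ∀ S (X : NK D S), Chi X.G.F N X.K.χ := by
  obtain ⟨L, h0, hL⟩ := Uk.nk_geo hD
  obtain ⟨C, hC⟩ := cbs_χ D
  refine ⟨max 1 (Fintype.card (Option κ) * C 2 ^ 2 + Fintype.card (Option κ) * (|C 2| + |C 2| * L)),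
    lt_max_of_lt_left one_pos, fun S X => ?_⟩
  have c := (Mp86.cu_cbs (hC X.K) h0 fun x a => (em _).symm.imp (fun hx => X.D_off (fun y hy =>
    X.K.χ_zero fun e => hy (dp_mono _ (by norm_num) e)) hx a)
      fun hx => (hL ⟨(S, 0), X⟩ x hx).2.1 a).mono (le_max_right 1 _)
  exact ⟨c.sm, fun x => (abs_of_nonneg (χ_mem X.K x).1).trans_le (χ_mem X.K x).2, c.gr, c.lop⟩

/-- **the spinor on a neck** -/
theorem nk_c0 (K : ℝ) : ∃ γ, 0 ≤ γ ∧ ∀ (S : ℝ) (r n : ℕ) (X : NK D S)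
    (c : Cfg X.M (Option κ) lam r) (τ : Pt X.M (Option κ) lam r n) σ, c.Sol X.B X.G τ →
    (∀ x, ‖c.Φ x‖ ^ 2 ≤ σ) → Nm X.G c τ K → ∀ x ∈ O X.K 2, ‖c.Φ x‖ ^ 2 ≤ γ := by
  obtain ⟨a, a0, ha⟩ := nk_a hD
  obtain ⟨N, N0, hN⟩ := nk_chi hD
  exact ⟨kL a (max 1 K) N, by unfold kL; positivity, fun S r n X c τ σ h hσ k x hx =>
    sol_loc X.hb X.hB X.hG h hσ (k.mono (le_max_right 1 K)) (le_max_left 1 K) (hN S X) N0 a0
      (fun y hy => ha S X y (X.K.dp_sub one_pos (by_contra fun e => hy (X.K.χ_zero e))))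
      (χ_one X.K hx)⟩

/-- **the level of a whole neck** -/
theorem nk_full (hN : N.OK D) : ∃ sz : YW I3 Y → ℝ, ∀ R : ℝ, ∃ C, ∀ (S : ℝ) (r n : ℕ)
    (q : YW I3 Y →₀ ℝ) (ν : ℝ) (X : NK D S) (c : Cfg X.M (Option κ) lam r)
    (σ ρ : Pt X.M (Option κ) lam r n) (e : ℝ), Nd18.Sml sz q → |ν| ≤ R → E1L (N.smul ν) q X c σ ρ e →
      -(C * (1 + e)) ≤ ∫ x, X.K.cut 3 (X.K.τ x) * c.m.kd X.B X.G.F c.W x ∂X.G.F.μ := by
  refine (en1L hD hN).imp fun sz h R => (h R).elim fun C h => ⟨|C|, fun S r n q ν X c σ ρ e a b k => ?_⟩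
  have h1 := h S r n q ν X c σ ρ e a b k
  have e0 := k.ρ.nonneg fun x => mul_nonneg ct_mem.1 (by positivity)
  have E0 : 0 ≤ ∫ x, X.K.cut 3 (X.K.τ x) * en X.G.F c X.K.τ x ∂X.G.F.μ :=
    integral_nonneg fun x => mul_nonneg ct_mem.1 (en_nonneg _ _ _ _)
  have c1 := mul_le_mul_of_nonneg_right (le_abs_self C) (show 0 ≤ 1 + e by linarith)
  have c0 : 0 ≤ |C| * (1 + e) := by positivity
  have p : 1 ≤ 16 * Real.pi ^ 2 := by nlinarith [Real.pi_gt_three]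
  by_contra! hc
  nlinarith

/-- **the level of a window** of a neck without terms -/
theorem nk_win (hN : N.OK D) (h0 : Ink3.Nil N) : ∃ C, ∀ (S : ℝ) (r n : ℕ) (X : NK D S)
    (c : Cfg X.M (Option κ) lam r) (σ ρ : Pt X.M (Option κ) lam r n) (e a a' : ℝ),
    E1L N 0 X c σ ρ e → Sb X.K.p X.K.q a a' →
      -(C * (1 + e)) ≤ ∫ x, θc a a' (X.K.τ x) * c.m.kd X.B X.G.F c.W x ∂X.G.F.μ := by
  obtain ⟨C, C1, hC⟩ := exists_ew hD hN
  have v := vY_nonneg D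
  refine ⟨4 * (vY D * (80 * cA)) + cA + 2, fun S r n X c σ ρ e a a' h T => ?_⟩
  have hK : B1 X.B X.G (N.q1 X.K : Pt _ _ _ r n) 0 := h0.q1 X.K ▸
    ⟨le_rfl, fun c a => Mp86.Ctl.zero zero_le_one (fun _ => Mp86.gr2_nonneg) le_rfl,
      fun c _ => by simpa [Ink3.pz] using Mp86.Dom.zero (F := X.G.F) le_rfl⟩
  obtain ⟨ϖ, hϖ⟩ := h.amb
  have := h0.J0
  have := h0.J2
  have l := hC S r X c ϖ _ h.gd.adm hϖ ⟨h.en, le_rfl⟩
  set E := C * ∫ x, X.K.cut 3 (X.K.τ x) * en X.G.F c X.K.τ x ∂X.G.F.μ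
  have E0 : 0 ≤ vY D * E := mul_nonneg v (l.nonneg (Mp86.ct_ew X h.gd.adm).2)
  have key := h.loc hD hN.δ0 (k := 4 * (vY D * E) + 1) (by linarith) (sml_zero _) T hK l (W := 0)
    (by simp [DG.gA, DG.gP])
  have e0 := h.ρ.nonneg fun x => mul_nonneg ct_mem.1 (by positivity)
  have b0 : 0 ≤ ∫ x, θc a a' (X.K.τ x) * en X.G.F c X.K.τ x ∂X.G.F.μ :=
    integral_nonneg fun x => mul_nonneg ct_mem.1 (en_nonneg _ _ _ _)
  have b1 : 4 * (4 * (vY D * E) + 1)⁻¹ * (vY D * E) ≤ 1 := by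
    rw [mul_right_comm, mul_inv_le_iff₀ (by linarith)]; linarith
  have p : 1 ≤ 8 * Real.pi ^ 2 := by nlinarith [Real.pi_gt_three]
  have a1 := one_le_cA
  have c0 : 0 ≤ vY D * (80 * cA) := by positivity
  have c1 := mul_nonneg (zero_le_one.trans a1) e0
  have c2 := mul_nonneg c0 e0
  by_contra! hc
  nlinarith

end Crest.Agent.X212.Dgr80
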