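import Crest.Agent.X212.Dgr80.Uk2

/-!
# Row 212, LOC-K (helper80): the energy estimate on a neck with a local bound of the spinor
-/

set_option autoImplicit false
set_option linter.unusedSectionVars false
open Set Filter Topology Module MeasureTheory
open scoped Manifold ContDiff InnerProductSpace Classical

noncomputable section

namespace Crest.Agent.X212.Dgr80
open An Wz78 Wrd81 Nd18 Nka63 Cyf70 Sob92
open Mp86 (NK B0 DB Ctl Dom gr2 gr2_nonneg fn_time opr_pp opr_cl norm_p2 Bumps)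

section gen
variable {E : Type} [NormedAddCommGroup E] [NormedSpace ℝ E] [FiniteDimensional ℝ E]
  [MeasurableSpace E] [BorelSpace E]
  {HM : Type} [TopologicalSpace HM] {I : ModelWithCorners ℝ E HM} [I.Boundaryless]
  {M : Type} [TopologicalSpace M] [ChartedSpace HM M] [IsManifold I ∞ M]
  [MeasurableSpace M] [T2Space M] [BorelSpace M] [SecondCountableTopology M]
  {ι : Type} [Fintype ι] {lam : Type} [Fintype lam] {r n : ℕ}
  {B : Base M ι lam} {G : Geo I M ι lam} {N : ℕ} {K k : ℝ}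

/-- `B0` without a bound of the spinor -/
structure B1 (B : Base M ι lam) (G : Geo I M ι lam) (τ : Pt M ι lam r n) (K : ℝ) : Prop where
  K0 : 0 ≤ K
  D : ∀ c : Cfg M ι lam r, c.Adm B G → Ctl G.F (gr2 I G.F.e c.W c.Φ) 1 K c.W (τ.D c)
  C : ∀ c : Cfg M ι lam r, c.Adm B G → Dom G.F K fun x => ‖τ.C c x‖ ^ 2

theorem B1.b0 {τ : Pt M ι lam r n} (h : B1 B G τ K) : B0 B G τ K :=
  ⟨h.K0, fun c _ a h1 _ => (h.D c a).up h.K0 h1, h.C⟩

theorem dg_b1 (hB : B.OK I) {J : Type} [Fintype J] [DecidableEq J] {D : DG M ι lam r J} {L : ℝ} (hN : 1 ≤ N)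
    (hτ : Mp86.Gd G.F N D.τ) (hd : ∀ j, DB B G (D.d j) k) (hk : 0 ≤ k) (hδ : ∀ j, 0 < D.δ j)
    (hcb : ∀ j, cb (D.δ j) 1 ≤ N) (hL : 1 ≤ L) (hc : ∀ c, c.Adm B G → ∀ j,
      Continuous (D.co G.F c j) ∧ ∀ t, |D.co G.F c j t| ≤ L) :
    B1 B G (D.q1 B G.F : Pt M ι lam r n)
      (64 * N * (2 ^ Fintype.card J * ∑ _j : J, k * ((N * L) ^ 2 * N))) := by
  have N1 : (1 : ℝ) ≤ N := by exact_mod_cast hN
  have a1 := one_le_mul_of_one_le_of_one_le N1 hL
  have a2 := one_le_mul_of_one_le_of_one_le (one_le_pow₀ (n := 2) a1) N1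
  have a3 : 0 ≤ 2 ^ Fintype.card J * ∑ _j : J, k * ((N * L) ^ 2 * N) := by positivity
  have β := fun c a j => cv_bounds (hδ j) (hc c a j).1.aestronglyMeasurable (hc c a j).2
  refine ⟨by positivity, fun c a => ?_, fun c a => ?_⟩
  · have g0 : ∀ x, 0 ≤ gr2 I G.F.e c.W c.Φ x := fun _ => gr2_nonneg
    have := (((Ctl.sum Finset.univ zero_le_one g0 (fun _ _ => by positivity) fun j _ =>
      (hd j).P c a _ _ a2 (fn_time hτ.sm hτ.le N1 (β c a j).1
        (fun t => ((β c a j).2.1 t).trans (le_mul_of_one_le_left (by linarith) N1)) fun t => by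
          rw [← iteratedDeriv_one]
          exact ((β c a j).2.2 1 t).trans (by gcongr; exact hcb j))).app zero_le_one g0 a3
      zero_le_one (opr_pp hB a.ok a.conn)).app zero_le_one g0 (by positivity) (by linarith)
      (opr_cl hB a.ok a.conn hτ)).neg.mono zero_le_one g0 
      (K' := 64 * N * (2 ^ Fintype.card J * ∑ _j : J, k * ((N * L) ^ 2 * N))) (by rw [Finset.card_univ]; nlinarith)
    simp only [_root_.sum_apply, smul_apply] at this
    exact this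
  · refine ((Dom.sq_sum Finset.univ (fun _ _ => by positivity) fun j _ => (hd j).A c a _ _
      fun x => (β c a j).2.1 (D.τ x)).mul (C := 64 * N) (by positivity)).mono ?_ fun x => ?_
    · rw [Finset.card_univ]
      gcongr
      nlinarith [mul_le_mul_of_nonneg_right (one_le_mul_of_one_le_of_one_le
        (one_le_pow₀ (n := 2) N1) N1) (sq_nonneg L)]
    · have e : ‖(WithLp.toLp 2 fun s : ι × ι => G.F.D s.1 D.τ x • D.gA G.F c x s.2 :
          Fm (ι × ι) c.m.A)‖ ^ 2 = (∑ a, G.F.D a D.τ x ^ 2) * ‖D.gA G.F c x‖ ^ 2 := by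
        simp [PiLp.norm_sq_eq_of_L2, norm_smul, mul_pow, Fintype.sum_prod_type, Finset.sum_mul_sum]
      have b := (pow_le_pow_left₀ (norm_nonneg _) (norm_p2 hB c.m x _) 2).trans
        (e.trans_le (mul_le_mul_of_nonneg_right (hτ.le x) (sq_nonneg _)))
      simp only [DG.q1, norm_smul, mul_pow, Real.norm_eq_abs, sq_abs]
      change _ ≤ 64 * N * ‖D.gA G.F c x‖ ^ 2
      linarith

end gen

variable {E3 : Type} [NormedAddCommGroup E3] [NormedSpace ℝ E3] [FiniteDimensional ℝ E3]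
  [MeasurableSpace E3] [BorelSpace E3]
  {H3 : Type} [TopologicalSpace H3] {I3 : ModelWithCorners ℝ E3 H3} [I3.Boundaryless]
  {Y : Type} [TopologicalSpace Y] [ChartedSpace H3 Y] [IsManifold I3 ∞ Y] [T2Space Y]
  [MeasurableSpace Y] [BorelSpace Y] [SecondCountableTopology Y] [CompactSpace Y]
  {κ : Type} [Fintype κ] {lam : Type} [Fintype lam] {D : YD I3 Y κ lam} {S : ℝ} {r n : ℕ}
  {N : ND Y lam} {X : NK D S} {c : Cfg X.M (Option κ) lam r} {σ ρ : Pt X.M (Option κ) lam r n}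
  {q : YW I3 Y →₀ ℝ} {k : ℝ} {x : X.M}

/-- `E1` with the bound of the spinor on the neck only -/
structure E1L (N : ND Y lam) (q : YW I3 Y →₀ ℝ) (X : NK D S) (c : Cfg X.M (Option κ) lam r)
    (σ ρ : Pt X.M (Option κ) lam r n) (e : ℝ) : Prop where
  gd : Gd X.B X.G c
  amb : ∃ ϖ, Amb X.G.F ϖ
  sol : c.Sol X.B X.G σ
  eD : ∀ x ∈ X.K.dp 2, σ.D c x = (N.pt X.K q : Pt _ _ _ r n).D c x + ρ.D c x
  eC : ∀ x ∈ X.K.dp 2, σ.C c x = (N.pt X.K q : Pt _ _ _ r n).C c x + ρ.C c x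
  Φ : ∀ x ∈ O X.K 2, ‖c.Φ x‖ ^ 4 ≤ e
  ρ : LB X.G.F.μ (fun x => X.K.cut 2 (X.K.τ x) * (‖ρ.D c x‖ ^ 2 + ‖ρ.C c x‖ ^ 2)) e
  en : Integrable (fun x => X.K.cut 3 (X.K.τ x) * en X.G.F c X.K.τ x) X.G.F.μ
  kd : Integrable (fun x => X.K.cut 3 (X.K.τ x) * c.m.kd X.B X.G.F c.W x) X.G.F.μ

theorem Sb.diracL {e a a' : ℝ} (T : Sb X.K.p X.K.q a a') (hD : D.OK) (A : c.Adm X.B X.G) {U : ℝ} {g : X.M → ℝ} (g0 : ∀ x, 0 ≤ g x)
    (U0 : 0 ≤ U) (hΦ : ∀ x ∈ O X.K 2, ‖c.Φ x‖ ^ 2 ≤ U)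
    (hg : LB X.G.F.μ (fun x => X.K.cut 2 (X.K.τ x) * g x) e)
    (h : ∀ x ∈ X.K.dp 2, ‖dir X.I X.G.F.e c.m.ρ c.W c.Φ x‖ ^ 2 ≤ U + 2 * g x) :
    ∫ x, X.G.F.D none (fun x => θc a a' (X.K.τ x)) x * ⟪dY X.G.F c X.K.τ x, c.Φ x⟫_ℝ ∂X.G.F.μ ≤
      2 * U * (vY D * (80 * cA)) + cA * e := by
  have P := pn2 hD X
  have t0 := (T.tf (G := X.G)).ts.D (F := X.G.F) none
  have t1 := t0.mul (sm_inner A.sm A.sm)
  have i0 := (t0.mul (sm_inner (P.sm_dY A) A.sm)).int X.G.F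
  have i1 := (t1.D (F := X.G.F) none).int X.G.F
  have e1 := ibp0_fun (F := X.G.F) P.dv t1
  have c1 := cd_deriv (contDiff_ct (p := some a) (q := some a') (d := 3))
  have l1 := T.lbZ (G := X.G) c1.continuous (fun _ => dct_le) fun s h => dθ_off s fun e => h (Zc_sub e)
  have l2 := T.lbZ (G := X.G) (cd_deriv c1).continuous (C := cA)
    (fun _ => by simpa [iteratedDeriv_succ] using ct_le 2) fun s h =>
      deriv_off isClosed_Zc dθ_off s fun e => h (Zc_sub e)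
  have l := ((l1.add l2).1.const_mul U).add (hg.1.const_mul cA)
  have key : ∀ x, X.G.F.D none (fun x => θc a a' (X.K.τ x)) x * ⟪dY X.G.F c X.K.τ x, c.Φ x⟫_ℝ +
      2⁻¹ * X.G.F.D none (fun x => X.G.F.D none (fun x => θc a a' (X.K.τ x)) x *
        ⟪c.Φ x, c.Φ x⟫_ℝ) x ≤ U * (|deriv (θc a a') (X.K.τ x)| + |deriv (deriv (θc a a')) (X.K.τ x)|) +
        cA * (X.K.cut 2 (X.K.τ x) * g x) := fun x => by
    have p1 := mul_nonneg (mul_nonneg (zero_le_one.trans one_le_cA) (ct_mem (p := X.K.p)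
      (q := X.K.q) (d := 2) (s := X.K.τ x)).1) (g0 x)
    by_cases hx : x ∈ O X.K 2
    swap
    · rw [t0.zero hx, (t1.D none).zero hx, ← mul_assoc cA, zero_mul, mul_zero, add_zero]
      positivity
    rw [Pre.D_def _ none (fun x => _ * _), dv_mul (t0.sm x) (sm_inner A.sm A.sm x),
      dv_inner none (A.conn.sk none x) (A.sm x) (A.sm x), ← P.toPrd.xP_eq c hx, ← Pre.D_def, T.Dθ,
      T.DDθ, dY, inner_sub_left, inner_neg_left, real_inner_comm (xP _ _ _ _),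
      real_inner_self_eq_norm_sq]
    beta_reduce
    have b1 : |deriv (θc a a') (X.K.τ x)| ≤ cA * X.K.cut 2 (X.K.τ x) := by
      by_cases z : X.K.τ x ∈ Zc a a' 3 4
      · rw [show X.K.cut 2 (X.K.τ x) = 1 from ct_one (by norm_num; exact T.dp z.1), mul_one]
        exact dct_le
      · rw [dθ_off _ z, abs_zero]; exact mul_nonneg (zero_le_one.trans one_le_cA) ct_mem.1
    have b2 : |⟪cT X.G.F c X.K.τ x (dir X.I X.G.F.e c.m.ρ c.W c.Φ x), c.Φ x⟫_ℝ| ≤ U + g x :=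
      (abs_real_inner_le_norm _ _).trans ((mul_le_mul_of_nonneg_right (P.norm_cT A hx _)
        (norm_nonneg _)).trans (by
          linarith [h x (O_sub_dp X.K hx), hΦ x hx, two_mul_le_add_sq
            ‖dir X.I X.G.F.e c.m.ρ c.W c.Φ x‖ ‖c.Φ x‖]))
    have b3 := (neg_le_abs _).trans ((abs_mul _ _).trans_le (mul_le_mul_of_nonneg_left b2
      (abs_nonneg (deriv (θc a a') (X.K.τ x)))))
    have b4 := mul_le_mul_of_nonneg_right b1 (g0 x)
    have b5 := mul_le_mul (le_abs_self (deriv (deriv (θc a a')) (X.K.τ x))) (hΦ x hx) (sq_nonneg _)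
      (abs_nonneg _)
    have b6 := mul_nonneg (abs_nonneg (deriv (deriv (θc a a')) (X.K.τ x))) U0
    linarith
  have := integral_mono (i0.add (i1.const_mul 2⁻¹)) l key
  simp only [Pi.add_apply] at this
  rw [integral_add i0 (i1.const_mul _), integral_const_mul, e1, mul_zero, add_zero,
    integral_add ((l1.add l2).1.const_mul U) (hg.1.const_mul cA), integral_const_mul,
    integral_const_mul] at this
  linarith [mul_le_mul_of_nonneg_left (l1.add l2).2 U0,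
    mul_le_mul_of_nonneg_left hg.2 (zero_le_one.trans one_le_cA)]

theorem E1L.loc {e a a' K W C : ℝ} (h : E1L N q X c σ ρ e) (hD : D.OK) (hδ : 0 < N.δ) (hk : 1 ≤ k)
    (hq : Sml (fun T => k * sk T) q) (T : Sb X.K.p X.K.q a a')
    (hK : B1 X.B X.G (N.q1 X.K : Pt _ _ _ r n) K) (hC : LB X.G.F.μ (N.ew X.K c) C)
    (hW : Integrable (fun x => θc a a' (X.K.τ x) * (⟪xA X.G.F c X.K.τ x, (N.dg X.K).gA X.G.F c x⟫_ℝ +
      ⟪xP X.G.F c X.K.τ x, (N.dg X.K).gP X.G.F c x⟫_ℝ)) X.G.F.μ ∧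
      |∫ x, θc a a' (X.K.τ x) * (⟪xA X.G.F c X.K.τ x, (N.dg X.K).gA X.G.F c x⟫_ℝ +
        ⟪xP X.G.F c X.K.τ x, (N.dg X.K).gP X.G.F c x⟫_ℝ) ∂X.G.F.μ| ≤ W) :
    3 / 4 * ∫ x, θc a a' (X.K.τ x) * Dgr80.en X.G.F c X.K.τ x ∂X.G.F.μ ≤
      8 * Real.pi ^ 2 * ∫ x, θc a a' (X.K.τ x) * c.m.kd X.B X.G.F c.W x ∂X.G.F.μ +
      ((4 * K + 4) * (1 + e) * (vY D * (80 * cA)) + cA * e / 2 + W + 2 * e +
        4 * k⁻¹ * (vY D * C)) := by
  have P := pn2 hD X
  have A := h.gd.adm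
  have t := T.tf (G := X.G)
  have g0 : ∀ x, 0 ≤ ‖ρ.D c x‖ ^ 2 + ‖ρ.C c x‖ ^ 2 := fun x => by positivity
  have e0 := h.ρ.nonneg fun x => mul_nonneg ct_mem.1 (g0 x)
  have K0 := hK.K0
  have hΦ : ∀ x ∈ O X.K 2, ‖c.Φ x‖ ^ 2 ≤ 1 + e := fun x hx => by
    nlinarith [h.Φ x hx, sq_nonneg (‖c.Φ x‖ ^ 2 - 1)]
  have e1 := en_id P h.sol t.ts t.d0
  have e2 := T.diracL hD A g0 (U := (4 * K + 4) * (1 + e)) (by positivity)
    (fun x hx => (hΦ x hx).trans (by nlinarith)) h.ρ fun x hx => by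
      have h1 := h.sol.D x
      rw [Cfg.eD, sub_eq_zero, h.eD x hx] at h1
      have h2 := (hK.D c A).le x
      have h3 := pow_le_one₀ (n := 2) (norm_nonneg _) (qq_le (n := n) X hδ A hk hq x).1
      rw [h1]
      refine (sq_add_le _ _).trans ?_
      have h4 : ‖(N.pt X.K q : Pt _ _ _ r n).D c x‖ ^ 2 ≤ _ :=
        sq_add_le ((N.q1 X.K : Pt _ _ _ r n).D c x) ((qq N X q r n).D c x)
      linarith [sq_nonneg ‖ρ.C c x‖, mul_nonneg K0 e0]
  have i1 := (t.ts.mul (P.sm_en A)).int X.G.F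
  have l := T.lb_eT hδ A hC
  have k0 : 0 ≤ 4 * k⁻¹ := by positivity
  have e3 := integral_mono ((ts_wk P h.sol t.ts).int X.G.F) (((hW.1.neg.add (i1.div_const 4)).add
    (h.ρ.1.const_mul 2)).add (l.1.const_mul (4 * k⁻¹))) fun x => by
      simp only [Pi.add_apply, Pi.neg_apply]
      by_cases hx : X.K.τ x ∈ Dp (some a) (some a') 3
      · have o : x ∈ O X.K 2 := by
          have := T.dp hx
          rw [(tm_eq X.K (Dp_mono (by norm_num) this)).2.2] at this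
          exact dp_sub_O X.K (by norm_num) this
        have b := mul_le_mul_of_nonneg_left (wk_pt hD hδ A hk hq o (h.eD x (O_sub_dp X.K o))
          (h.eC x (O_sub_dp X.K o))) (ct_mem (p := some a) (q := some a') (d := 3) (s := X.K.τ x)).1
        rw [show X.K.cut 2 (X.K.τ x) = 1 from ct_one (by norm_num; exact T.dp hx)]
        linarith [mul_le_of_le_one_left (g0 x)
          (ct_mem (p := some a) (q := some a') (d := 3) (s := X.K.τ x)).2]
      · simp only [show θc a a' (X.K.τ x) = 0 from ct_zero hx, zero_mul, mul_zero]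
        linarith [mul_nonneg (ct_mem (p := X.K.p) (q := X.K.q) (d := 2) (s := X.K.τ x)).1 (g0 x)]
  simp only [Pi.add_apply, Pi.neg_apply] at e3
  rw [integral_add ((hW.1.fun_neg.fun_add (i1.div_const 4)).fun_add (h.ρ.1.const_mul 2))
    (l.1.const_mul _), integral_add (hW.1.fun_neg.fun_add (i1.div_const 4)) (h.ρ.1.const_mul 2),
    integral_add hW.1.fun_neg (i1.div_const 4), integral_neg, integral_div, integral_const_mul,
    integral_const_mul] at e3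
  linarith [(abs_le.1 hW.2).1, h.ρ.2, mul_le_mul_of_nonneg_left l.2 k0]

/-- **EN1**, scene-free and local -/
theorem en1L (hD : D.OK) (hN : N.OK D) : ∃ sz : YW I3 Y → ℝ, ∀ R : ℝ, ∃ C, ∀ (S : ℝ) (r n : ℕ)
    (q : YW I3 Y →₀ ℝ) (ν : ℝ) (X : NK D S) (c : Cfg X.M (Option κ) lam r)
    (σ ρ : Pt X.M (Option κ) lam r n) (e : ℝ), Nd18.Sml sz q → |ν| ≤ R → E1L (N.smul ν) q X c σ ρ e →
      ∫ x, X.K.cut 3 (X.K.τ x) * en X.G.F c X.K.τ x ∂X.G.F.μ ≤
        16 * Real.pi ^ 2 * ∫ x, X.K.cut 3 (X.K.τ x) * c.m.kd X.B X.G.F c.W x ∂X.G.F.μ +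
          C * (1 + e) := by
  obtain ⟨C, C1, hC⟩ := exists_ew hD hN
  have v := vY_nonneg D
  have k1 : 1 ≤ 16 * (vY D * C) + 1 := le_add_of_nonneg_left (by positivity)
  refine ⟨fun T => (16 * (vY D * C) + 1) * sk T, fun R => ?_⟩
  obtain ⟨k, k0, h⟩ := ((eventually_ge_atTop (0 : ℝ)).and (eventually_all.2 (Uk.dg_nk hD hN))).exists
  obtain ⟨m, m1, a, b⟩ := ((eventually_ge_atTop 1).and ((Uk.gd_fn (g := none) hD
    (by simp [OF])).and (Mp86.ev_nat (cb N.δ 1)))).exists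
  have hφ := hN.sm.comp (Mp86.cd_cx (N := N))
  obtain ⟨L, L1, hL⟩ := Mp86.ball_bd hφ (|k| * vY D)
  have R1 : 1 ≤ (|R| + 1) * L := one_le_mul_of_one_le_of_one_le (by linarith [abs_nonneg R]) L1
  set K : ℝ := 64 * m * (2 ^ Fintype.card N.J * ∑ _j : N.J, k * ((m * ((|R| + 1) * L)) ^ 2 * m))
  set W : ℝ := Fintype.card N.J * (cW N.δ k ((|R| + 1) * L) * vY D) + 80 * (2 * cA * ((|R| + 1) * L))
  refine ⟨2 * ((4 * K + 4) * (vY D * (80 * cA)) + cA + W + 2), fun S r n q ν X c σ ρ e hq hν => ?_⟩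
  have h1 := fun j X => (h j ⟨(S, r), X⟩).1
  have h2 := fun j X => (h j ⟨(S, r), X⟩).2
  replace a := fun X => a ⟨(S, r), X⟩
  clear h
  intro h
  have sφ : ContDiff ℝ ∞ ((N.smul ν).dg (r := r) X.K).φ := contDiff_const.mul hφ
  have l : ∀ x : N.J → ℝ, ‖x‖ ≤ |k| * vY D → |ν * (N.φ ∘ N.cx) x| ≤ (|R| + 1) * L ∧
      ‖fderiv ℝ (fun x => ν * (N.φ ∘ N.cx) x) x‖ ≤ (|R| + 1) * L := fun x hx => by
    have n1 : |ν| ≤ |R| + 1 := by linarith [le_abs_self R]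
    refine ⟨(abs_mul _ _).trans_le (mul_le_mul n1 (hL x hx).1 (abs_nonneg _) (by positivity)), ?_⟩
    exact (congrArg _ ((hφ.differentiable (by simp) x).hasFDerivAt.const_mul ν).fderiv).trans_le
      ((norm_smul _ _).trans_le (mul_le_mul n1 (hL x hx).2 (norm_nonneg _) (by positivity)))
  have hK : B1 X.B X.G ((N.smul ν).q1 X.K : Pt _ _ _ r n) K :=
    dg_b1 X.hB m1 (a X) (fun j => h1 j X) k0 (fun _ => hN.δ0) (fun _ => b) R1 fun c h =>
      (co_bd hN.δ0 (N := (N.smul ν).dg X.K) rfl rfl (fun _ => rfl) (fun j => (h1 j X).ct c h) (fun j => (h1 j X).le c h)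
        (fun j => Mp86.den_off X j c) sφ l).2.2.2
  have P := pn2 hD X
  have A := h.gd.adm
  obtain ⟨ϖ, hϖ⟩ := h.amb
  have T := fun i : ℕ => sb_getD X.K.p X.K.q (-i) i
  have w := fun i => (T i).work P.dv hN.δ0 (N := (N.smul ν).dg X.K) (P.sm_xA A) (P.sm_xP A) rfl rfl
    (fun _ => rfl) (fun j => h2 j X c h.gd) k0 (fun j => Mp86.den_off X j c) sφ l
  have key := le_of_tendsto_of_tendsto' ((tend_θ X (P.sm_en A).continuous h.en).const_mul _)
    (((tend_θ X (P.sm_kd A).continuous h.kd).const_mul _).add_const _) fun i =>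
      h.loc hD hN.δ0 k1 hq (T i) hK (hC S r X c ϖ _ A hϖ ⟨h.en, le_rfl⟩) (W := W) (w i)
  have e0 := h.ρ.nonneg fun x => mul_nonneg ct_mem.1 (by positivity)
  have W0 : 0 ≤ W := (abs_nonneg _).trans (w 0).2
  have E0 : 0 ≤ ∫ x, X.K.cut 3 (X.K.τ x) * en X.G.F c X.K.τ x ∂X.G.F.μ :=
    integral_nonneg fun x => mul_nonneg ct_mem.1 (en_nonneg _ _ _ _)
  have b1 : (16 * (vY D * C) + 1)⁻¹ * (vY D * C) ≤ 1 / 16 := by
    rw [inv_mul_le_iff₀ (by linarith)]; linarith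
  nlinarith [mul_le_mul_of_nonneg_right b1 E0, mul_nonneg W0 e0, one_le_cA,
    mul_nonneg (zero_le_one.trans one_le_cA) e0]

/-- the gradient term is bounded independently of the ambient manifold -/
theorem b1_q1 (hD : D.OK) (hN : N.OK D) (R : ℝ) : ∃ K, ∀ (S : ℝ) (r n : ℕ) (X : NK D S) (ν : ℝ),
    |ν| ≤ R → B1 X.B X.G ((N.smul ν).q1 X.K : Pt _ _ _ r n) K := by
  obtain ⟨k, k0, h⟩ := ((eventually_ge_atTop (0 : ℝ)).and
    (eventually_all.2 (Uk.dg_nk hD hN))).exists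
  obtain ⟨m, m1, a, b⟩ := ((eventually_ge_atTop 1).and ((Uk.gd_fn (g := none) hD
    (by simp [OF])).and (Mp86.ev_nat (cb N.δ 1)))).exists
  have hφ := hN.sm.comp (Mp86.cd_cx (N := N))
  obtain ⟨L, L1, hL⟩ := Mp86.ball_bd hφ (|k| * vY D)
  have R1 : 1 ≤ (|R| + 1) * L := one_le_mul_of_one_le_of_one_le (by linarith [abs_nonneg R]) L1
  refine ⟨64 * m * (2 ^ Fintype.card N.J * ∑ _j : N.J, k * ((m * ((|R| + 1) * L)) ^ 2 * m)),
    fun S r n X ν hν => ?_⟩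
  have l : ∀ x : N.J → ℝ, ‖x‖ ≤ |k| * vY D → |ν * (N.φ ∘ N.cx) x| ≤ (|R| + 1) * L ∧
      ‖fderiv ℝ (fun x => ν * (N.φ ∘ N.cx) x) x‖ ≤ (|R| + 1) * L := fun x hx => by
    have n1 : |ν| ≤ |R| + 1 := by linarith [le_abs_self R]
    refine ⟨(abs_mul _ _).trans_le (mul_le_mul n1 (hL x hx).1 (abs_nonneg _) (by positivity)), ?_⟩
    exact (congrArg _ ((hφ.differentiable (by simp) x).hasFDerivAt.const_mul ν).fderiv).trans_le
      ((norm_smul _ _).trans_le (mul_le_mul n1 (hL x hx).2 (norm_nonneg _) (by positivity)))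
  exact dg_b1 (D := (N.smul ν).dg X.K) X.hB m1 (a ⟨(S, r), X⟩) (fun j => (h j ⟨(S, r), X⟩).1) k0
    (fun _ => hN.δ0) (fun _ => b) R1 fun c A => (co_bd hN.δ0 (N := (N.smul ν).dg X.K) rfl rfl
      (fun _ => rfl) (fun j => (h j ⟨(S, r), X⟩).1.ct c A) (fun j => (h j ⟨(S, r), X⟩).1.le c A)
      (fun j => Mp86.den_off X j c) (contDiff_const.mul hφ) l).2.2.2

end Crest.Agent.X212.Dgr80
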