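import Crest.Agent.X212.Dgr80.An0
import Crest.Agent.X212.Dgr80.Fen
import Crest.Agent.X212.St29.SbB
import Crest.Agent.X212.Fin37.Lvb
import Crest.Agent.X212.Tms63.Main
import Crest.Agent.X212.Lit63.Main

/-!
# Row 212, SB-AN (helper80): the perturbation and the levels of necks of a job with one active wall
-/

set_option autoImplicit false
set_option linter.unusedSectionVars false
noncomputable section
open scoped Manifold ContDiff Topology InnerProductSpace Classical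
open MeasureTheory Set Function Filter

namespace Crest.Agent.X212.Dgr80.An1
open An An.Job M Nd18 Fin37 Nka63
open Mp86 (L4 Wts NK bd_add Ctl Dom gr2_nonneg)
open St29.Sb (Nm win0)

section gen
variable {E : Type} [NormedAddCommGroup E] [NormedSpace ℝ E] [FiniteDimensional ℝ E]
  [MeasurableSpace E] [BorelSpace E]
  {HM : Type} [TopologicalSpace HM] {I : ModelWithCorners ℝ E HM} [I.Boundaryless]
  {M : Type} [TopologicalSpace M] [ChartedSpace HM M] [IsManifold I ∞ M]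
  [MeasurableSpace M] [T2Space M] [BorelSpace M] [SecondCountableTopology M]
  {ι : Type} [Fintype ι] {lam : Type} [Fintype lam] {r n : ℕ}
  {B : Base M ι lam} {G : Geo I M ι lam} {K : ℝ}

theorem b1_dsum {J : Type} [Fintype J] {p : J → Prop} {τ : ∀ i, p i → Pt M ι lam r n}
    (s : Finset J) (hK : 0 ≤ K) (h0 : ∀ i hi, i ∉ s → τ i hi = Ink3.pz)
    (h : ∀ i hi, i ∈ s → B1 B G (τ i hi) K) :
    B1 B G (Pt.dsum p τ) (2 ^ s.card * (s.card * K)) := by
  have e : (s.card * K : ℝ) = ∑ _i ∈ s, K := by simp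
  have eD : ∀ c, (Pt.dsum p τ).D c = fun x => ∑ i ∈ s, if h : p i then (τ i h).D c x else 0 :=
    fun c => funext fun x => (Finset.sum_subset s.subset_univ fun i _ hi =>
      dite_eq_right_iff.2 fun k => by rw [h0 i k hi]; rfl).symm
  have eC : ∀ c x, (Pt.dsum p τ).C c x = ∑ i ∈ s, if h : p i then (τ i h).C c x else 0 :=
    fun c x => (Finset.sum_subset s.subset_univ fun i _ hi =>
      dite_eq_right_iff.2 fun k => by rw [h0 i k hi]; rfl).symm
  rw [e]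
  refine ⟨by rw [← e]; positivity, fun c a => ?_, fun c a => ?_⟩
  · rw [eD]
    refine Ctl.sum s zero_le_one (fun _ => gr2_nonneg) (fun _ _ => hK) fun i m => ?_
    by_cases hi : p i
    · simpa only [dif_pos hi] using (h i hi m).D c a
    · simpa only [dif_neg hi] using Ctl.zero zero_le_one (fun _ => gr2_nonneg) hK
  · simp only [eC]
    refine Dom.sq_sum s (fun _ _ => hK) fun i m => ?_
    by_cases hi : p i
    · simpa only [dif_pos hi] using (h i hi m).C c a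
    · simpa [dif_neg hi] using Dom.zero (F := G.F) hK

end gen

theorem sml_smul {Wi : Type} {P : (Wi →₀ ℝ) → Prop} (h : An.Sml fun Adm => ∀ q, Adm q → P q)
    (t : ℝ) : An.Sml fun Adm => ∀ q, Adm q → P (t • q) := by
  obtain ⟨b, b0, hb⟩ := h
  refine ⟨fun w => |t| * b w, fun w => mul_nonneg (abs_nonneg _) (b0 w),
    fun Adm hA q hq => hb (Ball b 0) (fun _ => id) _ ?_⟩
  have := hA q hq
  rw [Ball, sub_zero] at this ⊢
  rw [Finsupp.sum_smul_index (by simp)]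
  simpa only [abs_mul, mul_assoc, mul_left_comm |t|] using this

variable {Wi : Type} {X : Mf 4} {A κ lam : Type} [Fintype A] [Fintype κ] [Fintype lam]
  [DecidableEq lam] {M : Mark X A κ} {W : World M} {N : ML M lam}
  {Λ : Lns W N} {A' h : Type} [Fintype A'] [DecidableEq A'] [Fintype h] {r n : ℕ}
  {J : Job Wi Λ A' h r n} {S K C : ℝ} {a : A}

/-- the size of the gradient term of a cross-section -/
def XB (T : Xs Wi κ lam) (K : ℝ) : Prop := ∀ (S : ℝ) (r n : ℕ) (X : NK T.D S) (ν : ℝ), |ν| ≤ 1 →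
  B1 X.B X.G ((T.N.smul ν).q1 X.K : Pt _ _ _ r n) K

/-- the level of the necks on a cross-section -/
def XF (T : Xs Wi κ lam) (C : ℝ) : Prop := ∃ sz : YW T.Y.I T.Y.M → ℝ, ∀ (S : ℝ) (r n : ℕ) q (ν : ℝ)
  (X : NK T.D S) c (σ ρ : Pt X.M (Option κ) (lam ⊕ lam) r n) e, Nd18.Sml sz q → |ν| ≤ 1 →
    E1L (T.N.smul ν) q X c σ ρ e →
      -(C * (1 + e)) ≤ ∫ x, X.K.cut 3 (X.K.τ x) * c.m.kd X.B X.G.F c.W x ∂X.G.F.μ

variable (hJ : J.OK)
include hJ

/-- one a priori bound for all small perturbations -/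
theorem apE (he : An.Sml fun Adm => ELM J Adm ∧ CHH J Adm) : ∃ S > 0, ∃ v, WU J J.wx S v ∧ ∃ E,
    An.Sml fun Adm => ∀ q, Adm q → ∀ σ ∈ J.𝒦, ∀ c (y : J.Obc c), Sol σ q y → Bnd J.wx E y := by
  obtain ⟨S, S0, v, hw, k⟩ := aprX hJ (Tms63.tmsz hJ) (Lit63.litJ hJ) (lvb hJ)
  obtain ⟨b, b0, hb⟩ := k.and he
  obtain ⟨k1, k2, k3⟩ := hb (Ball b 0) fun _ => id
  obtain ⟨E, _, k⟩ := k1 (fen hJ k2) k3
  exact ⟨S, S0, v, hw, E, b, b0, fun Adm hA q hq σ hσ c y H => (k σ hσ c q y (hA q hq) H).1⟩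

variable (hS : ∀ c s, Pm J c s → L4 (J.G c s).F.toPre S)
include hS

theorem bdw {ε : ℝ} (hε : 0 < ε) : An.Sml fun Adm => ∀ q, Adm q → ∀ c s, Pm J c s → ∀ w,
    Wts (J.G c s).F S w → (fsum (J.τw c s) q).Bd (J.B c) (J.G c s) w ε ε ε := by
  obtain ⟨R, hR⟩ := bd_ν hJ
  choose K2 K3 h2 using fun w => ((eventually_ge_atTop 0).and (eventually_all.2 fun a =>
    b0_q2s (S := S) (r := r) (m := n) (hJ.xs a).1.yd (hJ.xs a).2 ((J.xs a).ty w) R)).exists
  choose k k1 hk using Tms63.tmsz hJ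
  choose ρ hρ using fun w => bd_cell J (hJ.co w).continuous
  have u : ∀ i, ∃ a1 a2 a3, ∀ c s, Pm J c s → ∀ w, Wts (J.G c s).F S w →
      (J.τw c s i).Bd (J.B c) (J.G c s) w a1 a2 a3 := fun i => ⟨_, _, _, fun c s p w hw =>
    bd_add (bd_tm hw (Λ.B_ok _ _) (k1 i) (fun e => (hk i c s p e).1) (hρ i c s p))
      ((b0_dsum (K3 i) fun j hj => h2 i j.1 _ (hR c s p _) (nX hJ hS p ⟨j, hj⟩)).bd w)⟩
  choose a1 a2 a3 u using u
  have t := tendsto_id.const_mul_atTop (l := atTop) hε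
  choose b b1 b2 b3 b4 using fun w => ((eventually_ge_atTop 1).and
    ((((tendsto_pow_atTop two_ne_zero).const_mul_atTop hε).eventually_ge_atTop (a1 w)).and
      ((t.eventually_ge_atTop (a2 w)).and (t.eventually_ge_atTop (a3 w))))).exists
  refine ⟨b, fun w => zero_le_one.trans (b1 w), fun Adm hA q hq c s p w hw => ?_⟩
  have hb := (hA q hq).le
  rw [sub_zero] at hb
  exact bd_fsum b1 hε.le hε.le hε.le hb b2 b3 b4 fun i => u i c s p w hw

theorem fsm (S0 : 0 < S) (E : ℝ) : An.Sml fun Adm => ∀ q, Adm q → ∀ c s, Pm J c s → ∀ w,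
    Wts (J.G c s).F S w → ∀ x : Cfg (W.Z c).M (Option κ) (lam ⊕ lam) r, x.Adm (J.B c) (J.G c s) →
      x.Le (J.G c s).F w E → LB (J.G c s).F.μ
        (fun z => ‖(fld J c q s).D x z‖ ^ 2 + ‖(fld J c q s).C x z‖ ^ 2) 1 := by
  obtain ⟨_, hK⟩ := bdj hJ hS S0 (Tms63.tmsz hJ)
  obtain ⟨t, t0, ht⟩ := ((eventually_gt_atTop 0).and ((tendsto_pow_atTop (α := ℝ)
    two_ne_zero).eventually_ge_atTop (E + (1 * E) ^ 2))).exists
  refine (sml_smul (hK 1 one_pos) t).mono fun Adm h1 q hq c s p w hw x A l => ?_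
  have u := ((h1 q hq c _ p _ hw).2 x E E A l (zero_le_one.trans l.one) l.Φ).mul
    (c := (t ^ 2)⁻¹) (by positivity)
  refine LB.le ?_ (show (t ^ 2)⁻¹ * (E + (1 * E) ^ 2) ≤ 1 from
    inv_mul_le_one_of_le₀ ht (by positivity))
  convert u using 2 with z
  simp only [fld, fsum_smul_D, fsum_smul_C, norm_smul, mul_pow, Real.norm_eq_abs, sq_abs]
  field_simp

omit hS
variable (he : An.Sml fun Adm => ELM J Adm ∧ CHH J Adm)
  (h0 : ∀ x ≠ a, Ink3.Nil (J.xs x).N ∧ (J.xs x).ty = 0) (hν : ∀ s, |J.ν a s| ≤ 1)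
include he h0 hν

/-- **the perturbation** -/
theorem nmJ (K0 : 0 ≤ K) (hK : XB (J.xs a) K) : An.Sml fun Adm => ∀ q, Adm q → ∀ σ ∈ J.𝒦,
    ∀ c (y : J.Obc c), Sol σ q y → (∃ σ, ∀ z, ‖y.x.Φ z‖ ^ 2 ≤ σ) ∧
      Nm (J.G c y.s) y.x (J.τ c q y.s) (48 * K + 2) := by
  obtain ⟨S, S0, v, hw, E, hE⟩ := apE hJ he
  have hS := fun c s p => (hw.wts c s p).l4
  have ε0 : 0 < (2 * |E| + 2)⁻¹ := by positivity
  have ε1 : (2 * |E| + 2)⁻¹ * (2 * |E| + 2) = 1 := inv_mul_cancel₀ (by positivity)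
  refine (hE.and (bdw hJ hS ε0)).mono fun Adm ⟨h1, h2⟩ q hq σ hσ c y H => ?_
  have p : Pm J c y.s := ⟨σ, hσ, H.cell, H.inf⟩
  have l := (h1 q hq σ hσ c y H).le
  have e1 := mul_le_mul_of_nonneg_left (le_abs_self E) ε0.le
  have e2 := mul_nonneg ε0.le (abs_nonneg E)
  have b : B1 (J.B c) (J.G c y.s) (J.τ0 c y.s) _ := b1_dsum ({a} ×ˢ Finset.univ) K0
    (fun i _ m => ((h0 i.1 fun e => m (Finset.mem_product.2
      ⟨Finset.mem_singleton.2 e, Finset.mem_univ _⟩)).1.smul _).q1 _) fun i hi m => by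
      obtain ⟨x, o⟩ := i
      obtain rfl : x = a := Finset.mem_singleton.1 (Finset.mem_product.1 m).1
      exact hK S r n (nX hJ hS p ⟨(x, o), hi⟩) _ (hν _)
  have A := H.sol.toAdm
  refine ⟨⟨E, l.Φ⟩, (Nm.add ⟨b.D _ A, _, b.C _ A, fun _ => le_add_of_nonneg_left b.K0⟩
    (Nm.of_bd (h2 q hq c _ p _ (hw.wts c _ p)) A l (by linarith) (by linarith))).mono ?_⟩
  simp only [Finset.card_product, Finset.card_singleton, Finset.card_univ, Fintype.card_option,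
    Fintype.card_bool]
  norm_num
  linarith

/-- **the levels of the necks** -/
theorem nlJ (C0 : 0 ≤ C) (hC : XF (J.xs a) C) : An.Sml fun Adm => ∀ q, Adm q → ∀ σ ∈ J.𝒦,
    ∀ c (y : J.Obc c), Sol σ q y → ∀ (i : Ix J c y.s) (U : ℝ), 1 ≤ U →
      (∀ z ∈ O (nk J i) 2, ‖y.x.Φ z‖ ^ 2 ≤ U) →
      -((2 * C + 80 * cA) * U ^ 2 * (1 + vY (J.xs i.1.1).D)) ≤
        ∫ z, th J 3 i z * y.kd z ∂(J.G c y.s).F.μ ∧
      (i.1.1 ≠ a → ∀ p q, Sb (nk J i).p (nk J i).q p q →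
        -((2 * C + 80 * cA) * U ^ 2 * (1 + vY (J.xs i.1.1).D)) ≤
          ∫ z, θc p q ((nk J i).τ z) * y.kd z ∂(J.G c y.s).F.μ) := by
  obtain ⟨S, S0, v, hw, E, hE⟩ := apE hJ he
  have hS := fun c s p => (hw.wts c s p).l4
  obtain ⟨sz, hC⟩ := hC
  refine ((hE.and (fsm hJ hS S0 E)).and (sml_q sz (J.xs a).ty 1)).mono
    fun Adm ⟨⟨h1, h2⟩, h3⟩ q hq σ hσ c y H i U U1 hU => ?_
  have p : Pm J c y.s := ⟨σ, hσ, H.cell, H.inf⟩
  have bd := h1 q hq σ hσ c y H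
  have ws := hw.wts c _ p
  have f := h2 q hq c _ p _ ws
  have A := H.sol.toAdm
  have v0 := vY_nonneg (J.xs i.1.1).D
  have a1 := one_le_cA
  have U2 : 1 ≤ U ^ 2 := one_le_pow₀ U1
  have ik : Integrable (fun z => th J 3 i z * y.kd z) (J.G c y.s).F.μ :=
    H.int.bdd_mul (c := 1) (sm_th (d := 3) i).continuous.aestronglyMeasurable
      (.of_forall fun _ => (abs_of_nonneg ct_mem.1).trans_le ct_mem.2)
  have fc := fun x A l => (f x A l).mono ((sm_th (d := 2) i).continuous.aestronglyMeasurable.mul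
    (f x A l).1.1) (fun _ => mul_nonneg ct_mem.1 (by positivity)) fun _ =>
      mul_le_of_le_one_left (by positivity) ct_mem.2
  have hD := (hJ.xs i.1.1).1.yd
  have w : i.1.1 ≠ a → ∀ p q, Sb (nk J i).p (nk J i).q p q →
      -((2 * C + 80 * cA) * U ^ 2 * (1 + vY (J.xs i.1.1).D)) ≤
        ∫ z, θc p q ((nk J i).τ z) * y.kd z ∂(J.G c y.s).F.μ := fun e b b' T => by
    have k := win0 (X := nX hJ hS p i) (e := 1) T hD H.sol (zero_le_one.trans U1) hU (by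
      convert fc _ A bd.le using 2 with z
      by_cases hz : z ∈ O (nk J i) 2
      · have t := tau_nk (Pat85.dj hJ) p i (Nk.dp_sub _ two_pos (O_sub_dp _ hz)) q y.x
        rw [show (J.xs i.1.1).q q = 0 by simp [Xs.q, (h0 _ e).2], smul_zero,
          ((h0 _ e).1.smul _).pt] at t
        rw [t.1, t.2]
        simp [Ink3.pz]
      · simp [cut_τ_zero _ one_le_two hz])
    have b0 : 0 ≤ ∫ z, θc b b' ((nk J i).τ z) * en (J.G c y.s).F y.x (nk J i).τ z ∂(J.G c y.s).F.μ :=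
      integral_nonneg fun x => mul_nonneg ct_mem.1 (en_nonneg _ _ _ _)
    have π : 1 ≤ 8 * Real.pi ^ 2 := by nlinarith [Real.pi_gt_three]
    have c1 : U * (vY (J.xs i.1.1).D * (80 * cA)) + cA * 1 / 2 + 1 ≤
        (2 * C + 80 * cA) * U ^ 2 * (1 + vY (J.xs i.1.1).D) := by
      have := mul_le_mul_of_nonneg_right (show U ≤ U ^ 2 by nlinarith)
        (show 0 ≤ vY (J.xs i.1.1).D * (80 * cA) by positivity)
      have := mul_le_mul_of_nonneg_left U2 (show 0 ≤ 80 * cA by positivity)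
      have : 0 ≤ 2 * C * U ^ 2 * (1 + vY (J.xs i.1.1).D) := by positivity
      linarith
    have c2 : 0 ≤ (2 * C + 80 * cA) * U ^ 2 * (1 + vY (J.xs i.1.1).D) := by positivity
    by_contra! hc
    change _ * ∫ z, θc b b' ((nk J i).τ z) * en (J.G c y.s).F y.x (nk J i).τ z ∂(J.G c y.s).F.μ ≤
      _ * ∫ z, θc b b' ((nk J i).τ z) * y.kd z ∂(J.G c y.s).F.μ + _ at k
    nlinarith
  refine ⟨?_, w⟩
  by_cases e : i.1.1 = a
  swap
  · exact ge_of_tendsto' (tend_θ (nX hJ hS p i) ((pn2 hD (nX hJ hS p i)).sm_kd A).continuous ik)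
      fun m => w e _ _ (sb_getD _ _ _ _)
  obtain ⟨⟨x0, o⟩, hi⟩ := i
  obtain rfl : x0 = a := e
  obtain ⟨x, gd, e⟩ := Lit63.litJ hJ σ hσ c q y H
  obtain ⟨i1, -, i3, i4, i5⟩ := iso_inv (Λ.B_ok _ _) (p.ok hJ).1 (p.ok hJ).2 gd.adm A e
  rcases isEmpty_or_nonempty (W.Z c).M with z | ⟨⟨z⟩⟩
  · simp only [integral_of_isEmpty, neg_nonpos]
    positivity
  unfold Obc.kd at ik ⊢
  rw [i3] at ik ⊢
  refine le_trans ?_ (hC S r n _ _ (nX hJ hS p ⟨(x0, o), hi⟩) x _ (fld J c q y.s) (U ^ 2)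
    (h3 q hq _ (hν _)) (hν _) ⟨gd, ⟨_, amb_wts ws (hw.int c _ p) (p.cut hJ) z⟩,
      sol_iso hJ hσ H gd.adm e,
      fun z hz => (tau_nk (Pat85.dj hJ) p _ (Nk.dp_sub _ two_pos hz) q x).1,
      fun z hz => (tau_nk (Pat85.dj hJ) p _ (Nk.dp_sub _ two_pos hz) q x).2,
      fun z hz => (pow_mul _ 2 2).trans_le (pow_le_pow_left₀ (sq_nonneg _) (i1 z ▸ hU z hz) 2),
      (fc x gd.adm (le_congr bd.le (fun z => (i1 z).symm) fun z => (i4 z).symm)).le U2,
      i5 _ (nk J ⟨(x0, o), hi⟩).sm_τ ▸ (bd.en _).1, ik⟩)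
  have := mul_le_mul_of_nonneg_left U2 C0
  have : 0 ≤ (2 * C + 80 * cA) * U ^ 2 * vY (J.xs x0).D := by positivity
  have : 0 ≤ 80 * cA * U ^ 2 := by positivity
  linarith

end Crest.Agent.X212.Dgr80.An1
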