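import Crest.Agent.X212.Pj41.Grl
import Crest.Agent.X212.Bki64.Cls

/-!
# Row 212, DG-ASM (helper80): bounds near a point
-/

set_option autoImplicit false
set_option linter.unusedSectionVars false
noncomputable section
open scoped Manifold ContDiff Topology
open Set Function Filter

namespace Crest.Agent.X212.Dgr80
open An Pj41
open Neck67 (Lb)
open Bki64 (dA dP)

variable {E : Type} [NormedAddCommGroup E] [NormedSpace ℝ E] [FiniteDimensional ℝ E]
  [MeasurableSpace E] [BorelSpace E]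
  {HM : Type} [TopologicalSpace HM] {I : ModelWithCorners ℝ E HM} [I.Boundaryless]
  {M : Type} [TopologicalSpace M] [ChartedSpace HM M] [IsManifold I ∞ M]
  [MeasurableSpace M] [T2Space M] [BorelSpace M] [SecondCountableTopology M]
  {E' : Type} [NormedAddCommGroup E'] [NormedSpace ℝ E'] [FiniteDimensional ℝ E']
  [MeasurableSpace E'] [BorelSpace E']
  {HM' : Type} [TopologicalSpace HM'] {I' : ModelWithCorners ℝ E' HM'} [I'.Boundaryless]
  {M' : Type} [TopologicalSpace M'] [ChartedSpace HM' M'] [IsManifold I' ∞ M']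
  [MeasurableSpace M'] [T2Space M'] [BorelSpace M'] [SecondCountableTopology M']
  {ι lam : Type} [Fintype ι] [Fintype lam]
  {N N' N'' : Type} [NormedAddCommGroup N] [NormedSpace ℝ N] [NormedAddCommGroup N']
  [NormedSpace ℝ N'] [NormedAddCommGroup N''] [NormedSpace ℝ N'']

/-- bounds near a point -/
def Nb (F : Pre I M ι) (x : M) (k : ℕ) (f : M → N) (C : ℝ) : Prop :=
  ∃ O, IsOpen O ∧ x ∈ O ∧ Lb F O k f C

namespace Nb
variable {F : Pre I M ι} {x : M} {k : ℕ} {f f' : M → N} {A C : ℝ}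

theorem mono (h : Nb F x k f C) (e : C ≤ A) : Nb F x k f A :=
  h.imp fun _ h => ⟨h.1, h.2.1, h.2.2.mono e⟩

theorem congr (h : Nb F x k f C) (e : ∀ᶠ y in 𝓝 x, f' y = f y) : Nb F x k f' C :=
  let ⟨_, h1, h2, h3⟩ := h; let ⟨_, k1, k2, k3⟩ := eventually_nhds_iff.1 e
  ⟨_, h1.inter k2, ⟨h2, k3⟩, (h3.sub inter_subset_left).congr (h1.inter k2) fun y hy => k1 y hy.2⟩

theorem of_CBs {D : ℕ → ℝ} (h : F.CBs f D) : Nb F x k f (D k) :=
  ⟨univ, isOpen_univ, trivial, .of_CB h.1 (h.2 k)⟩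

theorem const (c : N) : Nb F x k (fun _ => c) ‖c‖ :=
  ⟨univ, isOpen_univ, trivial, .const isOpen_univ c⟩

theorem two {g : M → N'} {p : M → N''} {D : ℝ} (h : Nb F x k f A) (h' : Nb F x k g C)
    (e : ∀ O, IsOpen O → Lb F O k f A → Lb F O k g C → Lb F O k p D) : Nb F x k p D :=
  let ⟨_, h1, h2, h3⟩ := h; let ⟨_, k1, k2, k3⟩ := h'
  ⟨_, h1.inter k1, ⟨h2, k2⟩, e _ (h1.inter k1) (h3.sub inter_subset_left) (k3.sub inter_subset_right)⟩

theorem add (h : Nb F x k f A) (h' : Nb F x k f' C) : Nb F x k (fun y => f y + f' y) (A + C) :=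
  h.two h' fun _ o => Lb.add o

theorem sub (h : Nb F x k f A) (h' : Nb F x k f' C) : Nb F x k (fun y => f y - f' y) (A + |C|) :=
  h.two h' fun _ o => Lb.sub' o

theorem smul {r : M → ℝ} (h : Nb F x k r A) (h' : Nb F x k f C) :
    Nb F x k (fun y => r y • f y) (2 ^ k * |A| * |C|) := h.two h' fun _ o => Lb.smul o

theorem comp {L : M → N' →L[ℝ] N''} {L' : M → N →L[ℝ] N'} (h : Nb F x k L A) (h' : Nb F x k L' C) :
    Nb F x k (fun y => L y ∘L L' y) (2 ^ k * |A| * |C|) := h.two h' fun _ o => Lb.comp o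

theorem app {L : M → N →L[ℝ] N'} (h : Nb F x k L A) (h' : Nb F x k f C) :
    Nb F x k (fun y => L y (f y)) (2 ^ k * |A| * |C|) := h.two h' fun _ o => Lb.app o

theorem clm (L : N →L[ℝ] N') (h : Nb F x k f C) : Nb F x k (fun y => L (f y)) (‖L‖ * C) :=
  h.imp fun _ h => ⟨h.1, h.2.1, h.2.2.clm h.1 L⟩

theorem Dw (h : Nb F x k f C) (w : List ι) (hw : w.length ≤ k) : ‖F.Dw w f x‖ ≤ C :=
  let ⟨_, _, h2, h3⟩ := h; h3.Dw w hw x h2

variable {F : Fr I M ι} {F' : Fr I' M' ι} {ψ : M → M'} {O : Set M} (r : FRel F F' ψ O) (hx : x ∈ O)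
  {g : M' → N}
include r hx

theorem push (h : Nb F.toPre x k (fun y => g (ψ y)) C) : Nb F'.toPre (ψ x) k g C :=
  let ⟨_, h1, h2, h3⟩ := h
  ⟨_, (r.mono (r.op.inter h1) inter_subset_left).isOpen_image, ⟨x, ⟨hx, h2⟩, rfl⟩,
    .of_Dw (forall_mem_image.2 fun y hy => fsm_ld (r.ld y hy.1) (h3.sm hy.2)) fun w hw =>
      forall_mem_image.2 fun y hy => (congrArg norm (r.Dw hy.1 w (.of_forall fun _ => rfl))).ge.trans
        (h3.Dw w hw y hy.2)⟩

theorem pull (h : Nb F'.toPre (ψ x) k g C) : Nb F.toPre x k (fun y => g (ψ y)) C :=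
  let ⟨_, h1, h2, h3⟩ := h
  ⟨_, (continuousOn_of_forall_continuousAt fun y hy =>
    (r.ld y hy).contMDiffAt.continuousAt).isOpen_inter_preimage r.op h1, ⟨hx, h2⟩,
    .of_Dw (fun _ hy => r.sm hy.1 (h3.sm hy.2)) fun w hw _ hy =>
      (congrArg norm (r.Dw hy.1 w (.of_forall fun _ => rfl))).le.trans (h3.Dw w hw _ hy.2)⟩

end Nb

/-- closeness at a point (`F` measures, `F₁` is the frame of the connections) -/
structure GP (F F₁ : Fr I M ι) {r r' : ℕ} (c : Cfg M ι lam r) (c' : Cfg M ι lam r')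
    (g : M → CL c.m.V c'.m.V) (θ : Circle) (k : ℕ) (η : ℝ) (x : M) : Prop where
  iso : Iso0 I c.m c'.m {x} g
  A : ∀ i, Nb F.toPre x k (dA F₁ c c' g i) η
  P : Nb F.toPre x k (dP c c' g θ) η

theorem GP.mono {F F₁ : Fr I M ι} {r r' : ℕ} {c : Cfg M ι lam r} {c' : Cfg M ι lam r'}
    {g : M → CL c.m.V c'.m.V} {θ : Circle} {k : ℕ} {η η' : ℝ} {x : M} (h : GP F F₁ c c' g θ k η x)
    (e : η ≤ η') : GP F F₁ c c' g θ k η' x := ⟨h.iso, fun i => (h.A i).mono e, h.P.mono e⟩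

/-- isomorphisms at corresponding points -/
theorem iso0_at {n n' : ℕ} {J J' p p' ρ ρ' j j' q q' σ σ' l l'} {O : Set M} {x : M} {y : M'}
    {v : M → CL (Eu (Fin n)) (Eu (Fin n'))} {g : M' → CL (Eu (Fin n)) (Eu (Fin n'))}
    (h : Iso0 I (⟨n, J, p, ρ, j⟩ : Md M ι lam) ⟨n', J', p', ρ', j'⟩ O v) (hx : x ∈ O)
    (s : FSm I' g y) (e : g y = v x) (e1 : q y = p x ∧ (∀ a, σ a y = ρ a x) ∧ l y = j x)
    (e2 : q' y = p' x ∧ (∀ a, σ' a y = ρ' a x) ∧ l' y = j' x) :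
    Iso0 I' (⟨n, J, q, σ, l⟩ : Md M' ι lam) ⟨n', J', q', σ', l'⟩ {y} g := by
  refine ⟨?_, ?_, ?_, ?_, ?_⟩ <;> rintro _ rfl
  · exact s
  · simpa only [e, e1.1, e2.1] using h.iso x hx
  · simpa only [e] using h.J x hx
  · simpa only [e, e1.2.1, e2.2.1] using h.ρ x hx
  · simpa only [e, e1.2.2, e2.2.2] using h.j x hx

theorem dA_add {κ κ' : Type} [Fintype κ] [Fintype κ'] {u u' D D' : CL (Eu κ) (Eu κ')} {W V : En κ}
    {W' V' R p : En κ'} (e1 : u' = u) (e2 : D' = D) (e3 : V = W) (e4 : V' = W' + R)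
    (e5 : u ∘L trn u = p) :
    (D' + V' ∘L u' - u' ∘L V) ∘L trn u' = (D + W' ∘L u - u ∘L W) ∘L trn u + R ∘L p := by
  subst e1 e2 e3 e4 e5
  simp only [ContinuousLinearMap.sub_comp, ContinuousLinearMap.add_comp,
    ContinuousLinearMap.comp_assoc]
  abel

end Crest.Agent.X212.Dgr80
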