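import Crest.Agent.X212.Dgr80.As0
import Crest.Agent.X212.Gb50.Base
import Crest.Agent.X212.Dg64.Lf

/-!
# Row 212, DG-ASM (helper80): heights, the pre-gluing on the neck, the global gauge
-/

set_option autoImplicit false
set_option linter.unusedSectionVars false
noncomputable section
open scoped Manifold ContDiff Topology
open Set Function Filter Real

namespace Crest.Agent.X212.Dgr80
open An An.Job M Nd18 Gj67 Gb50 Cht98 Pj41
open Cay24 (At ev_at mix_hi src_of)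
open Gl67 (ka ka_lip ka_lin ka_zero ka_nonneg ka_mono)
open Neck67 (Lb)
open Cyf70 (IC)

theorem ka_le {s t : ℝ} (h : s ≤ t) (h0 : 0 ≤ t) : ka s ≤ t := by
  linarith [ka_mono h, ka_lip h0, ka_zero le_rfl]

theorem ka_ge (s : ℝ) : s - 1 ≤ ka s := by
  rcases le_total s 1 with h | h
  · linarith [ka_nonneg s]
  · linarith [ka_lin le_rfl h, ka_nonneg 1]

theorem tent_le {R τ u t : ℝ} (h : nl τ / 2 - |u| ≤ t) (hR : R ≤ t) : tent R τ u ≤ t - R :=
  ka_le (by linarith [(rho_spec u).1]) (by linarith)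

theorem tent_ge {R τ u t : ℝ} (h : t ≤ nl τ / 2 - |u|) : t - R - 2 ≤ tent R τ u := by
  have := (rho_spec u).2.1.trans (max_le (show |u| ≤ nl τ / 2 - t + 1 by linarith)
    (by linarith [abs_nonneg u]))
  exact le_trans (by linarith) (ka_ge _)

theorem pm_le (b : Bool) (s : ℝ) : pm b * s ≤ |s| ∧ -pm b * s ≤ |s| := by
  cases b <;> simp [pm, le_abs_self, neg_le_abs]

theorem pm_eq {b b' : Bool} {s : ℝ} (h : 0 < pm b * s) (h' : 1 ≤ pm b' * s) : b' = b := by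
  cases b <;> cases b' <;> simp [pm] at h h' ⊢ <;> linarith

variable {Wi : Type} {X : Mf 4} {A κ lam : Type} [Fintype A] [Fintype κ] [Fintype lam]
  [DecidableEq lam] {M : Mark X A κ} {W : World M} {L : ML M lam} {Λ : Lns W L}
  {A' h : Type} [Fintype A'] [DecidableEq A'] [Fintype h] {r n : ℕ}
  {J : Job Wi Λ A' h r n} {σ : Cel A'} {a : A'}
  {U Up R : Type} [NormedAddCommGroup U] [NormedSpace ℝ U] [NormedAddCommGroup Up]
  [NormedSpace ℝ Up] [NormedAddCommGroup R] [NormedSpace ℝ R] {d : Dat J σ a U Up R}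
  {q₀ : Wi →₀ ℝ} {δ : ℝ} {V : Type} [NormedAddCommGroup V] [NormedSpace ℝ V]

variable (d) in
/-- translations of the cylinder -/
theorem rel_sh (s : ℝ) : FRel d.D.Z d.D.Z (fun z : d.Y × ℝ => (z.1, z.2 + s)) univ :=
  fRel_of_iso (F := d.D.Z) (F' := d.D.Z) (iso_tau d.D.F.toPre s)

theorem mix_lo {τ : d.Ta} (G : At d τ) (f : (W.Z (J.cf a)).M → V) (g : d.Y × ℝ → V) {w}
    (hw : d.hS w < d.la τ - 2) : w ∈ (d.φ τ).source ∧ d.mix τ f g (d.φ τ w) = f w := by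
  have k : w ∈ (d.φ τ).source := G.φ.2.1 ▸ show d.hS w < d.la τ by linarith
  refine ⟨k, ?_⟩
  rw [Dat.mix, Dat.χ, (G.φ.2.2.2 w k).1, smoothTransition.zero_of_nonpos (by linarith),
    (d.φ τ).left_inv k]
  simp

open Classical in
variable (d) in
/-- the global gauge -/
def gG {V : Type} (τ : d.Ta) (t : ℝ) (v : d.Y × ℝ → V) (g : (W.Z (J.cf a)).M → V)
    (x : (W.Z M.c0).M) : V :=
  if (d.KX τ).tm x ∈ Icc t (nl τ - t) then v ((d.KX τ).ψ.symm x) else g ((d.φ τ).symm x)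

variable (H : d.OK q₀ δ)
include H

theorem ev_ta {P : d.Ta → Prop} (k : ∀ᶠ τ in d.lg, P τ) :
    ∀ᶠ t in 𝓝[<] (1 : ℝ), ∃ τ : d.Ta, τ.1 = t ∧ P τ := by
  filter_upwards [act H, nhdsWithin_le_nhds (eventually_comap.1 k)] with t h1 h2
    using ⟨⟨t, h1⟩, rfl, h2 _ rfl⟩

theorem ex_cpt (t : ℝ) : ∃ τ, At d τ ∧ ∃ K, IsCompact K ∧ d.hS ⁻¹' Iio t ⊆ K ∧ K ⊆ (d.φ τ).source := by
  obtain ⟨-, τ, -, G, k⟩ := (ev_ta H ((ev_at (geo H)).and ((geo H).la.eventually_gt_atTop t))).exists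
  have s : d.hX τ ⁻¹' Iic t ⊆ (d.φ τ).target := G.φ.2.2.1 ▸ fun x hx => lt_of_le_of_lt hx k
  refine ⟨τ, G, _, (isClosed_Iic.preimage (d.sm_hX τ).continuous).isCompact.image_of_continuousOn
    ((d.φ τ).continuousOn_symm.mono s), fun w hw => ?_,
    forall_mem_image.2 fun x hx => (d.φ τ).map_target (s hx)⟩
  have e : w ∈ (d.φ τ).source := G.φ.2.1 ▸ lt_trans hw k
  exact ⟨_, (G.φ.2.2.2 w e).1.le.trans (le_of_lt hw), (d.φ τ).left_inv e⟩

/-- **the pre-gluing on the neck** -/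
theorem dec_mix {δ' : ℝ} (h0 : 0 ≤ δ') {f : (W.Z (J.cf a)).M → V} {g : d.Y → V}
    (hf : Sm (W.Z (J.cf a)).I f) (hg : Sm (IC (J.xs d.x).Y.I) fun z : d.Y × ℝ => g z.1)
    (hd : d.Dec δ' f g) (j : ℕ) : ∃ C, ∀ᶠ τ in d.lg, ∀ z ∈ (d.ψ τ).source, Nb d.D.Z.toPre z j
      (fun z => d.mix τ f (fun z => g z.1) (d.ψ τ z) - g z.1) (C * exp (-δ' * d.hZ τ z)) := by
  choose C hC using hd
  obtain ⟨C', hC'⟩ := ((List.finite_length_le (Option κ) j).image C).bddAbove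
  obtain ⟨c, hc⟩ := (UC.const (1 : ℝ)).add ((UC.const (-1 : ℝ)).smul
    (UC.comp ub_st (fun τ => d.sm_hZ τ) uc_hZ))
  refine ⟨2 ^ j * |c j| * |C'|, (hc.and (ev_at (geo H))).mono fun τ ⟨h1, G⟩ z hz => ?_⟩
  have sv := (d.ψ τ).open_source.mem_nhds hz
  by_cases k : d.ψ τ z ∈ (d.φ τ).target
  · obtain ⟨b, -, h2, h3⟩ := G.ovl _ ((d.φ τ).map_target k) z hz ((d.φ τ).right_inv k)
    have c2 : Continuous fun y : d.Y × ℝ => -pm b * y.2 := by fun_prop
    have n1 : Nb d.D.Z.toPre (z.1, z.2 + -(pm b * (nl τ / 2))) j (fun y => f ((d.KS b).ψ y) - g y.1)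
        (|C'| * exp (-δ' * d.hZ τ z)) := by
      refine ⟨{y | d.R0 < -pm b * y.2 ∧ d.hZ τ z < -pm b * y.2}, (isOpen_lt continuous_const c2).inter
        (isOpen_lt continuous_const c2), ⟨h2, lt_of_le_of_lt (tent_le ?_ h2.le)
          (sub_lt_self _ (by linarith [H.R1]))⟩, .of_Dw (fun y hy =>
        ((d.KS b).rel.sm (src_of H hy.1) (hf _)).sub (hg y)) fun w hw y hy => (hC w b y hy.1).trans
          (mul_le_mul ((hC' ⟨w, hw, rfl⟩).trans (le_abs_self _)) (exp_le_exp.2 ?_) (exp_pos _).le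
            (abs_nonneg _))⟩
      · have := (pm_le b z.2).1
        cases b <;> simp only [pm, if_true, Bool.false_eq_true, if_false] at this ⊢ <;> linarith
      · exact mul_le_mul_of_nonpos_left (hy.2.le.trans (pm_le b _).2) (neg_nonpos.2 h0)
    refine (((Nb.of_CBs h1).smul (n1.pull (rel_sh d _) trivial)).congr ?_).mono
      (by rw [abs_of_nonneg (a := _ * exp _) (by positivity), ← mul_assoc])
    filter_upwards [sv, (d.ψ τ).continuousAt hz ((d.φ τ).open_target.mem_nhds k),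
      (continuous_const.mul continuous_snd).continuousAt.eventually_const_lt
        (one_pos.trans_le h3)] with y hy k1 k2
    obtain ⟨b', k3, -, k4⟩ := G.ovl _ ((d.φ τ).map_target k1) y hy ((d.φ τ).right_inv k1)
    rw [Dat.mix, Dat.χ, (G.ψ.2.2.2 y hy).1, (d.ψ τ).left_inv hy, k3, pm_eq k2 k4,
      ← sub_eq_add_neg]
    module
  · rw [G.φ.2.2.1, mem_preimage, (G.ψ.2.2.2 z hz).1] at k
    refine ((Nb.const 0).congr ?_).mono (norm_zero.trans_le (by positivity))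
    filter_upwards [sv, (d.sm_hZ τ).continuous.continuousAt.eventually_const_lt
      (show d.la τ - 1 < d.hZ τ z by linarith [(not_lt.1 k : d.la τ ≤ _)])] with y hy k1
    rw [mix_hi _ _ hy ((G.ψ.2.2.2 y hy).1 ▸ k1.le), sub_self]

variable {τ : d.Ta} (T : Lg d τ) {t : ℝ}
include T

theorem tm_ψ {z} (hz : z ∈ (d.ψ τ).source) : (d.KX τ).tm (d.ψ τ z) = z.2 + nl τ / 2 :=
  (d.KX τ).tm_ψ _ (ψ_mem H T hz.2)

theorem tk_pt (ht : d.R0 ≤ t) {x} (hx : (d.KX τ).tm x ∉ Icc t (nl τ - t)) : d.hX τ x < t := by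
  by_contra! k
  have h1 := H.R1
  rw [(hX_pos H T (by linarith)).2] at k
  refine (k.trans (tent_le ?_ ht)).not_gt (by linarith)
  rcases not_and_or.1 hx with e | e
  · linarith [neg_le_abs ((d.KX τ).tm x - nl τ / 2), not_le.1 e]
  · linarith [le_abs_self ((d.KX τ).tm x - nl τ / 2), not_le.1 e]

theorem nk_pt (ht : d.R0 + 3 ≤ t) {x} (hx : (d.KX τ).tm x ∈ Icc t (nl τ - t)) :
    t - d.R0 - 2 ≤ d.hX τ x ∧ d.hX τ x ≤ min ((d.KX τ).tm x) (nl τ - (d.KX τ).tm x) := by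
  have h1 := H.R1
  rw [hX_eq H T, tf_mid (by linarith [hx.1]) (by linarith [hx.2])]
  refine ⟨tent_ge (le_sub_comm.1 (abs_le.2 ⟨by linarith [hx.1], by linarith [hx.2]⟩)),
    le_trans (tent_le ?_ ?_) (sub_le_self _ (by linarith))⟩
  swap
  · exact le_min (by linarith [hx.1]) (by linarith [hx.2])
  exact le_min (by linarith [neg_le_abs ((d.KX τ).tm x - nl τ / 2)])
    (by linarith [le_abs_self ((d.KX τ).tm x - nl τ / 2)])

theorem gG_nk (G : At d τ) {V : Type} {v : d.Y × ℝ → V} {g : (W.Z (J.cf a)).M → V}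
    (ag : ∀ b z s, |s - t| < 1 →
      v (z, if b then nl τ - s else s) = g ((d.KS b).ψ (z, -pm b * s)))
    (ht : d.R0 ≤ t) (hl : t ≤ d.la τ) (h2 : t ≤ nl τ - t) {z} (hz : z ∈ (d.ψ τ).source)
    (hz' : z.2 + nl τ / 2 ∈ Ioo (t - 1) (nl τ - t + 1)) :
    gG d τ t v g (d.ψ τ z) = v (z.1, z.2 + nl τ / 2) := by
  unfold gG
  split_ifs with k
  · exact congrArg v ((d.KX τ).ψ.left_inv (ψ_mem H T hz.2))
  have k1 : d.ψ τ z ∈ (d.φ τ).target := G.φ.2.2.1 ▸ (tk_pt H T ht k).trans_le hl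
  obtain ⟨b, k2, -, k3⟩ := G.ovl _ ((d.φ τ).map_target k1) z hz ((d.φ τ).right_inv k1)
  rw [tm_ψ H T hz, mem_Icc, not_and_or, not_le, not_le] at k
  have := ag b z.1 (nl τ / 2 - pm b * z.2) (abs_lt.2 (by
    have := hz'.1
    have := hz'.2
    cases b <;> simp only [pm, if_true, Bool.false_eq_true, if_false] at k3 ⊢ <;>
      rcases k with k | k <;> constructor <;> linarith))
  rw [k2]
  convert this.symm using 4 <;> cases b <;> simp [pm] <;> ring

end Crest.Agent.X212.Dgr80
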