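import Crest.Agent.X212.Dgr80.As1

/-!
# Row 212, DG-ASM (helper80): closeness at points of the neck and of the thick part
-/

set_option autoImplicit false
set_option linter.unusedSectionVars false
noncomputable section
open scoped Manifold ContDiff Topology
open Set Function Filter Real

namespace Crest.Agent.X212.Dgr80
open An An.Job M Nd18 Gj67 Gb50 Cht98 Pj41
open Cay24 (At ev_at)
open Neck67 (Lb)
open Cyf70 (IC)
open Bki64 (dA dP Cl win ZZ)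
open Sob92 (dv dv_congr)

variable {Wi : Type} {X : Mf 4} {A κ lam : Type} [Fintype A] [Fintype κ] [Fintype lam]
  [DecidableEq lam] {M : Mark X A κ} {W : World M} {L : ML M lam} {Λ : Lns W L}
  {A' h : Type} [Fintype A'] [DecidableEq A'] [Fintype h] {r n : ℕ}
  {J : Job Wi Λ A' h r n} {σ : Cel A'} {a : A'}
  {U Up R : Type} [NormedAddCommGroup U] [NormedSpace ℝ U] [NormedAddCommGroup Up]
  [NormedSpace ℝ Up] [NormedAddCommGroup R] [NormedSpace ℝ R] {d : Dat J σ a U Up R}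
  {q₀ : Wi →₀ ℝ} {δ : ℝ} (H : d.OK q₀ δ)

theorem rf_W (τ : d.Ta) (u : U) (i : Option κ) (x : (W.Z M.c0).M) : @Eq (En (Fin d.N))
    ((d.rf τ u).W i x)
    (d.mix τ (d.S.A0 i) ((d.Z τ).A0 i) x + opL (d.mix τ d.S.b (d.Z τ).b x u i)) := rfl

include H

/-- the neck does not depend on the other parameters -/
theorem K_eq {τ : d.Ta} (T : Lg d τ) {p} (ha : Act J.m M.c0 d.x none p) (e : p.2 d.x = τ) {z}
    (hz : z ∈ (d.KX τ).ψ.source) : z ∈ (J.K _ d.x none _ ha).ψ.source ∧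
      (d.KX τ).ψ z = (J.K _ d.x none _ ha).ψ z := by
  have e' : (J.Θ (d.s τ 0)).2 d.x = τ := T.x 0
  have k := (d.KX τ).mem_src.1 hz
  have k' : z.2 ∈ (J.K _ d.x none _ ha).J := by
    rw [isNk_J ha (H.ok.nk _ _ _ _ _), e, ← e', ← isNk_J τ.2 (H.ok.nk _ _ _ _ _)]; exact k
  exact ⟨(Nk.mem_src _).2 k', by
    rw [isNk_ψ ha (H.ok.nk _ _ _ _ _) k', isNk_ψ τ.2 (H.ok.nk _ _ _ _ _) k, e, e']⟩

/-- points of the neck -/
theorem gp_nk {δ' : ℝ} (h0 : 0 ≤ δ') (hA : ∀ i, d.Dec δ' (d.y.x.W i) (d.AZ i))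
    (hΦ : d.Dec δ' d.y.x.Φ d.ΦZ) (j : ℕ) : ∃ C, ∀ᶠ τ : d.Ta in d.lg, ∀ (y : J.Obc M.c0)
      (ha : Act J.m M.c0 d.x none (J.Θ y.s)) (u : U) (θ : Circle)
      (v : d.Y × ℝ → CL y.x.m.V (d.β u).m.V) (g : (W.Z M.c0).M → CL y.x.m.V (d.rf τ u).m.V) η O,
      (J.Θ y.s).2 d.x = τ → ∀ z ∈ (d.ψ τ).source,
      (∀ᶠ z' in 𝓝 z, g (d.ψ τ z') = v (z'.1, z'.2 + nl τ / 2)) → (z.1, z.2 + nl τ / 2) ∈ O →
      Cl d.D.Z ((J.K _ d.x none _ ha).pb y.x) (cy (d.β u)) v (fun _ => θ) O j η →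
      GP (d.FX τ).F0 (J.G M.c0 y.s).F y.x (d.rf τ u) g θ j (η + C * exp (-δ' * d.hZ τ z))
        (d.ψ τ z) := by
  have Z := H.okZ 0
  obtain ⟨P, hP⟩ := Z.cp
  choose C hC using fun i => dec_mix H h0 (Prm93.Cb.sm (H.okS.cA i)) (Prm93.Cb.sm (Z.cA i)) (hA i) j
  obtain ⟨C', hC'⟩ := dec_mix H h0 (Prm93.Cb.sm H.okS.cΦ) (Prm93.Cb.sm Z.cΦ) hΦ j
  obtain ⟨B, hB⟩ := Finite.bddAbove_range fun i => 2 ^ j * |C i| * |P j|
  refine ⟨max B |C'|, ?_⟩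
  filter_upwards [eventually_all.2 hC, hC', ev_lg H, ev_at (geo H)] with τ k1 k2 T G y ha u θ v g η O
    e z hz ev hO cl
  have r0 := fRel_of_iso (F := d.D.Z) (F' := (d.FX τ).F0) G.ψ.1
  have sh := rel_sh d (nl τ / 2)
  have eK := fun z' (k : z' ∈ (d.ψ τ).source) => K_eq H T ha e (ψ_mem H T k.2)
  have r1 : FRel d.D.Z (J.G M.c0 y.s).F (d.ψ τ) (d.ψ τ).source :=
    ((sh.mono r0.op (subset_univ _)).trans (J.K _ d.x none _ ha).rel fun z' k => (eK z' k).1).congr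
      fun z' k => (eK z' k).2
  have ch := ch_ψ G H
  have nr : ∀ᶠ z' in 𝓝 z, z' ∈ (d.ψ τ).source ∧ (z'.1, z'.2 + nl τ / 2) ∈ O :=
    (r0.op.eventually_mem hz).and ((sh.ld z trivial).contMDiffAt.continuousAt (cl.op.mem_nhds hO))
  refine ⟨iso0_at cl.iso hO (fsm_ld (r0.ld z hz) ((sh.sm trivial
    (cl.iso.su _ hO)).congr_of_eventuallyEq ev)) ev.self_of_nhds
    ⟨congrArg y.x.m.p (eK z hz).2, fun i => congrArg (y.x.m.ρ i) (eK z hz).2,
      congrArg y.x.m.j (eK z hz).2⟩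
    ⟨ch.p z hz, fun i => ch.ρ i z hz, ch.j z hz⟩, fun i => .push r0 hz ?_, .push r0 hz ?_⟩
  · refine (((Nb.pull sh trivial ⟨O, cl.op, hO, cl.A i⟩).add ((k1 i z hz).comp
      (.of_CBs hP))).congr ?_).mono (add_le_add_right ?_ _)
    · filter_upwards [nr, ev.eventually_nhds] with z' k k'
      have a1 : d.mix τ d.S.b (d.Z τ).b (d.ψ τ z') = d.bZ z'.1 := mix_ψ G H H.lb k.1
      have a2 : @Eq (En (Fin d.N)) ((d.rf τ u).W i (d.ψ τ z')) (d.AZ i z'.1 + opL (d.bZ z'.1 u i) +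
          (d.mix τ (d.S.A0 i) ((d.Z τ).A0 i) (d.ψ τ z') - d.AZ i z'.1)) := by rw [rf_W, a1]; abel
      exact dA_add k'.self_of_nhds ((r1.D k.1 i (k'.mono fun _ e => e.symm)).symm.trans
        (sh.D trivial i (.of_forall fun _ => rfl))) (congrArg (y.x.W i) (eK z' k.1).2) a2
        (by rw [← ad_trn]; exact (cl.iso.iso _ k.2).tgt)
    · rw [abs_mul, abs_of_pos (exp_pos _), ← mul_assoc, mul_right_comm]
      exact mul_le_mul_of_nonneg_right ((hB ⟨i, rfl⟩).trans (le_max_left _ _)) (exp_pos _).le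
  · refine (((Nb.pull sh trivial ⟨O, cl.op, hO, cl.P⟩).sub (k2 z hz)).congr ?_).mono
      (add_le_add_right ?_ _)
    · filter_upwards [nr, ev] with z' k k'
      refine Eq.trans (congrArg₂ (fun (s : CL y.x.m.V (d.β u).m.V) t => cs d.Jc θ (s (y.x.Φ t)) -
        d.mix τ d.S.Φ0 (d.Z τ).Φ0 (d.ψ τ z')) k' (eK z' k.1).2) ?_
      exact (sub_sub_sub_cancel_right _ _ _).symm
    · rw [abs_mul, abs_of_pos (exp_pos _)]
      exact mul_le_mul_of_nonneg_right (le_max_right _ _) (exp_pos _).le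

variable (d) in
/-- the local data on the face -/
structure LP (y : J.Obc M.c0) (g : (W.Z (J.cf a)).M → CL y.x.m.V d.y.x.m.V) (θ : Circle) (j : ℕ)
    (η : ℝ) (w : (W.Z (J.cf a)).M) : Prop where
  iso : ∀ᶠ w' in 𝓝 w, Iso0 (W.Z (J.cf a)).I (pb (up (J.cf a)) y.x).m d.y.x.m {w'} g
  A : ∀ i, Nb d.FS.F0.toPre w j (fun x => (dv _ (J.fu (J.cf a) y.s i) g x + d.y.x.W i x ∘L g x -
    g x ∘L y.x.W i (up (J.cf a) x)) ∘L trn (g x)) η
  P : Nb d.FS.F0.toPre w j (fun x => cs d.Jc θ (g x (y.x.Φ (up (J.cf a) x))) - d.y.x.Φ x) η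

/-- points of the thick part -/
theorem gp_tk (j : ℕ) : ∃ C ≥ 0, ∀ τ, At d τ → ∀ (y : J.Obc M.c0) (u : U) (θ : Circle)
    (g : (W.Z (J.cf a)).M → CL y.x.m.V d.y.x.m.V) (g' : (W.Z M.c0).M → CL y.x.m.V (d.rf τ u).m.V) η,
    J.Θ y.s ∈ M.O M.c0.1 → ∀ w, d.hS w < d.la τ - 2 → (∀ᶠ w' in 𝓝 w, g' (d.φ τ w') = g w') →
    LP d y g θ j η w →
    GP (d.FX τ).F0 (J.G M.c0 y.s).F y.x (d.rf τ u) g' θ j (η + C * ‖u‖) (d.φ τ w) := by
  obtain ⟨P, hP⟩ := H.okS.cp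
  obtain ⟨Q, hQ⟩ := H.okS.cb
  obtain ⟨B, hB⟩ := Finite.bddAbove_range fun i : Option κ =>
    2 ^ j * (‖opL ∘L Map77.pj (HS (Fin d.N)) i‖ * (2 ^ j * |Q j|)) * |P j|
  refine ⟨|B|, abs_nonneg _, fun τ G y u θ g g' η hy w hw ev lp => ?_⟩
  have r0 := fRel_of_iso (F := d.FS.F0) (F' := (d.FX τ).F0) G.φ.1
  have ch := ch_φ G H
  have hs := (mix_lo G d.hS 0 hw).1
  have nr := d.sm_hS.continuous.continuousAt.eventually_lt_const hw
  refine ⟨iso0_at lp.iso.self_of_nhds rfl (fsm_ld (r0.ld w hs) ((lp.iso.self_of_nhds.su _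
    rfl).congr_of_eventuallyEq ev)) ev.self_of_nhds ⟨rfl, fun _ => rfl, rfl⟩
    ⟨ch.p w hs, fun i => ch.ρ i w hs, ch.j w hs⟩, fun i => .push r0 hs ?_, .push r0 hs ?_⟩
  · refine (((lp.A i).add ((((Nb.of_CBs hQ).app (.const u)).clm
      (opL ∘L Map77.pj (HS (Fin d.N)) i)).comp (.of_CBs hP))).congr ?_).mono (add_le_add_right ?_ _)
    · filter_upwards [nr, ev.eventually_nhds, lp.iso] with w' k k' k1
      have k2 := r0.ld w' (mix_lo G d.hS 0 k).1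
      have a2 : @Eq (En (Fin d.N)) ((d.rf τ u).W i (d.φ τ w')) (d.S.A0 i w' + opL (d.S.b w' u i)) := by
        rw [rf_W, (mix_lo G _ _ k).2, (mix_lo G _ _ k).2]
      refine dA_add k'.self_of_nhds ?_ rfl a2 (by rw [← ad_trn]; exact (k1.iso _ rfl).tgt)
      refine Eq.trans ?_ ((dv_ld k2 (Met55.pbv_rel k2 _) g').symm.trans (dv_congr k'))
      exact congrArg (fun e => dv _ (e i) g' _) ((W.L J.m M.c0).F_e (Mark.mem_Ω _ hy))
    · rw [abs_norm, abs_of_nonneg (by positivity)]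
      refine le_trans (le_of_eq (by ring)) (mul_le_mul_of_nonneg_right
        ((hB ⟨i, rfl⟩).trans (le_abs_self _)) (norm_nonneg u))
  · refine (lp.P.congr ?_).mono (le_add_of_nonneg_right (by positivity))
    filter_upwards [nr, ev] with w' k k'
    exact congrArg₂ (fun (s : CL y.x.m.V d.y.x.m.V) t => cs d.Jc θ (s (y.x.Φ (d.φ τ w'))) - t) k'
      (mix_lo G d.S.Φ0 (d.Z τ).Φ0 k).2

/-- local limits give the local data -/
theorem ev_lp {α : Type} {l : Filter α} {y : α → J.Obc M.c0} {g θ}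
    (ul : Dat.UL l y d.y.x g θ) (hs : ∀ᶠ i in l, (y i).x.m.OK (W.Z M.c0).I (J.B M.c0)) (t : ℝ) (j : ℕ)
    {η : ℝ} (h0 : 0 < η) : ∀ᶠ i in l, ∀ w, d.hS w < t → LP d (y i) (g i) (θ i) j η w := by
  obtain ⟨τ, G, K, hK, h1, h2⟩ := ex_cpt H t
  have o : IsOpen (d.hS ⁻¹' Iio t) := isOpen_Iio.preimage d.sm_hS.continuous
  have k0 : ∀ᶠ i in l, ∀ w ∈ K, Iso0 (W.Z (J.cf a)).I (pb (up (J.cf a)) (y i).x).m d.y.x.m {w}
      (g i) := Cmp73.ev_compact hK fun x hx => by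
    obtain ⟨N, e1, e2, e3⟩ := ul.m x trivial
    have o' := e1.inter (d.φ τ).open_source
    refine ((e3.and hs).prod_mk (o'.mem_nhds ⟨e2, h2 hx⟩)).mono fun q hq => (Iso0.of_mEq o'
      ⟨hq.1.1.su.mono inter_subset_left, fun x k => hq.1.1.uu x k.1, fun x k => hq.1.1.uu' x k.1,
        fun x k => hq.1.1.J x k.1, fun x k => hq.1.1.ρ x k.1, fun x k => hq.1.1.j x k.1⟩
      (((ch_φ G H).g.okOn_iff.2 (OK.on hq.1.2 _)).mono inter_subset_right)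
      (OK.on H.okS.ok _)).mono (singleton_subset_iff.2 hq.2)
  filter_upwards [eventually_all.2 fun i => ZZ.of_cv (F := d.FS.F0.toPre) isOpen_univ hK
    (subset_univ _) o h1 j (ul.A i) η h0, ZZ.of_cv (F := d.FS.F0.toPre) isOpen_univ hK (subset_univ _)
      o h1 j ((ul.Φ.sub (Cmp73.Cv.fixed' (Prm93.Cb.sm H.okS.cΦ))).congr' isOpen_univ
        (.of_forall fun _ _ _ => rfl) fun x _ => (sub_self _).symm) η h0, k0] with i k1 k2 k3 w hw
  exact ⟨(o.eventually_mem hw).mono fun w' k => k3 w' (h1 k), fun b => ⟨_, o, hw, (k1 b).2⟩,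
    _, o, hw, k2.2⟩

end Crest.Agent.X212.Dgr80
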