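import Crest.Agent.X212.Dgr80.E1b

/-!
# Row 212, DGR (helper80): the total work of the gradient term on a neck is bounded
-/

set_option autoImplicit false
set_option linter.unusedSectionVars false
noncomputable section
open scoped Manifold ContDiff Topology InnerProductSpace Classical
open MeasureTheory Set Function Filter

namespace Crest.Agent.X212.Dgr80
open An Wz78 Nd18 Cyf70 Nka63

theorem Sb.ibp {p q : Option ℝ} {a a' L : ℝ} (S : Sb p q a a') {ψ ψ' : ℝ → ℝ}
    (h : ∀ t, HasDerivAt ψ (ψ' t) t) (hc : Continuous ψ') (hL : ∀ t, |ψ t| ≤ L) :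
    |∫ t, θc a a' t * (ct p q 3 t * ψ' t)| ≤ 80 * (2 * cA * L) := by
  have d : ∀ p q t, HasDerivAt (ct p q 3) (deriv (ct p q 3) t) t :=
    fun _ _ t => (contDiff_ct.differentiable (by simp) t).hasDerivAt
  have c0 := fun p q => (contDiff_ct (p := p) (q := q) (d := 3)).continuous
  have c1 := fun p q => (cd_deriv (contDiff_ct (p := p) (q := q) (d := 3))).continuous
  have c2 : Continuous ψ := continuous_iff_continuousAt.2 fun t => (h t).continuousAt
  have s : HasCompactSupport (θc a a') := (isCompact_Icc (a := a + 3) (b := a' - 3)).of_isClosed_subset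
    (isClosed_tsupport _) (tsupport_ct.trans fun s hs => ⟨hs.1 a rfl, hs.2 a' rfl⟩)
  have m : ∀ p q t, |ct p q 3 t| ≤ 1 := fun _ _ _ => (abs_of_nonneg ct_mem.1).trans_le ct_mem.2
  have i1 := int_Zc (a := a) (a' := a') (f := fun t => (deriv (θc a a') t * ct p q 3 t +
      θc a a' t * deriv (ct p q 3) t) * ψ t) (C := 2 * cA * L)
    ((((c1 _ _).mul (c0 _ _)).add ((c0 _ _).mul (c1 _ _))).mul c2) (fun t => ?_) fun t ht => ?_
  · have i2 : Integrable fun t => θc a a' t * (ct p q 3 t * ψ' t) :=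
      ((c0 _ _).mul ((c0 _ _).mul hc)).integrable_of_hasCompactSupport s.mul_right
    have e := integral_eq_zero_of_hasDerivAt_of_integrable
      (fun t => (((d (some a) (some a') t).fun_mul (d p q t)).fun_mul (h t)))
      ((i1.1.add i2).congr (.of_forall fun t => by simp only [Pi.add_apply]; ring))
      ((((c0 _ _).mul (c0 _ _)).mul c2).integrable_of_hasCompactSupport s.mul_right.mul_right)
    simp only [mul_assoc (θc a a' _)] at e
    rw [integral_add i1.1 i2, add_eq_zero_iff_neg_eq] at e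
    rw [← e, abs_neg]
    exact abs_integral_le_integral_abs.trans i1.2
  · rw [abs_mul]
    refine mul_le_mul ((abs_add_le _ _).trans ?_) (hL t) (abs_nonneg _) (by linarith [one_le_cA])
    rw [abs_mul, abs_mul, two_mul]
    exact add_le_add ((mul_le_of_le_one_right (abs_nonneg _) (m _ _ _)).trans dct_le)
      ((mul_le_of_le_one_left (abs_nonneg _) (m _ _ _)).trans dct_le)
  · have k : t ∉ Zc a a' 3 4 := fun e => ht (Zc_sub e)
    rw [dθ_off t k, zero_mul, zero_add]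
    by_cases e : t ∈ Dp (some a) (some a') 3
    · have k' : t ∈ Dq (some a) (some a') 4 := by_contra fun e' => k ⟨e, e'⟩
      obtain ⟨_, h1, h2⟩ := exists_Dp k'
      rw [dct_zero (Dp_sub_Dq (by linarith) (S.dp h2)), mul_zero, zero_mul]
    · rw [show θc a a' t = 0 from ct_zero e, zero_mul, zero_mul]

variable {E : Type} [NormedAddCommGroup E] [NormedSpace ℝ E] [FiniteDimensional ℝ E]
  [MeasurableSpace E] [BorelSpace E]
  {HM : Type} [TopologicalSpace HM] {I : ModelWithCorners ℝ E HM} [I.Boundaryless]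
  {M : Type} [TopologicalSpace M] [ChartedSpace HM M] [IsManifold I ∞ M]
  [MeasurableSpace M] [T2Space M] [BorelSpace M] [SecondCountableTopology M]
  {lam : Type} [Fintype lam] {r n : ℕ}
  {E3 : Type} [NormedAddCommGroup E3] [NormedSpace ℝ E3] [FiniteDimensional ℝ E3]
  [MeasurableSpace E3] [BorelSpace E3]
  {H3 : Type} [TopologicalSpace H3] {I3 : ModelWithCorners ℝ E3 H3} [I3.Boundaryless]
  {Y : Type} [TopologicalSpace Y] [ChartedSpace H3 Y] [IsManifold I3 ∞ Y] [T2Space Y]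
  [MeasurableSpace Y] [BorelSpace Y] [SecondCountableTopology Y] [CompactSpace Y]
  {κ : Type} [Fintype κ] {D : YD I3 Y κ lam} {B : Base M (Option κ) lam}
  {G : Geo I M (Option κ) lam} {K : Nk D B G} {a a' δ k L : ℝ}
  {U P : Type} [NormedAddCommGroup U] [InnerProductSpace ℝ U] [CompleteSpace U]
  [NormedAddCommGroup P] [InnerProductSpace ℝ P] {α : M → Fm (Option κ) U} {φ : M → P}

theorem sfin {ι : Type} [Fintype ι] (F : Pre I M ι) : SFinite F.μ :=
  have := Manifold.locallyCompact_of_finiteDimensional (M := M) I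
  inferInstance

theorem cb_cv (hδ : 0 < δ) {c : ℝ → ℝ} (hc : Continuous c) (hL : ∀ t, |c t| ≤ L) :
    G.F.Cb fun x => cv δ c (K.τ x) :=
  have h := cv_bounds hδ hc.aestronglyMeasurable hL
  cb_time K (C := fun k => ∑ i ∈ Finset.range (k + 1), cb δ i * L) h.1 fun _ i hi t =>
    (h.2.2 i t).trans (Finset.single_le_sum (f := fun i => cb δ i * L) (fun _ _ => mul_nonneg
      (cb_nonneg _ _) ((abs_nonneg _).trans (hL 0))) (Finset.mem_range_succ_iff.2 hi))

/-- the constant of one density -/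
def cW (δ k L : ℝ) : ℝ := k * ((L ^ 2 + 1) * (640 * cA ^ 4) + L * (80 * cA + 128 * Real.exp (δ / 2)))

variable (S : Sb K.p K.q a a') (dv : ∀ x ∈ O K 2, G.F.dv none x = 0) (hδ : 0 < δ)
include S dv hδ

theorem Sb.work1 {d : RD M (Option κ) U P} (h : RD.Tr G.F none (O K 2) α φ k d)
    (h0 : ∀ x ∉ K.dp 1, d.h x = 0) {c : ℝ → ℝ} (hc : Continuous c) (hL : ∀ t, |c t| ≤ L)
    (k0 : 0 ≤ k) : |∫ x, θc a a' (K.τ x) * (⟪α x, d.gA (fun y => cv δ c (K.τ y)) x⟫_ℝ +
      ⟪φ x, d.gP (fun y => cv δ c (K.τ y)) x⟫_ℝ) ∂G.F.μ -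
      ∫ t, θc a a' t * c t * wnd G.F.μ K.τ δ 1 d.h t| ≤ cW δ k L * vY D := by
  have β := cv_bounds hδ hc.aestronglyMeasurable hL
  have L0 := (abs_nonneg _).trans (hL 0)
  have := sfin G.F.toPre
  have e1 := h.tr _ L _ _ (cb_cv (K := K) hδ hc hL) (fun x => β.2.1 _) S.tf
  have c0 := (contDiff_ct (p := some a) (q := some a') (d := 3))
  have z : ∀ s ∉ Dp (some a) (some a') 3, θc a a' s * cv δ c s = 0 := fun s hs =>
    mul_eq_zero_of_left (ct_zero hs) _
  have t1 := S.ts (I := I) (c0.mul β.1) (d := 3) (by norm_num) (by norm_num : (2 : ℝ) < 3) z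
  have m := h.sm.continuous.aestronglyMeasurable (μ := G.F.μ)
  have hθ : ∀ t, |θc a a' t * c t| ≤ L := fun t => (abs_mul _ _).trans_le
    ((mul_le_of_le_one_left (abs_nonneg _) ((abs_of_nonneg ct_mem.1).trans_le ct_mem.2)).trans (hL t))
  obtain ⟨i1, e2⟩ := (wi K hδ m h0 fun x _ => h.le x).fub hδ (c0.continuous.fun_mul hc)
    (HasCompactSupport.mul_right ((isCompact_Icc (a := a + 3) (b := a' - 3)).of_isClosed_subset
      (isClosed_tsupport _) (tsupport_ct.trans fun s hs => ⟨hs.1 a rfl, hs.2 a' rfl⟩)))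
  have c1 := (cd_deriv c0).continuous.fun_mul β.1.continuous
  have c2 := (c0.continuous.fun_mul (continuous_cv1 hδ hc hL)).fun_sub
    (continuous_cv1 hδ (c0.continuous.fun_mul hc) hθ)
  have j1 := int_Zc (a := a) (a' := a') c1 (C := cA * L) (fun s => (abs_mul _ _).trans_le
    (mul_le_mul dct_le (β.2.1 s) (abs_nonneg _) (by linarith [one_le_cA]))) fun s hs =>
      mul_eq_zero_of_left (dθ_off s fun e => hs (Zc_sub e)) _
  have j2 := int_of_lz (half_pos hδ) c2.aestronglyMeasurable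
    (comm_lz hδ hc hL c0.continuous (fun _ => ct_mem) fun _ _ => ct_ne)
  have i2 := integrable_time K j1.1 c1.measurable m h0 fun x _ => h.le x
  have i3 := integrable_time K j2.1 c2.measurable m h0 fun x _ => h.le x
  have n2 := norm_integral_time_le K j1.1 h0 fun x _ => h.le x
  have n3 := norm_integral_time_le K j2.1 h0 fun x _ => h.le x
  have i4 := (t1.mul (G.F.sm_D h.sm none)).int G.F
  have e3 := ibp0_fun (F := G.F) dv (t1.mul h.sm)
  have e4 : ∀ x, G.F.D none (fun x => θc a a' (K.τ x) * cv δ c (K.τ x) * d.h x) x =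
      (deriv (θc a a') (K.τ x) * cv δ c (K.τ x)) • d.h x + (θc a a' (K.τ x) * cv1 δ c (K.τ x) -
        cv1 δ (fun t => θc a a' t * c t) (K.τ x)) • d.h x +
        cv1 δ (fun t => θc a a' t * c t) (K.τ x) * d.h x +
        θc a a' (K.τ x) * cv δ c (K.τ x) * G.F.D none d.h x := fun x => by
    rw [Pre.D_def, dv_mul (t1.sm x) (h.sm x), ← Pre.D_def, ← Pre.D_def,
      D_time0 K (c0.mul β.1) (S.off (by norm_num) z)]
    beta_reduce
    rw [(((c0.differentiable (by simp) _).hasDerivAt).fun_mul (hasDerivAt_cv hδ hc hL _)).deriv,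
      smul_eq_mul, smul_eq_mul]
    ring
  simp only [e4] at e3
  rw [integral_add ((i2.fun_add i3).fun_add i1) i4, integral_add (i2.fun_add i3) i1,
    integral_add i2 i3, e2] at e3
  simp only [← mul_assoc (θc a a' _)] at e1
  rw [Real.norm_eq_abs, abs_of_nonneg k0] at n2 n3
  have v := vY_nonneg D
  have b1 := mul_le_mul_of_nonneg_left (mul_le_mul_of_nonneg_left (S.nz (G := G))
    (show 0 ≤ L ^ 2 + 1 by positivity)) k0
  have b2 := mul_le_mul_of_nonneg_left (mul_le_mul_of_nonneg_left j1.2 v) k0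
  have b3 := mul_le_mul_of_nonneg_left (mul_le_mul_of_nonneg_left j2.2 v) k0
  rw [abs_le] at e1 n2 n3 ⊢
  rw [cW]
  constructor <;> linarith [e1.1, e1.2, n2.1, n2.2, n3.1, n3.2]

omit S dv in
theorem co_bd {J : Type} [Fintype J] [DecidableEq J] {N : DG M (Option κ) lam r J}
    {c : Cfg M (Option κ) lam r} (eτ : N.τ = K.τ) (ec : N.cut = K.cut 3) (eδ : ∀ j, N.δ j = δ)
    (hm : ∀ j, Continuous ((N.d j).h c)) (hk : ∀ j x, |(N.d j).h c x| ≤ k)
    (h0 : ∀ j, ∀ x ∉ K.dp 1, (N.d j).h c x = 0) (hφ : ContDiff ℝ ∞ N.φ)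
    (hL : ∀ x, ‖x‖ ≤ |k| * vY D → |N.φ x| ≤ L ∧ ‖fderiv ℝ N.φ x‖ ≤ L) :
    (∀ t, HasDerivAt (N.Iv G.F c) (fun j => wnd G.F.μ K.τ δ 1 ((N.d j).h c) t) t) ∧
    (∀ j, Continuous (wnd G.F.μ K.τ δ 1 ((N.d j).h c))) ∧ (∀ t, |N.φ (N.Iv G.F c t)| ≤ L) ∧
    ∀ j, Continuous (N.co G.F c j) ∧ ∀ t, |N.co G.F c j t| ≤ L := by
  have w := fun j => wi K hδ (hm j).aestronglyMeasurable (h0 j) fun x _ => hk j x
  have d : ∀ t, HasDerivAt (N.Iv G.F c) (fun j => wnd G.F.μ K.τ δ 1 ((N.d j).h c) t) t := fun t =>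
    hasDerivAt_pi.2 fun j => by simpa only [DG.Iv, eτ, eδ] using (w j).hasDerivAt_wn hδ t
  have e := fun t => hL (N.Iv G.F c t) ((pi_norm_le_iff_of_nonneg (mul_nonneg (abs_nonneg _)
    (vY_nonneg D))).2 fun j => by
      simpa only [DG.Iv, eτ, eδ] using norm_wn_le K hδ (h0 j) (fun x _ => hk j x) t)
  refine ⟨d, fun j => ((w j).contDiff_wnd hδ 1).continuous, fun t => (e t).1, fun j =>
    ⟨(show Continuous N.cut from ec ▸ contDiff_ct.continuous).mul (((hφ.continuous_fderiv (by simp)).comp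
      (continuous_iff_continuousAt.2 fun t => (d t).continuousAt)).clm_apply continuous_const),
      fun t => (abs_mul _ _).trans_le ((mul_le_of_le_one_left (abs_nonneg _)
        (ec ▸ (abs_of_nonneg ct_mem.1).trans_le ct_mem.2)).trans
          ((Real.norm_eq_abs _).symm.trans_le ((ContinuousLinearMap.le_opNorm _ _).trans ?_)))⟩⟩
  rw [Pi.norm_single, norm_one, mul_one]
  exact (e t).2

/-- the work of the gradient term -/
theorem Sb.work {J : Type} [Fintype J] [DecidableEq J] {N : DG M (Option κ) lam r J}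
    {c : Cfg M (Option κ) lam r} {α : M → Fm (Option κ) c.m.A} {φ : M → c.m.V} (sα : Sm I α)
    (sφ : Sm I φ) (eτ : N.τ = K.τ) (ec : N.cut = K.cut 3) (eδ : ∀ j, N.δ j = δ)
    (h : ∀ j, RD.Tr G.F none (O K 2) α φ k ((N.d j).rd c)) (k0 : 0 ≤ k)
    (h0 : ∀ j, ∀ x ∉ K.dp 1, (N.d j).h c x = 0) (hφ : ContDiff ℝ ∞ N.φ)
    (hL : ∀ x, ‖x‖ ≤ |k| * vY D → |N.φ x| ≤ L ∧ ‖fderiv ℝ N.φ x‖ ≤ L) :
    Integrable (fun x => θc a a' (K.τ x) * (⟪α x, N.gA G.F c x⟫_ℝ + ⟪φ x, N.gP G.F c x⟫_ℝ)) G.F.μ ∧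
    |∫ x, θc a a' (K.τ x) * (⟪α x, N.gA G.F c x⟫_ℝ + ⟪φ x, N.gP G.F c x⟫_ℝ) ∂G.F.μ| ≤
      Fintype.card J * (cW δ k L * vY D) + 80 * (2 * cA * L) := by
  obtain ⟨d, c1, b, hc⟩ := co_bd hδ eτ ec eδ (fun j => (h j).sm.continuous) (fun j => (h j).le) h0 hφ hL
  have cb := fun j => cb_cv (G := G) (K := K) hδ (hc j).1 (hc j).2
  have i := fun j => ((S.tf (G := G)).ts.mul
    (sm_pair sα ((h j).sA _ (cb j)) sφ ((h j).sP _ (cb j)))).int G.F
  have e : ∀ x, θc a a' (K.τ x) * (⟪α x, N.gA G.F c x⟫_ℝ + ⟪φ x, N.gP G.F c x⟫_ℝ) =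
      ∑ j, θc a a' (K.τ x) * (⟪α x, ((N.d j).rd c).gA (fun y => cv δ (N.co G.F c j) (K.τ y)) x⟫_ℝ +
        ⟪φ x, ((N.d j).rd c).gP (fun y => cv δ (N.co G.F c j) (K.τ y)) x⟫_ℝ) := fun x => by
    simp only [DG.gA, DG.gP, DG.β, eτ, eδ, inner_sum, ← Finset.sum_add_distrib, Finset.mul_sum, Den.rd]
  have cI : Continuous (N.Iv G.F c) := continuous_iff_continuousAt.2 fun t => (d t).continuousAt
  have e2 := S.ibp (fun t => ((hφ.differentiable (by simp) _).hasFDerivAt.comp_hasDerivAt t (d t)))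
    (((hφ.continuous_fderiv (by simp)).comp cI).clm_apply (continuous_pi c1)) b
  have e3 : ∀ t, θc a a' t * (ct K.p K.q 3 t * fderiv ℝ N.φ (N.Iv G.F c t)
      fun j => wnd G.F.μ K.τ δ 1 ((N.d j).h c) t) =
      ∑ j, θc a a' t * N.co G.F c j t * wnd G.F.μ K.τ δ 1 ((N.d j).h c) t := fun t => by
    rw [pi_eq_sum_univ' fun j => wnd G.F.μ K.τ δ 1 ((N.d j).h c) t, map_sum, Finset.mul_sum,
      Finset.mul_sum]
    exact Finset.sum_congr rfl fun j _ => by rw [map_smul, DG.co, ec, smul_eq_mul]; ring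
  simp only [e3] at e2
  rw [integral_finsetSum _ fun j _ => ((contDiff_ct.continuous.fun_mul (hc j).1).fun_mul
    (c1 j)).integrable_of_hasCompactSupport (HasCompactSupport.mul_right (HasCompactSupport.mul_right
      ((isCompact_Icc (a := a + 3) (b := a' - 3)).of_isClosed_subset (isClosed_tsupport _)
        (tsupport_ct.trans fun s hs => ⟨hs.1 a rfl, hs.2 a' rfl⟩))))] at e2
  have e4 := (Finset.abs_sum_le_sum_abs _ _).trans (Finset.sum_le_card_nsmul Finset.univ _ _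
    fun j _ => S.work1 dv hδ (h j) (h0 j) (hc j).1 (hc j).2 k0)
  rw [Finset.sum_sub_distrib, nsmul_eq_mul, Finset.card_univ] at e4
  simp only [e]
  rw [integral_finsetSum _ fun j _ => i j]
  refine ⟨integrable_finsetSum _ fun j _ => i j, ?_⟩
  rw [abs_le] at e2 e4 ⊢
  simp only [Den.rd] at e4 ⊢
  constructor <;> linarith [e2.1, e2.2, e4.1, e4.2]

end Crest.Agent.X212.Dgr80
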