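import Crest.Agent.X212.Dgr80.En1
import Crest.Agent.X212.Ink3.Main

/-!
# Row 212, EB (helper80): the energy on a neck without neck terms, uniformly
-/

set_option autoImplicit false
set_option linter.unusedSectionVars false
noncomputable section
open scoped Manifold ContDiff Topology InnerProductSpace Classical
open MeasureTheory Set Function Filter

namespace Crest.Agent.X212.Dgr80
open An Wz78 Nd18 Cyf70 Nka63
open Mp86 (NK B0 Ctl Dom)

variable {E3 : Type} [NormedAddCommGroup E3] [NormedSpace ℝ E3] [FiniteDimensional ℝ E3]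
  [MeasurableSpace E3] [BorelSpace E3]
  {H3 : Type} [TopologicalSpace H3] {I3 : ModelWithCorners ℝ E3 H3} [I3.Boundaryless]
  {Y : Type} [TopologicalSpace Y] [ChartedSpace H3 Y] [IsManifold I3 ∞ Y] [T2Space Y]
  [MeasurableSpace Y] [BorelSpace Y] [SecondCountableTopology Y] [CompactSpace Y]
  {κ : Type} [Fintype κ] {lam : Type} [Fintype lam] {D : YD I3 Y κ lam} {N : ND Y lam}

variable (N D) in
/-- the energy estimate with the constant `C` -/
def En0 (C : ℝ) : Prop := ∀ (S : ℝ) (r n : ℕ) (X : NK D S) (c : Cfg X.M (Option κ) lam r)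
  (σ ρ : Pt X.M (Option κ) lam r n) (e : ℝ), E1 N 0 X c σ ρ e →
    ∫ x, X.K.cut 3 (X.K.τ x) * en X.G.F c X.K.τ x ∂X.G.F.μ ≤
      16 * Real.pi ^ 2 * ∫ x, X.K.cut 3 (X.K.τ x) * c.m.kd X.B X.G.F c.W x ∂X.G.F.μ + C * (1 + e)

/-- **EN1** without neck terms -/
theorem en0 (hD : D.OK) (hN : N.OK D) (h0 : Ink3.Nil N) : ∃ C, En0 D N C := by
  obtain ⟨C, C1, hC⟩ := exists_ew hD hN
  have v := vY_nonneg D
  have k1 : 1 ≤ 16 * (vY D * C) + 1 := le_add_of_nonneg_left (by positivity)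
  refine ⟨2 * ((4 * 0 + 4) * (vY D * (80 * cA)) + cA + 0 + 2), fun S r n X c σ ρ e h => ?_⟩
  have hK : B0 X.B X.G (N.q1 X.K : Pt _ _ _ r n) 0 := h0.q1 X.K ▸
    ⟨le_rfl, fun c σ _ a _ => Ctl.zero (by linarith) (fun _ => Mp86.gr2_nonneg) le_rfl,
      fun c _ => by simpa [Ink3.pz] using Dom.zero (F := X.G.F) le_rfl⟩
  have P := pn2 hD X
  have A := h.gd.adm
  obtain ⟨ϖ, hϖ⟩ := h.amb
  have T := fun i : ℕ => sb_getD X.K.p X.K.q (-i) i
  have := h0.J0
  have := h0.J2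
  have key := le_of_tendsto_of_tendsto' ((tend_θ X (P.sm_en A).continuous h.en).const_mul _)
    (((tend_θ X (P.sm_kd A).continuous h.kd).const_mul _).add_const _) fun i =>
      h.loc hD hN.δ0 k1 (sml_zero _) (T i) hK (hC S r X c ϖ _ A hϖ ⟨h.en, le_rfl⟩) (W := 0)
        (by simp [DG.gA, DG.gP])
  have e0 := h.ρ.nonneg fun x => mul_nonneg ct_mem.1 (by positivity)
  have E0 : 0 ≤ ∫ x, X.K.cut 3 (X.K.τ x) * en X.G.F c X.K.τ x ∂X.G.F.μ :=
    integral_nonneg fun x => mul_nonneg ct_mem.1 (en_nonneg _ _ _ _)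
  have b1 : (16 * (vY D * C) + 1)⁻¹ * (vY D * C) ≤ 1 / 16 := by
    rw [inv_mul_le_iff₀ (by linarith)]; linarith
  nlinarith [mul_le_mul_of_nonneg_right b1 E0, one_le_cA,
    mul_nonneg (zero_le_one.trans one_le_cA) e0]

end Crest.Agent.X212.Dgr80
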