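import Crest.Agent.X212.Dgr80.Eb0
import Crest.Agent.X212.Dgr80.Fen
import Crest.Agent.X212.Fin37.Apr

/-!
# Row 212, EB (helper80): a lower bound for the level that only depends on the geometry
-/

set_option autoImplicit false
set_option linter.unusedSectionVars false
noncomputable section
open scoped Manifold ContDiff Topology InnerProductSpace
open MeasureTheory Set Function Filter

namespace Crest.Agent.X212.Dgr80
open An An.Job M Nd18 Fin37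
open Mp86 (L4 Wts kC bd_mono)

variable {Wi : Type} {X : Mf 4} {A κ lam : Type} [Fintype A] [Fintype κ] [Fintype lam]
  [DecidableEq lam] [DecidableEq κ] {M : Mark X A κ} {W : World M} {N : ML M lam}
  {Λ : Lns W N} {A' h : Type} [Fintype A'] [DecidableEq A'] [Fintype h] {r n : ℕ}
  {J : Job Wi Λ A' h r n} {S v a C V : ℝ}

variable (J) in
/-- weights, cut-off functions and the curvature bound at the parameter `p` -/
def Gu (c : M.Cl) (p : Prm A) (S v a : ℝ) : Prop :=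
  (∃ w, Wts (Λ.G J.m c p).F S w ∧ (∀ x y, w x y ≤ 1) ∧ ∀ x, LB (Λ.G J.m c p).F.μ (w x) v) ∧
  (∃ φ, letI := Fintype.ofFinite {i : A × Option Bool // Act J.m c i.1 i.2 p}
    Cuts (Λ.B J.m c) (Λ.G J.m c p)
      (fun i : {i : A × Option Bool // Act J.m c i.1 i.2 p} => (J.K c i.1.1 i.1.2 p i.2).τ)
      (fun i z => (J.K c i.1.1 i.1.2 p i.2).cut 3 ((J.K c i.1.1 i.1.2 p i.2).τ z)) φ v) ∧
  ∀ z, √(∑ s, Wz78.fP (Λ.B J.m c) (Λ.G J.m c p) z s ^ 2) - Wz78.sc (Λ.G J.m c p) z / 4 ≤ a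

variable (hJ : J.OK)
include hJ

/-- the field terms -/
theorem bd0 (tz : TMSZ J) (S : ℝ) {ε : ℝ} (hε : 0 < ε) : An.Sml fun Adm => ∀ q, Adm q → ∀ c s,
    Pm J c s → ∀ w, Wts (J.G c s).F S w → (fld J c q s).Bd (J.B c) (J.G c s) w 1 ε 1 ∧
      ∀ (x : Cfg (W.Z c).M (Option κ) (lam ⊕ lam) r) σ γ, x.Adm (J.B c) (J.G c s) →
        x.Le (J.G c s).F w σ → 0 ≤ γ → (∀ z, ‖x.Φ z‖ ^ 2 ≤ γ) → LB (J.G c s).F.μ
          (fun z => ‖(fld J c q s).D x z‖ ^ 2 + ‖(fld J c q s).C x z‖ ^ 2) (γ + (ε * σ) ^ 2) := by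
  choose k k1 hk using tz
  choose ρ hρ using fun w => bd_cell J (hJ.co w).continuous
  choose b b1 b2 b3 b4 b5 b6 using fun w => exists_b hε
    (4 * ρ w ^ 2 * (64 * k w * (4 * k w) ^ k w)) (ρ w * kC (k w) S) (ρ w * kC (k w) S)
    (ρ w ^ 2 * (64 * k w * (4 * k w) ^ k w) * k w) ((2 * ρ w * kC (k w) S) ^ 2 * k w)
  refine ⟨b, fun w => zero_le_one.trans (b1 w), fun Adm hA q hq c s p w hw => ?_⟩
  have hb := (hA q hq).le
  rw [sub_zero] at hb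
  obtain ⟨σ, hσ, p1, p2⟩ := id p
  exact ⟨bd_mono (bd_fsum b1 zero_le_one (half_pos hε).le zero_le_one hb b2 b3 b4 fun i =>
      bd_tm hw (Λ.B_ok _ _) (k1 i) (fun e => (hk i c s p e).1) (hρ i c s p))
    le_rfl (half_le_self hε.le) le_rfl, fun x σ' γ a l γ0 hγ => lb_fld hw (Λ.B_ok _ _) k1 (fun i e =>
      ⟨(hJ.tw_in hσ ⟨J.cl_dom p1, p2⟩ e).choose_spec.ok _, (hk i c s p e).1, (hk i c s p e).2⟩)
      (fun i => hρ i c s p) (fun i => one_pos.trans_le (b1 i)) hb b5 b6 a l γ0 hγ⟩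

/-- **the level of an unbroken solution is bounded below** -/
theorem kap_ge (tz : TMSZ J) (lit : LIT J) (h0 : ∀ a, Ink3.Nil (J.xs a).N)
    (h1 : ∀ a w, (J.xs a).ty w = 0) (C0 : 0 ≤ C) (hC : ∀ a, ∃ C', |C'| ≤ C ∧
      En0 (J.xs a).D (J.xs a).N C') (a0 : 0 ≤ a) (V0 : 0 ≤ V)
    (hV : 82 * v + 96 * (Fintype.card (A × Option Bool) * C) ≤ V ^ 2)
    (gu : ∀ s, Pm J M.c0 s → Gu J M.c0 (J.Θ s) S v a) : An.Sml fun Adm => ∀ σ ∈ J.𝒦, ∀ q
      (y : J.Obc M.c0), Adm q → Sol σ q y → -kJ V a 1 1 ≤ y.x.kap (J.B _) (J.G _ y.s) := by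
  obtain ⟨ε, ε0, ε1⟩ : ∃ ε > 0, 320 * (V + 1) * ε = 1 :=
    ⟨_, by positivity, mul_inv_cancel₀ (by positivity)⟩
  refine (bd0 hJ tz S ε0).mono fun Adm h2 σ hσ q y hq H => le_of_not_gt fun hk => ?_
  have k0 : 0 ≤ kJ V a 1 1 := by unfold kJ; positivity
  have p : Pm J M.c0 y.s := ⟨σ, hσ, H.cell, H.inf⟩
  obtain ⟨x, gd, e⟩ := lit σ hσ _ q y H
  obtain ⟨i1, -, i3, i4, i5⟩ := iso_inv (Λ.B_ok _ _) (p.ok hJ).1 (p.ok hJ).2 gd.adm H.sol.toAdm e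
  obtain ⟨⟨w, ws, w1, wi⟩, ⟨φ, u⟩, ha⟩ := gu _ p
  replace u : Cuts (J.B _) (J.G _ y.s) (fun i : Ix J _ y.s => (nk J i).τ) (th J 3) φ v := u
  obtain ⟨_, l0⟩ := gd_le gd ws w1 wi
  have et : J.τ M.c0 q y.s = fld J _ q y.s := Ink3.τ_nil _ _ h0 h1 q
  have fe := fun i : Ix J M.c0 y.s => fen_nk (K := nk J i) (hJ.xs _).1.yd (Λ.B_ok _ _) (p.ok hJ).1
    H.sol.toAdm (fun e => by
      obtain ⟨⟨b, _ | o⟩, hb⟩ := i
      exacts [by simpa using (hJ.nk _ _ _ _ hb).lo.symm.trans e, hb.2.2.2.elim]) fun e => by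
      obtain ⟨⟨b, _ | o⟩, hb⟩ := i
      exacts [by simpa using (hJ.nk _ _ _ _ hb).hi.symm.trans e, hb.2.2.2.elim]
  refine (neg_le_of_abs_le (u.apr ws w1 wi (et ▸ H.sol) (h2 q hq _ _ p _ ws).1 a0 ha H.int
    (fun i => (fe i).1) le_rfl (by linarith) C0 (mul_le_mul_of_nonneg_right (card_le J) C0)
    (fun t γ l γ1 hγ i => ?_) V0 (by linarith) ε1.le (le_congr l0 i1 i4)).2.1).not_gt hk
  have hx : ∀ z, ‖x.Φ z‖ ^ 2 ≤ γ := fun z => i1 z ▸ hγ z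
  have f := (h2 q hq _ _ p _ ws).2 x t γ gd.adm (le_congr l (fun z => (i1 z).symm)
    fun z => (i4 z).symm) (by linarith) hx
  have t0 : 0 ≤ γ + (ε * t) ^ 2 := by positivity
  obtain ⟨C', c1, c2⟩ := hC i.1.1
  rw [i3, i5 _ (nk J i).sm_τ]
  rcases isEmpty_or_nonempty (W.Z M.c0).M with z | ⟨⟨z⟩⟩
  · simp only [integral_of_isEmpty]
    positivity
  have pz := (h0 i.1.1).pt (r := r) (n := n) (nk J i)
  exact (c2 S r n ⟨nk J i, Λ.B_ok _ _, (p.ok hJ).1, (p.ok hJ).2, ws.l4⟩ x _ (fld J _ q y.s)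
    (γ ^ 2 + (γ + (ε * t) ^ 2)) ⟨gd, ⟨_, amb_wts ws wi u.ex z⟩, et ▸ sol_iso hJ hσ H gd.adm e,
      fun z _ => by rw [pz]; exact (zero_add _).symm, fun z _ => by rw [pz]; exact (zero_add _).symm,
      fun z => le_add_of_le_of_nonneg ((pow_mul _ 2 2).trans_le
        (pow_le_pow_left₀ (sq_nonneg _) (hx z) 2)) t0,
      (f.mono ((sm_th (d := 2) i).continuous.aestronglyMeasurable.mul f.1.1)
        (fun _ => mul_nonneg ct_mem.1 (by positivity)) fun _ =>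
          mul_le_of_le_one_left (by positivity) ct_mem.2).le (le_add_of_nonneg_left (sq_nonneg _)),
      i5 _ (nk J i).sm_τ ▸ (fe i).1, i3 ▸ (fe i).2⟩).trans (add_le_add_right (en_arith c1 γ1) _)

end Crest.Agent.X212.Dgr80
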