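import Crest.Agent.X212.Dgr80.Eb1
import Crest.Agent.X212.M.Wu
import Crest.Agent.X212.Jb7.Ops

/-!
# Row 212, EB (helper80): the geometric data are uniform in all wall parameters
-/

set_option autoImplicit false
set_option linter.unusedSectionVars false
noncomputable section
open scoped Manifold ContDiff Topology
open Set Function Filter

namespace Crest.Agent.X212.Dgr80
open An An.Job M Nd18 Fin37 Jb7

theorem exists_rho {t : ℝ} (ht : t ∈ Icc (0 : ℝ) 1) :
    ∃ s ∈ Icc (0 : ℝ) 1, rho s = t ∧ (t = 0 → s = 0) := by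
  rcases eq_or_ne t 0 with rfl | h
  · exact ⟨0, ht, rho_of_le le_rfl, id⟩
  · obtain ⟨s, h1, h2⟩ := intermediate_value_Icc zero_le_one contDiff_rho.continuous.continuousOn
      (show t ∈ Icc (rho 0) (rho 1) by rwa [rho_of_le le_rfl, rho_of_ge (by norm_num)])
    exact ⟨s, h1, h2, fun e => (h e).elim⟩

variable {X : Mf 4} {A κ lam : Type} [Fintype A] [DecidableEq A] [Fintype κ] [Fintype lam]
  [DecidableEq lam] [DecidableEq κ] {M : Mark X A κ} {W : World M} {N : ML M lam}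
  (Λ : Lns W N) (T : Ink3.XG Empty N) (m : M.Cl)

/-- the skeleton over all wall parameters -/
@[reducible] def skU : Sk Λ Unit Empty where
  H := {a | M.pin a ∨ a ∈ m.1}
  fz := ∅
  uf := 0
  Tf := 0
  m := m
  𝒦 := {σ | (∀ a, M.pin a ∨ a ∈ m.1 → σ (.inl a) ≠ some true) ∧
    M.sys.Cell {a | (M.pin a ∨ a ∈ m.1) ∧ σ (.inl a) = none}}
  k := 0
  ct := Empty.elim
  nb := Empty.elim
  xs := T.xs
  g := T.g
  K := T.K Λ m

theorem skU_ok : (skU Λ T m).OK where
  dj := disjoint_empty _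
  uf := contDiff_const
  Tf _ := contDiff_const
  T _ h := h.elim
  mem _ h k := h.resolve_left k
  down σ hσ a b _ k := by
    refine ⟨fun x hx => ?_, hσ.2.mono fun x hx => ⟨hx.1, ?_⟩⟩
    · by_cases e : .inl x = a
      · rw [e, update_self]; exact fun j => k (Option.some.inj j) x hx e.symm
      · rw [update_of_ne e]; exact hσ.1 x hx
    · by_cases e : .inl x = a
      · exact absurd (update_self a (some b) σ ▸ e ▸ hx.2) (by simp)
      · exact update_of_ne e (some b) σ ▸ hx.2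
  soft _ hσ := hσ.1
  cell _ hσ := (union_empty _).symm ▸ hσ.2
  nb i := i.elim
  dn i := i.elim
  ct _ _ _ _ _ _ i := i.elim
  xs := T.ok
  iso := T.iso
  nk := T.isNk Λ m

theorem exists_pm {c : M.Cl} {p : Prm A} (h1 : p.1 = 0) (h2 : p.2 ∈ M.sys.Par)
    (h3 : ∀ x, p.2 x ≠ 0 → M.pin x ∨ x ∈ m.1) (h4 : Sys.inf p.2 = c.1) :
    ∃ s, Pm ((skU Λ T m).job 0 0) c s ∧ (skU Λ T m).Θ s = p := by
  classical
  choose s s1 s2 s3 using fun a => exists_rho (h2.1 a)
  have e : (skU Λ T m).Θ (Sum.elim s 0) = p := Prod.ext h1.symm (funext fun a => by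
    by_cases k : M.pin a ∨ a ∈ m.1
    · exact (thS_H (notMem_empty a) k).trans (s2 a)
    · exact (thS_out (notMem_empty a) k).trans (by_contra fun j => k (h3 a (Ne.symm j))))
  refine ⟨_, ⟨Sum.elim (fun a => if p.2 a = 0 then some false else none) fun _ => some false,
    ⟨fun a _ => by by_cases k : p.2 a = 0 <;> simp [k], h2.2.mono fun a ha k => by
      simpa [k] using ha.2⟩, ⟨?_, ?_⟩, (congrArg (Sys.inf ·.2) e).trans h4⟩, e⟩
  · rintro (a | a) b k
    · by_cases j : p.2 a = 0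
      · obtain rfl : false = b := by simpa [j] using k
        exact s3 a j
      · simp [j] at k
    · obtain rfl : false = b := by simpa using k
      rfl
  · rintro (a | a)
    exacts [s1 a, left_mem_Icc.2 zero_le_one]

/-- **uniform geometric data** -/
theorem exists_gu : ∃ S v a, 0 ≤ a ∧ ∀ c p, p.1 = 0 → p.2 ∈ M.sys.Par →
    (∀ x, p.2 x ≠ 0 → M.pin x ∨ x ∈ m.1) → Sys.inf p.2 = c.1 →
      Gu ((skU Λ T m).job 0 0) c p S v a := by
  have hJ := (skU_ok Λ T m).job 0 0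
  obtain ⟨S, S0, hS⟩ := Pat85.l4U hJ
  obtain ⟨v, hw⟩ := Job.wu hJ (Pat85.volJ hJ) S0 hS
  obtain ⟨a, a0, ha⟩ := Ps86.pscal W Λ (Pat85.pm_U hJ)
  obtain ⟨v', hv, hc⟩ := ((eventually_ge_atTop v).and
    (cuts hJ (Pat85.dj hJ) (Pat85.cpt hJ) (Pat85.volJ hJ))).exists
  refine ⟨S, v', a, a0, fun c p h1 h2 h3 h4 => ?_⟩
  obtain ⟨s, k, rfl⟩ := exists_pm Λ T m h1 h2 h3 h4
  have pp := Pat85.pm_par hJ k
  exact ⟨⟨_, hw.wts c s k, hw.le c s, fun z => (hw.int c s k z).le hv⟩, ⟨_, hc c s k⟩,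
    ha _ _ _ pp.1 pp.2.1.1 pp.2.2⟩

end Crest.Agent.X212.Dgr80
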