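import Crest.Agent.X212.Dgr80.Lf
import Crest.Agent.X212.Nka63.A
import Crest.Agent.X212.Cyc79.Lg

/-!
# Row 212, DGR (helper80): Lipschitz bound and gradient identity for the densities of a neck
-/

set_option autoImplicit false
set_option linter.unusedSectionVars false
noncomputable section
open scoped Manifold ContDiff Topology InnerProductSpace
open MeasureTheory Set Function Filter

namespace Crest.Agent.X212.Dgr80
open An Wz78 Sob92 Nd18 Cyf70
open Mp86 (nf)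
open Cyc79 (Cy cb_sm)

variable {E : Type} [NormedAddCommGroup E] [NormedSpace ℝ E] [FiniteDimensional ℝ E]
  [MeasurableSpace E] [BorelSpace E]
  {HM : Type} [TopologicalSpace HM] {I : ModelWithCorners ℝ E HM} [I.Boundaryless]
  {M : Type} [TopologicalSpace M] [ChartedSpace HM M] [IsManifold I ∞ M]
  [MeasurableSpace M] [T2Space M] [BorelSpace M] [SecondCountableTopology M]
  {lam : Type} [Fintype lam] {r : ℕ} {J : Type}

section gen
variable {ι : Type} [Fintype ι]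

theorem ub_fin {N : Type} [NormedAddCommGroup N] {f : ι → M → N} (h : ∀ a, Bd (f a)) : Ub f := by
  choose K hK using h
  exact ⟨∑ a, |K a|, by positivity, fun a x => ((hK a x).trans (le_abs_self _)).trans
    (Finset.single_le_sum (f := fun a => |K a|) (fun _ _ => abs_nonneg _) (Finset.mem_univ a))⟩

theorem RD.Lg.cut {U P : Type} [NormedAddCommGroup U] [InnerProductSpace ℝ U] [CompleteSpace U]
    [NormedAddCommGroup P] [InnerProductSpace ℝ P] {F : Fr I M ι} {X : Cx F J}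
    {α : J → M → Fm ι U} {φ : J → M → P} {d : RD M ι U P} {d' : J → RD M ι U P}
    (h : RD.Lg X α φ d d') {χ : M → ℝ} (hχ : F.Cb χ) :
    RD.Lg X α φ (d.cut χ) fun j => (d' j).cut χ := by
  have cm : ∀ {f}, F.Cb f → F.Cb fun y => f y * χ y := fun hf => Cb_bil (.mul ℝ ℝ) hf hχ
  have c := (cb_sm hχ).continuous
  obtain ⟨K, hK⟩ := cb_bd hχ
  have ub : ∀ {f : J → M → ℝ}, Ub f → Ub fun j y => f j y * χ y := fun ⟨L, L0, hL⟩ =>
    ⟨L * |K|, by positivity, fun j x => (norm_mul _ _).trans_le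
      (mul_le_mul (hL j x) ((hK x).trans (le_abs_self _)) (norm_nonneg _) L0)⟩
  have o : ∀ {f : J → M → ℝ}, X.O2 f → X.O2 fun j y => f j y * χ y := fun hf =>
    hf.dom (fun j => (hf.1 j).mul c) (K := K) fun j x => (norm_mul _ _).trans_le (by
      rw [mul_comm]; exact mul_le_mul_of_nonneg_right (hK x) (norm_nonneg _))
  have pf : ∀ {f f'}, Pf X f f' → Pf X (fun y => f y * χ y) fun j y => f' j y * χ y := fun k =>
    ⟨cm k.q, fun j => cm (k.q' j), cb_bd (cm k.q), ub k.ub, (o k.d).congr fun j x => by ring⟩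
  refine ⟨c.mul h.c0, Bd.smul ⟨K, hK⟩ h.bd, by simpa only [RD.cut, mul_comm (χ _)] using ub h.ub,
    (o h.h).congr fun j x => by simp only [RD.cut]; ring, fun f f' k => h.A _ _ (pf k),
    fun f f' k => h.P _ _ (pf k), fun f k => h.wA _ (cm k), fun f k => h.wP _ (cm k),
    fun hX f k => (h.o1 hX _ (cm k)).congr fun j => ?_⟩
  simp only [RD.cut, ← mul_sub, mul_assoc]

variable {B : Base M ι lam} {G : Geo I M ι lam} {X : Cx G.F J} {c : Cfg M ι lam r}
  {α : J → M → Fm ι c.m.A} {φ : J → M → c.m.V}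

namespace Vf
variable (h : Vf B G X c α φ)
include h

theorem lzS : Lz c.W (QP G.F c.m.p) opL X (fun _ => QP G.F c.m.p)
    (fun j => (vr c (α j) (φ j)).W) α φ :=
  ⟨⟨h.gd.ppS.mc, fun j => (h.gd' j).ppS.mc, fun _ _ _ => rfl, fun j => cb_sm (h.cA j), h.oA,
    cls_qp h.gd.ppS, fun j => cls_qp (h.gd' j).ppS, fun u hu =>
      let ⟨K, _, hK⟩ : Ub fun a => nab I G.F.e c.W a (G.F.res c.W u) := ub_fin (bn_qp h.gd.ppS hu)
      ⟨K, fun _ x a _ => hK a x⟩⟩,
    h.oP, fun _ hu => bn_qp h.gd.ppS hu, fun _ _ => QP.smul, fun _ _ _ => QP.smul⟩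

theorem lzA : Lz (c.m.adW c.W) (QP G.F c.m.pg) (adR _) X (fun _ => QP G.F c.m.pg)
    (fun j => c.m.adW (vr c (α j) (φ j)).W) α φ :=
  ⟨⟨h.gd.pp.mc, fun j => (h.gd' j).pp.mc, fun _ _ _ => map_add adcL _ _, fun j => cb_sm (h.cA j),
    h.oA, cls_qp h.gd.pp, fun j => cls_qp (h.gd' j).pp, fun u hu =>
      let ⟨K, _, hK⟩ : Ub fun a => nab I G.F.e (c.m.adW c.W) a (G.F.res (c.m.adW c.W) u) :=
        ub_fin (bn_qp h.gd.pp hu)
      ⟨K, fun _ x a _ => hK a x⟩⟩,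
    h.oP, fun _ hu => bn_qp h.gd.pp hu, fun _ _ => QP.smul, fun _ _ _ => QP.smul⟩

theorem lg_nP : RS.Lg (QP G.F c.m.p) X (fun _ => QP G.F c.m.p) α φ (rsP c)
    fun j => rsP (vr c (α j) (φ j)) := by
  obtain ⟨R1, h1⟩ := cb_bd h.gd.Φ
  obtain ⟨R2, r2, h2⟩ := h.ub
  obtain ⟨K, K0, hK⟩ := exists_taylor (V := c.m.V) contDiff_nv (|R1| + R2)
  have b1 : ∀ x, ‖c.Φ x‖ ≤ |R1| + R2 := fun x => (h1 x).trans (by linarith [le_abs_self R1])
  have b2 : ∀ j x, ‖c.Φ x + φ j x‖ ≤ |R1| + R2 := fun j x =>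
    (norm_add_le _ _).trans (add_le_add ((h1 x).trans (le_abs_self _)) (h2 j x))
  have k := fun j x => hK _ _ (b1 x) (b2 j x)
  have k' := fun j x => (hK _ _ (b2 j x) (b1 x)).2.1
  simp only [add_sub_cancel_left] at k
  have c1 := (cb_sm h.gd.q_nP.1).continuous
  have c2 := fun j => (cb_sm (h.gd' j).q_nP.1).continuous
  have e : ∀ j (l : M → c.m.V) x, dn (vr c (α j) (φ j)) l x =
      fderiv ℝ (fun v : c.m.V => nf v • v) (c.Φ x + φ j x) (l x) := fun j l => dn_eq (c := vr c (α j) (φ j)) l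
  refine ⟨⟨h.gd.q_nP, fun j => (h.gd' j).q_nP, cb_bd h.gd.q_nP.1, ⟨K, K0, fun j x =>
    (hK _ _ (b2 j x) (b1 x)).1⟩, h.oP.dom (fun j => (c2 j).sub c1) fun j x => (k j x).2.2.1⟩,
    fun l l' _ => Cx.o2_zero.congr fun _ _ => sub_self _, fun l l' p => ?_,
    fun l _ _ => Cx.lw_bd continuous_const ⟨0, fun _ => by simp [rsP]⟩,
    fun l q _ => Cx.lw_bd (cb_sm (h.gd.cb_dn q.1)).continuous (cb_bd (h.gd.cb_dn q.1)),
    fun hX l q ⟨L, hL⟩ => ?_⟩
  · obtain ⟨L, hL⟩ := p.bd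
    refine p.d.dom2 h.oP (fun j => (cb_sm ((h.gd' j).cb_dn (p.q' j).1)).continuous.sub
      (cb_sm (h.gd.cb_dn p.q.1)).continuous) (K := K + K * |L|) fun j x => ?_
    rw [show @HSub.hSub c.m.V c.m.V _ _ ((rsP (vr c (α j) (φ j))).sP (l' j) x) ((rsP c).sP l x) =
      fderiv ℝ (fun v : c.m.V => nf v • v) (c.Φ x + φ j x) (l' j x - l x) +
      (fderiv ℝ (fun v : c.m.V => nf v • v) (c.Φ x + φ j x) -
        fderiv ℝ (fun v : c.m.V => nf v • v) (c.Φ x)) (l x) by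
      rw [map_sub, sub_apply, sub_add_sub_cancel, ← e, ← dn_eq]; rfl]
    have a1 := (ContinuousLinearMap.le_opNorm _ (l' j x - l x)).trans
      (mul_le_mul_of_nonneg_right (k' j x) (norm_nonneg _))
    have a2 := (ContinuousLinearMap.le_opNorm _ (l x)).trans (mul_le_mul (k j x).2.2.2.1
      ((hL x).trans (le_abs_self _)) (norm_nonneg _) (by positivity))
    have a3 : 0 ≤ K * ‖φ j x‖ + K * |L| * ‖l' j x - l x‖ := by positivity
    exact (norm_add_le _ _).trans (by linarith)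
  have cl := (cb_sm q.1).continuous
  have w := Cx.lw_bd (X := X) cl ⟨L, hL⟩
  have w' := Cx.lw_bd (X := X) (cb_sm (h.gd.cb_dn q.1)).continuous (cb_bd (h.gd.cb_dn q.1))
  have o : X.O2 fun j x => @HSub.hSub c.m.V c.m.V _ _ (nP (vr c (α j) (φ j)) x) (nP c x) :=
    h.oP.dom (fun j => (c2 j).sub c1) fun j x => (k j x).2.2.1
  refine (h.oP.o1 hX h.oP (f := fun j x => ⟪@HSub.hSub c.m.V c.m.V _ _ (nP (vr c (α j) (φ j)) x)
    (nP c x), l x⟫_ℝ -
    ⟪φ j x, dn c l x⟫_ℝ) (K := K * |L|) (by positivity) fun j x => ?_).congr fun j => ?_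
  · rw [← inner_dn, ← inner_sub_left, dn_eq]
    refine (abs_real_inner_le_norm _ _).trans ((mul_le_mul (k j x).2.2.2.2
      ((hL x).trans (le_abs_self _)) (norm_nonneg _) (by positivity)).trans_eq (by ring))
  · rw [integral_sub (o.inner hX j w) (h.oP.inner hX j w')]
    simp [rsP]

theorem ad_lt {t : Lt M} (ht : t.OK G.F) :
    (ltS G.F c t).Ad (QP G.F c.m.p) fun _ : J => QP G.F c.m.p := by
  refine ⟨h.gd.ok_lt ht, fun _ => h.gd.ok_lt ht, ?_⟩
  cases t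
  exacts [cb_bd (h.gd.cb_lt ht _ rfl), cb_bd (h.gd.cb_lt ht _ rfl), cb_bd (h.gd.cb_lt ht _ rfl),
    trivial]

omit h in
theorem ad_la {t : La M} (ht : t.OK G.F) :
    (laS c t).Ad (QP G.F c.m.pg) fun _ : J => QP G.F c.m.pg := by
  refine ⟨Gd.ok_la ht, fun _ => Gd.ok_la ht, ?_⟩
  cases t
  exacts [cb_bd (F := G.F) (Cb_smul ht (Cb_const _)), trivial]

/-- spinor densities -/
theorem lg_sw {T : Pk M lam} {u v : SW M} (hT : T.OK G.F) (hu : SW.OK G.F u) (hv : SW.OK G.F v) :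
    RD.Lg X α φ ((Den.sw G.F T u v).rd c) fun j => (Den.sw G.F T u v).rd (vr c (α j) (φ j)) := by
  have w := fun {u : SW M} (hu : SW.OK G.F u) =>
    h.lg_nP.wd h.lzS (List.forall_mem_map.2 fun t ht => h.ad_lt (hu t ht))
  simp only [rd_sw]
  exact (w hu).pair h.lzS (w hv) ⟨h.gd.ok_pk hT, fun _ => h.gd.ok_pk hT, cb_bd (h.gd.cb_pk hT)⟩
    (pk_symm h.gd.ok T)

theorem lg_rs {d : Cy M} (hd : d.OK G.F) : RS.Lg (QP G.F c.m.pg) X (fun _ => QP G.F c.m.pg) α φ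
    (d.rs G.F c) fun j => d.rs G.F (vr c (α j) (φ j)) :=
  (⟨h.gd.toCO, fun j => (h.gd' j).toCO, hd, fun j => cb_sm (h.cA j), h.oA, h.ex⟩ :
    Cyc79.Lc B d X α (fun j x => c.Φ x + φ j x) fun _ => c.z).lg φ (fun _ hu => hu.1)
    (fun _ _ hu => hu.1) (h.gd.q_cy hd) fun j => (h.gd' j).q_cy hd

/-- densities of cyclic seeds -/
theorem lg_cy {d d' : Cy M} (hd : d.OK G.F) (hd' : d'.OK G.F)
    {w w' : List (La M)} (hw : ∀ t ∈ w, t.OK G.F) (hw' : ∀ t ∈ w', t.OK G.F) :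
    RD.Lg X α φ ((Den.sed ((d.sed G.F).wd G.F w) ((d'.sed G.F).wd G.F w')).rd c) fun j =>
      (Den.sed ((d.sed G.F).wd G.F w) ((d'.sed G.F).wd G.F w')).rd (vr c (α j) (φ j)) := by
  have k := fun {d : Cy M} (hd : d.OK G.F) {w : List (La M)} (hw : ∀ t ∈ w, t.OK G.F) =>
    (h.lg_rs hd).wd h.lzA (List.forall_mem_map.2 fun t ht => ad_la (c := c) (hw t ht))
  have o : (SL.op fun _ => 1).Ok (QP G.F c.m.pg) := ok_qp inner_pg (Cb_const _) fun _ _ => rfl
  simp only [rd_sed, rs_wd]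
  exact (k hd hw).pair h.lzA (k hd' hw') ⟨o, fun _ => o, _, fun _ => le_rfl⟩ fun _ _ _ => rfl

end Vf
end gen

variable {E3 : Type} [NormedAddCommGroup E3] [NormedSpace ℝ E3] [FiniteDimensional ℝ E3]
  [MeasurableSpace E3] [BorelSpace E3]
  {H3 : Type} [TopologicalSpace H3] {I3 : ModelWithCorners ℝ E3 H3} [I3.Boundaryless]
  {Y : Type} [TopologicalSpace Y] [ChartedSpace H3 Y] [IsManifold I3 ∞ Y] [T2Space Y]
  [MeasurableSpace Y] [BorelSpace Y] [SecondCountableTopology Y] [CompactSpace Y]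
  {κ : Type} [Fintype κ] {N : ND Y lam} {D : YD I3 Y κ lam}

/-- **LG** for the densities of a neck -/
theorem Vf.lg_dg {B : Base M (Option κ) lam} {G : Geo I M (Option κ) lam} {X : Cx G.F J}
    {c : Cfg M (Option κ) lam r} {α : J → M → Fm (Option κ) c.m.A} {φ : J → M → c.m.V}
    (h : Vf B G X c α φ) (hN : N.OK D) (K : Nk D B G) (i : N.J) :
    RD.Lg X α φ (((N.dg K).d i).rd c) fun j => ((N.dg K).d i).rd (vr c (α j) (φ j)) := by
  rcases i with i | i | i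
  · have := hN.d0 i
    simp only [ND.dg, Sum.elim_inl]
    generalize N.d0 i = d at this
    cases d with
    | sw a b => exact (h.lg_sw (T := .one) trivial (K.ok_sw this.1) (K.ok_sw this.2)).cut K.cb_χ
    | cy d w d' w' => exact (h.lg_cy (Nka63.ok_cyc K this.1) (Nka63.ok_cyc K this.2.2.1)
        (K.ok_las this.2.1) (K.ok_las this.2.2.2)).cut K.cb_χ
  · exact (h.lg_sw (T := .re _) (K.cb_ext (hN.d2 i).1) (K.ok_sw (hN.d2 i).2.1)
      (K.ok_sw (hN.d2 i).2.2)).cut K.cb_χ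
  · exact (h.lg_sw (T := .im _) (K.cb_ext (hN.d2 i).1) (K.ok_sw (hN.d2 i).2.1)
      (K.ok_sw (hN.d2 i).2.2)).cut K.cb_χ

theorem lgZ (hN : N.OK D) : LgZ N D := fun _ _ _ _ _ h i => h.lg_dg hN D.nk i

end Crest.Agent.X212.Dgr80
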