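import Crest.Agent.X212.Dgr80.Wk

/-!
# Row 212, DGR (helper80): weighted Lipschitz bounds and second order expansion for the engine
-/

set_option autoImplicit false
set_option linter.unusedSectionVars false
noncomputable section
open scoped Manifold ContDiff Topology InnerProductSpace
open MeasureTheory Set Function Filter

namespace Crest.Agent.X212.Dgr80
open An Wz78 Sob92
open Mp86 (Mc Bumps)
open Wrd81 (wd)

variable {E : Type} [NormedAddCommGroup E] [NormedSpace ℝ E] [FiniteDimensional ℝ E]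
  [MeasurableSpace E] [BorelSpace E]
  {HM : Type} [TopologicalSpace HM] {I : ModelWithCorners ℝ E HM}
  {M : Type} [TopologicalSpace M] [ChartedSpace HM M] [IsManifold I ∞ M]
  [MeasurableSpace M] [T2Space M] [BorelSpace M] {ι : Type} [Fintype ι]
  {V U : Type} [NormedAddCommGroup V] [InnerProductSpace ℝ V]
  [NormedAddCommGroup U] [InnerProductSpace ℝ U] {F : Fr I M ι} {J : Type}

variable (F J) in
/-- a family of weights `W j` and sizes `D j` -/
structure Cx where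
  ϖ : M → ℝ
  W : J → M → ℝ
  D : J → ℝ
  amb : Amb F ϖ
  wg : ∀ j, Wg F (W j)
  D0 : ∀ j, 0 ≤ D j

/-- uniformly bounded families -/
def Ub {N : Type} [NormedAddCommGroup N] (u : J → M → N) : Prop := ∃ K, 0 ≤ K ∧ ∀ j x, ‖u j x‖ ≤ K

/-- bounded sections -/
def Bd {N : Type} [NormedAddCommGroup N] (u : M → N) : Prop := ∃ K, ∀ x, ‖u x‖ ≤ K

theorem Bd.ub {N : Type} [NormedAddCommGroup N] {u : M → N} (h : Bd u) : Ub fun _ : J => u :=
  let ⟨K, h⟩ := h; ⟨|K|, abs_nonneg _, fun _ x => (h x).trans (le_abs_self _)⟩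

namespace Cx
variable (X : Cx F J) {N N' N'' : Type} [NormedAddCommGroup N] [NormedAddCommGroup N']
  [NormedAddCommGroup N'']

/-- `∫ W j |u j|² ≤ C D j` -/
def O2 (u : J → M → N) : Prop := (∀ j, Continuous (u j)) ∧
  ∃ C, 0 ≤ C ∧ ∀ j, LB F.μ (fun x => X.W j x * ‖u j x‖ ^ 2) (C * X.D j)

/-- `|a j| ≤ C D j` -/
def O1 (a : J → ℝ) : Prop := ∃ C, 0 ≤ C ∧ ∀ j, |a j| ≤ C * X.D j

variable {X} {u u' : J → M → N} {v : J → M → N'} {w : J → M → N''}

theorem cW (X : Cx F J) (j : J) : Continuous (X.W j) := (X.wg j).sm.continuous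

theorem O2.dom2 (h : X.O2 u) (k : X.O2 v) (hw : ∀ j, Continuous (w j)) {K : ℝ}
    (hK : ∀ j x, ‖w j x‖ ≤ K * (‖u j x‖ + ‖v j x‖)) : X.O2 w := by
  obtain ⟨-, C, C0, h⟩ := h
  obtain ⟨-, C', C0', k⟩ := k
  refine ⟨hw, 2 * K ^ 2 * (C + C'), by positivity, fun j => ?_⟩
  have c1 := X.cW j
  have c2 := hw j
  have p := fun x => ((X.wg j).pos x).le
  refine ((((h j).add (k j)).mul (c := 2 * K ^ 2) (by positivity)).mono
    (Continuous.aestronglyMeasurable (by fun_prop)) (fun x => mul_nonneg (p x) (sq_nonneg _))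
    fun x => ?_).le (le_of_eq (by ring))
  have h1 := pow_le_pow_left₀ (norm_nonneg _) (hK j x) 2
  have h2 : ‖w j x‖ ^ 2 ≤ 2 * K ^ 2 * (‖u j x‖ ^ 2 + ‖v j x‖ ^ 2) := by
    nlinarith [mul_nonneg (sq_nonneg K) (sq_nonneg (‖u j x‖ - ‖v j x‖))]
  linarith [mul_le_mul_of_nonneg_left h2 (p x)]

theorem O2.dom (h : X.O2 u) (hw : ∀ j, Continuous (w j)) {K : ℝ}
    (hK : ∀ j x, ‖w j x‖ ≤ K * ‖u j x‖) : X.O2 w :=
  h.dom2 h hw (K := K / 2) fun j x => (hK j x).trans_eq (by ring)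

theorem O2.add (h : X.O2 u) (k : X.O2 u') : X.O2 fun j x => u j x + u' j x :=
  h.dom2 k (fun j => (h.1 j).add (k.1 j)) (K := 1) fun j x => by rw [one_mul]; exact norm_add_le _ _

theorem O2.sub (h : X.O2 u) (k : X.O2 u') : X.O2 fun j x => u j x - u' j x :=
  h.dom2 k (fun j => (h.1 j).sub (k.1 j)) (K := 1) fun j x => by rw [one_mul]; exact norm_sub_le _ _

theorem O2.neg (h : X.O2 u) : X.O2 fun j x => -u j x :=
  h.dom (fun j => (h.1 j).neg) (K := 1) fun j x => by simp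

theorem O2.congr (h : X.O2 u) (e : ∀ j x, u' j x = u j x) : X.O2 u' := by
  rwa [show u' = u from funext fun j => funext (e j)]

theorem o2_zero : X.O2 fun _ _ => (0 : N) :=
  ⟨fun _ => continuous_const, 0, le_rfl, fun j => by simp [LB]⟩

theorem O2.sum {κ : Type} (s : Finset κ) {u : κ → J → M → N} (h : ∀ k ∈ s, X.O2 (u k)) :
    X.O2 fun j x => ∑ k ∈ s, u k j x := by
  classical
  induction s using Finset.induction_on with
  | empty => simpa using o2_zero
  | insert k s hk ih =>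
    simp only [Finset.sum_insert hk]
    exact (h k (by simp)).add (ih fun k hk => h k (by simp [hk]))

theorem O2.ub (h : X.O2 u) (hv : Ub v) (hw : ∀ j, Continuous (w j)) {K : ℝ} (K0 : 0 ≤ K)
    (hK : ∀ j x, ‖w j x‖ ≤ K * ‖u j x‖ * ‖v j x‖) : X.O2 w := by
  obtain ⟨K', -, hv⟩ := hv
  exact h.dom hw (K := K * K') fun j x => (hK j x).trans ((mul_le_mul_of_nonneg_left (hv j x)
    (by positivity)).trans_eq (by ring))

theorem O2.toLp {α' : Type} [Fintype α'] {f : α' → J → M → U} (h : ∀ a, X.O2 (f a)) :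
    X.O2 fun j x => (WithLp.toLp 2 fun a => f a j x : Fm α' U) := by
  refine (O2.sum Finset.univ (u := fun a j x => ‖f a j x‖) fun a _ =>
    (h a).dom (fun j => ((h a).1 j).norm) (K := 1) fun j x => by simp).dom
    (fun j => (PiLp.continuous_toLp 2 _).comp (continuous_pi fun a => (h a).1 j)) (K := 1)
    fun j x => ?_
  rw [one_mul, Real.norm_of_nonneg (by positivity), PiLp.norm_eq_of_L2]
  exact Real.sqrt_le_iff.2 ⟨by positivity,
    Finset.sum_sq_le_sq_sum_of_nonneg fun _ _ => norm_nonneg _⟩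

theorem O2.app {α' : Type} [Fintype α'] {f : J → M → Fm α' U} (h : X.O2 f) (a : α') :
    X.O2 fun j x => f j x a :=
  h.dom (fun j => (PiLp.proj (𝕜 := ℝ) 2 (fun _ : α' => U) a).continuous.comp (h.1 j)) (K := 1)
    fun j x => by rw [one_mul]; exact PiLp.norm_apply_le _ _

theorem O1.add {a b : J → ℝ} (h : X.O1 a) (k : X.O1 b) : X.O1 fun j => a j + b j :=
  let ⟨C, C0, h⟩ := h
  let ⟨C', C0', k⟩ := k
  ⟨C + C', add_nonneg C0 C0', fun j => (abs_add_le _ _).trans (by linarith [h j, k j])⟩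

theorem O1.congr {a b : J → ℝ} (h : X.O1 a) (e : ∀ j, b j = a j) : X.O1 b := by
  rwa [show b = a from funext e]

theorem o1_zero : X.O1 fun _ => 0 := ⟨0, le_rfl, fun j => by simp⟩

theorem O1.neg {a : J → ℝ} (h : X.O1 a) : X.O1 fun j => -a j := by simpa only [O1, abs_neg] using h

theorem O1.sum {κ : Type} (s : Finset κ) {a : κ → J → ℝ} (h : ∀ k ∈ s, X.O1 (a k)) :
    X.O1 fun j => ∑ k ∈ s, a k j := by
  classical
  induction s using Finset.induction_on with
  | empty => simpa using o1_zero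
  | insert k s hk ih =>
    simp only [Finset.sum_insert hk]
    exact (h k (by simp)).add (ih fun k hk => h k (by simp [hk]))

/-- the weighted `H¹` bound for families -/
theorem wk {A : J → ι → M → CL V V} (hA : ∀ j, Mc I (A j)) {w s : J → M → V} {g : ι → J → M → V}
    (hw : ∀ j, Sm I (w j)) (hg : ∀ a j, Sm I (g a j))
    (e : ∀ j x, w j x + lap I F.e F.dv (A j) (w j) x = s j x - dvn F (A j) (fun a => g a j) x)
    (i0 : ∀ j, Integrable (fun x => X.ϖ x * ‖w j x‖ ^ 2) F.μ) (hs : X.O2 s) (hg' : ∀ a, X.O2 (g a)) :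
    X.O2 w ∧ ∀ a, X.O2 fun j => nab I F.e (A j) a (w j) := by
  obtain ⟨s0, C, C0, hs⟩ := hs
  obtain ⟨-, C', C0', hg'⟩ := O2.toLp hg'
  have key := fun j => X.amb.wk (hA j) (X.wg j) (hw j) (s0 j) (fun a => hg a j) (e j) (i0 j)
    (D := (C + C') * X.D j) (by
      simpa only [PiLp.norm_sq_eq_of_L2, ← mul_add, ← add_mul] using (hs j).add (hg' j))
  have c1 := X.cW
  have p := fun j x => ((X.wg j).pos x).le
  refine ⟨⟨fun j => (hw j).continuous, 8 * (C + C'), by positivity, fun j => ?_⟩, fun a =>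
    ⟨fun j => (sm_nab (hA j).sm a (hw j)).continuous, 8 * (C + C'), by positivity, fun j => ?_⟩⟩
  · have := (hw j).continuous
    exact ((key j).mono (Continuous.aestronglyMeasurable (by fun_prop))
      (fun x => mul_nonneg (p j x) (sq_nonneg _)) fun x => mul_le_mul_of_nonneg_left
        (le_add_of_nonneg_right (g2_nonneg x)) (p j x)).le (le_of_eq (by ring))
  · have := (sm_nab (F := F) (hA j).sm a (hw j)).continuous
    exact ((key j).mono (Continuous.aestronglyMeasurable (by fun_prop))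
      (fun x => mul_nonneg (p j x) (sq_nonneg _)) fun x => mul_le_mul_of_nonneg_left
        ((le_g2 a x).trans (le_add_of_nonneg_left (sq_nonneg _))) (p j x)).le (le_of_eq (by ring))

variable (X) in
/-- the weights dominate `1 / ϖ` and `ϖ` is bounded -/
structure Big : Prop where
  ge : ∀ j x, 1 ≤ X.W j x * X.ϖ x
  bd : ∃ K, ∀ x, X.ϖ x ≤ K

variable (X) in
/-- square integrable for the weight `ϖ` -/
def Lw (v : M → N') : Prop := Continuous v ∧ Integrable (fun x => X.ϖ x * ‖v x‖ ^ 2) F.μ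

theorem Lw.dom {v : M → N'} {w : M → N''} (h : X.Lw v) (hw : Continuous w) {K : ℝ}
    (hK : ∀ x, ‖w x‖ ≤ K * ‖v x‖) : X.Lw w := by
  have c := X.amb.wg.sm.continuous
  refine ⟨hw, ((LB.mul ⟨h.2, le_rfl⟩ (sq_nonneg K)).mono (Continuous.aestronglyMeasurable
    (by fun_prop)) (fun x => mul_nonneg (X.amb.wg.pos x).le (sq_nonneg _)) fun x => ?_).1⟩
  have := mul_le_mul_of_nonneg_left (pow_le_pow_left₀ (norm_nonneg _) (hK x) 2) (X.amb.wg.pos x).le
  linarith [mul_pow K ‖v x‖ 2 ▸ this]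

theorem Lw.add {v w : M → N'} (h : X.Lw v) (k : X.Lw w) : X.Lw fun x => v x + w x := by
  have c := X.amb.wg.sm.continuous
  have := h.1
  have := k.1
  refine ⟨h.1.add k.1, (((LB.add ⟨h.2, le_rfl⟩ ⟨k.2, le_rfl⟩).mul zero_le_two).mono
    (Continuous.aestronglyMeasurable (by fun_prop))
    (fun x => mul_nonneg (X.amb.wg.pos x).le (sq_nonneg _)) fun x => ?_).1⟩
  have h1 : ‖v x + w x‖ ^ 2 ≤ 2 * ‖v x‖ ^ 2 + 2 * ‖w x‖ ^ 2 := by
    nlinarith [pow_le_pow_left₀ (norm_nonneg _) (norm_add_le (v x) (w x)) 2,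
      sq_nonneg (‖v x‖ - ‖w x‖)]
  linarith [mul_le_mul_of_nonneg_left h1 (X.amb.wg.pos x).le]

theorem Lw.neg {v : M → N'} (h : X.Lw v) : X.Lw fun x => -v x := h.dom h.1.neg (K := 1) (by simp)

theorem lw_bd {v : M → N'} (h : Continuous v) (k : Bd v) : X.Lw v := ⟨h, X.amb.int_sq h k⟩

theorem Lw.sum {κ : Type} (s : Finset κ) {v : κ → M → N'} (h : ∀ k ∈ s, X.Lw (v k)) :
    X.Lw fun x => ∑ k ∈ s, v k x := by
  classical
  induction s using Finset.induction_on with
  | empty => simpa using lw_bd continuous_const ⟨0, fun _ => by simp⟩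
  | insert k s hk ih =>
    simp only [Finset.sum_insert hk]
    exact (h k (by simp)).add (ih fun k hk => h k (by simp [hk]))

theorem Lw.toLp {α' : Type} [Fintype α'] {f : α' → M → U} (h : ∀ a, X.Lw (f a)) :
    X.Lw fun x => (WithLp.toLp 2 fun a => f a x : Fm α' U) :=
  ⟨(PiLp.continuous_toLp 2 _).comp (continuous_pi fun a => (h a).1), by
    simpa only [PiLp.norm_sq_eq_of_L2, Finset.mul_sum] using
      integrable_finsetSum Finset.univ fun a _ => (h a).2⟩

theorem lw_nab {A : ι → M → CL V V} (hA : Mc I A) {s u : M → V} (hu : F.IsRes A s u) (hs : Bd s)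
    (a : ι) : X.Lw (nab I F.e A a u) := by
  have c := X.amb.wg.sm.continuous
  have c1 := (sm_nab (F := F) hA.sm a hu.1).continuous
  refine ⟨c1, ((X.amb.wk_res hA X.amb.wg hu ⟨X.amb.int_sq (Mp86.sm_isRes hA.sm hu).continuous hs,
    le_rfl⟩).mono (Continuous.aestronglyMeasurable (by fun_prop))
    (fun x => mul_nonneg (X.amb.wg.pos x).le (sq_nonneg _)) fun x => mul_le_mul_of_nonneg_left
      ((le_g2 a x).trans (le_add_of_nonneg_left (sq_nonneg _))) (X.amb.wg.pos x).le).1⟩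

theorem O2.int (hX : X.Big) (h : X.O2 u) (j : J) {v : M → N'} (k : X.Lw v) {f : M → ℝ}
    (hf : Continuous f) {K : ℝ} (hK : ∀ x, |f x| ≤ K * ‖u j x‖ * ‖v x‖) : Integrable f F.μ := by
  obtain ⟨-, C, -, h⟩ := h
  refine (((h j).1.add k.2).const_mul |K|).mono' hf.aestronglyMeasurable (.of_forall fun x => ?_)
  refine (hK x).trans ((mul_le_mul_of_nonneg_right (mul_le_mul_of_nonneg_right (le_abs_self K)
    (norm_nonneg _)) (norm_nonneg _)).trans ?_)
  rw [mul_assoc]
  refine mul_le_mul_of_nonneg_left ?_ (abs_nonneg _)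
  have p := (X.wg j).pos x
  refine le_of_mul_le_mul_left ?_ p
  simp only [Pi.add_apply]
  nlinarith [sq_nonneg (X.W j x * ‖u j x‖ - ‖v x‖), mul_le_mul_of_nonneg_right (hX.ge j x)
    (sq_nonneg ‖v x‖), mul_nonneg p.le (mul_nonneg (norm_nonneg (u j x)) (norm_nonneg (v x)))]

theorem O2.inner (hX : X.Big) {u : J → M → V} (h : X.O2 u) (j : J) {v : M → V} (k : X.Lw v) :
    Integrable (fun x => ⟪u j x, v x⟫_ℝ) F.μ :=
  h.int hX j k ((h.1 j).inner k.1) (K := 1) fun x => by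
    rw [one_mul]; exact abs_real_inner_le_norm _ _

theorem O2.lw (hX : X.Big) (h : X.O2 u) (j : J) : X.Lw (u j) := by
  obtain ⟨K, hK⟩ := hX.bd
  obtain ⟨c, C, -, h⟩ := h
  have := c j
  have := X.amb.wg.sm.continuous
  refine ⟨c j, (((h j).mul (sq_nonneg K)).mono (Continuous.aestronglyMeasurable (by fun_prop))
    (fun x => mul_nonneg (X.amb.wg.pos x).le (sq_nonneg _)) fun x => ?_).1⟩
  rw [← mul_assoc]
  refine mul_le_mul_of_nonneg_right ?_ (sq_nonneg _)
  have p := X.amb.wg.pos x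
  nlinarith [mul_le_mul_of_nonneg_left (hX.ge j x) p.le, mul_le_mul_of_nonneg_left
    (pow_le_pow_left₀ p.le (hK x) 2) ((X.wg j).pos x).le]

theorem O2.o1 (hX : X.Big) (h : X.O2 u) (k : X.O2 v) {f : J → M → ℝ} {K : ℝ} (K0 : 0 ≤ K)
    (hK : ∀ j x, |f j x| ≤ K * ‖u j x‖ * ‖v j x‖) : X.O1 fun j => ∫ x, f j x ∂F.μ := by
  obtain ⟨K', hK'⟩ := hX.bd
  obtain ⟨-, C, C0, h⟩ := h
  obtain ⟨-, C', C0', k⟩ := k
  refine ⟨K * |K'| * (C + C'), by positivity, fun j => ?_⟩
  have h1 := ((h j).add (k j)).mul (c := K * |K'|) (by positivity)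
  refine (abs_integral_le_integral_abs.trans (integral_mono_of_nonneg
    (.of_forall fun x => abs_nonneg _) h1.1 (.of_forall fun x => (hK j x).trans ?_))).trans
    (h1.2.trans_eq (by ring))
  have p := (X.wg j).pos x
  have h2 : 1 ≤ |K'| * X.W j x := (hX.ge j x).trans (by
    rw [mul_comm]; exact mul_le_mul_of_nonneg_right ((hK' x).trans (le_abs_self _)) p.le)
  have h3 : ‖u j x‖ * ‖v j x‖ ≤ |K'| * X.W j x * (‖u j x‖ ^ 2 + ‖v j x‖ ^ 2) := by
    nlinarith [sq_nonneg (‖u j x‖ - ‖v j x‖), mul_le_mul_of_nonneg_right h2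
      (add_nonneg (sq_nonneg ‖u j x‖) (sq_nonneg ‖v j x‖)),
      mul_nonneg (norm_nonneg (u j x)) (norm_nonneg (v j x))]
  simp only
  linarith [mul_le_mul_of_nonneg_left h3 K0]

end Cx

/-- the resolvent is symmetric -/
theorem sa_res (hc : ∃ χ C, Cut F χ C) {A : ι → M → CL V V} (hA : Mc I A) {d σ l l' : M → V}
    {g : ι → M → V} (hd : Sm I d) (hl : Sm I l') (hg : ∀ a, Sm I (g a))
    (ed : ∀ x, d x + lap I F.e F.dv A d x = σ x - dvn F A g x)
    (el : ∀ x, l' x + lap I F.e F.dv A l' x = l x)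
    (i1 : Integrable (fun x => ⟪d x, l x⟫_ℝ - ⟪σ x, l' x⟫_ℝ -
      ∑ a, ⟪g a x, nab I F.e A a l' x⟫_ℝ) F.μ)
    (i2 : ∀ a, Integrable (fun x => ⟪d x, nab I F.e A a l' x⟫_ℝ - ⟪nab I F.e A a d x, l' x⟫_ℝ +
      ⟪g a x, l' x⟫_ℝ) F.μ) :
    ∫ x, (⟪d x, l x⟫_ℝ - ⟪σ x, l' x⟫_ℝ - ∑ a, ⟪g a x, nab I F.e A a l' x⟫_ℝ) ∂F.μ = 0 := by
  obtain ⟨χ, C, hχ⟩ := hc
  have t := tendsto_finsetSum Finset.univ fun a _ => hχ.tend (i2 a) a
  rw [Finset.sum_const_zero] at t
  refine tendsto_nhds_unique (hχ.tend1 i1) (t.congr fun n => ?_)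
  have h1 := (hχ.ts n).smul hd
  have h2 := (hχ.ts n).smul hl
  have sN := fun {u : M → V} (h : Sm I u) a => sm_nab (F := F) hA.sm a h
  have e1 := integral_lap (F := F) hA.sm hA.sk hl h1.sm h1.hc
  have e2 := integral_lap (F := F) hA.sm hA.sk hd h2.sm h2.hc
  have e3 := integral_dvn' (F := F) hA hg h2
  have j1 := (h1.inner (sm_lap (F := F) hA.sm hl)).int F
  have j2 := (h2.inner (sm_lap (F := F) hA.sm hd)).int F
  have j3 := (h2.inner (sm_dvn (F := F) hA hg)).int F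
  have k1 := (ts_pair (F := F) hA (sN hl) h1).int F
  have k2 := (ts_pair (F := F) hA (sN hd) h2).int F
  have k3 := (ts_pair (F := F) hA hg h2).int F
  have i3 : ∀ a, Integrable (fun x => F.D a (χ n) x * (⟪d x, nab I F.e A a l' x⟫_ℝ -
      ⟪nab I F.e A a d x, l' x⟫_ℝ + ⟪g a x, l' x⟫_ℝ)) F.μ := fun a =>
    (((hχ.ts n).D (F := F) a).mul (((sm_inner hd (sN hl a)).sub
      (sm_inner (sN hd a) hl)).add (sm_inner (hg a) hl))).int F
  have i4 := integrable_finsetSum Finset.univ fun a _ => i3 a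
  have e4 := integral_add i4 (((j1.sub' k1).sub' (j2.sub' k2)).sub' (j3.fun_add k3))
  rw [integral_sub ((j1.sub' k1).sub' (j2.sub' k2)) (j3.fun_add k3),
    integral_sub (j1.sub' k1) (j2.sub' k2), integral_sub j1 k1, integral_sub j2 k2,
    integral_add j3 k3, e1, e2, e3, sub_self, sub_self, neg_add_cancel, sub_self, sub_self,
    add_zero, integral_finsetSum _ fun a _ => i3 a] at e4
  rw [← e4]
  congr 1; funext x
  simp only [fun a => nab_smul (e := F.e) (A := A) a ((hχ.ts n).sm x) (hd x),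
    fun a => nab_smul (e := F.e) (A := A) a ((hχ.ts n).sm x) (hl x), ← el x,
    eq_add_of_sub_eq (ed x).symm, inner_add_right, inner_add_left, real_inner_smul_right,
    Finset.sum_add_distrib, ← Finset.mul_sum, Pre.D_def, mul_add,
    mul_sub, Finset.sum_sub_distrib, real_inner_comm (d x), real_inner_comm (nab I F.e A _ d x)]
  ring

end Crest.Agent.X212.Dgr80
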