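import Crest.Agent.X212.Dgr80.En1
import Crest.Agent.X212.Dgr80.Lgd
import Crest.Agent.X212.Eqv71.Cyl

/-!
# Row 212, DGR (helper80): **POS**, the energy of a trajectory
-/

set_option autoImplicit false
set_option linter.unusedSectionVars false
noncomputable section
open scoped Manifold ContDiff Topology InnerProductSpace Classical
open MeasureTheory Set Function Filter

namespace Crest.Agent.X212.Dgr80
open An Wz78 Nd18 Cyf70 Nka63
open Mp86 (NK)

variable {E3 : Type} [NormedAddCommGroup E3] [NormedSpace ℝ E3] [FiniteDimensional ℝ E3]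
  [MeasurableSpace E3] [BorelSpace E3]
  {H3 : Type} [TopologicalSpace H3] {I3 : ModelWithCorners ℝ E3 H3} [I3.Boundaryless]
  {Y : Type} [TopologicalSpace Y] [ChartedSpace H3 Y] [IsManifold I3 ∞ Y] [T2Space Y]
  [MeasurableSpace Y] [BorelSpace Y] [SecondCountableTopology Y] [CompactSpace Y]
  {κ : Type} [Fintype κ] {lam : Type} [Fintype lam] {D : YD I3 Y κ lam} {N : ND Y lam}

/-- the cylinder as a neck -/
abbrev nkZ (hD : D.OK) {C : ℕ → ℝ} (hT : D.Z.Tame C) : NK D (C 0) :=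
  { K := D.nk, hB := hD.B, hG := hD.G, hT := ⟨C, hT⟩, l4 := Mp86.l4_of_tame hT }

theorem amb_Z {C : ℕ → ℝ} (hT : D.Z.Tame C) : Amb D.Z fun x => b (1 / 2) (D.nk.τ x) := by
  refine amb_of_tame hT ⟨sm_time D.nk (contDiff_b _), fun _ => b_pos one_half_pos _, fun x => ?_⟩
    ((int_time D.nk (integrable_b one_half_pos) fun s hs => (hs (Dp_none ▸ mem_univ s)).elim).1.congr
      (.of_forall fun x => abs_of_pos (b_pos one_half_pos _)))
  have h := pow_le_pow_left₀ (abs_nonneg _) (abs_deriv_b_le one_half_pos (D.nk.τ x)) 2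
  have e := D_time_none' D.nk (contDiff_b (1 / 2)) (x := x) ((nk_O D).ge (mem_univ x))
  have e' := fun a => congrFun (D_time_some D.nk (contDiff_b (1 / 2)) a) x
  rw [(hasDerivAt_b _ _).deriv] at e
  rw [Fintype.sum_option]
  erw [e]
  rw [Finset.sum_eq_zero fun a _ => by erw [e' a]; simp]
  rw [sq_abs] at h
  linarith

theorem θc_eq (a a' : ℝ) : θc (a - 3) (a' + 3) = ct (some a) (some a') 0 := funext fun s => by
  simp only [θc, ct, Option.elim]; congr 2 <;> ring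

theorem tend_ct {μ : Measure (Y × ℝ)} {f : Y × ℝ → ℝ} (hi : Integrable f μ) :
    Tendsto (fun n : ℕ => ∫ x, θc (-n - 3) (n + 3) x.2 * f x ∂μ) atTop (𝓝 (∫ x, f x ∂μ)) :=
  tendsto_integral_of_dominated_convergence _ (fun _ => (contDiff_ct.continuous.comp
    continuous_snd).aestronglyMeasurable.mul hi.1) hi.norm (fun _ => .of_forall fun x => by
      rw [norm_mul, Real.norm_of_nonneg ct_mem.1]
      exact mul_le_of_le_one_left (norm_nonneg _) ct_mem.2)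
    (.of_forall fun x => tendsto_const_nhds.congr' ((Mp86.ev_nat (|x.2| + 4)).mono fun n h => by
      beta_reduce
      rw [show θc (-n - 3) (n + 3) x.2 = 1 from ct_one
        ⟨fun _ k => Option.some.inj k ▸ by linarith [neg_abs_le x.2],
          fun _ k => Option.some.inj k ▸ by linarith [le_abs_self x.2]⟩, one_mul]))

/-- the energy identity with a cut-off, the non-gradient terms being estimated -/
theorem en_loc {S a a' k C : ℝ} {r n : ℕ} {X : NK D S} {c : Cfg X.M (Option κ) lam r}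
    {q : YW I3 Y →₀ ℝ} (h : c.Sol X.B X.G (N.pt X.K q : Pt _ _ _ r n)) (hD : D.OK) (hδ : 0 < N.δ)
    (hk : 1 ≤ k) (hq : Sml (fun T => k * sk T) q) (T : Sb X.K.p X.K.q a a')
    (hC : LB X.G.F.μ (N.ew X.K c) C) {w : X.M → ℝ} (hw : Integrable w X.G.F.μ)
    (e : ∀ x, w x = -(⟪xA X.G.F c X.K.τ x, (N.dg X.K).gA X.G.F c x⟫_ℝ +
      ⟪xP X.G.F c X.K.τ x, (N.dg X.K).gP X.G.F c x⟫_ℝ) + en X.G.F c X.K.τ x / 4) :
    ∫ x, θc a a' (X.K.τ x) * en X.G.F c X.K.τ x ∂X.G.F.μ -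
      8 * Real.pi ^ 2 * ∫ x, θc a a' (X.K.τ x) * c.m.kd X.B X.G.F c.W x ∂X.G.F.μ -
      (∫ x, deriv (θc a a') (X.K.τ x) * ⟪dY X.G.F c X.K.τ x, c.Φ x⟫_ℝ ∂X.G.F.μ) / 2 -
      ∫ x, θc a a' (X.K.τ x) * w x ∂X.G.F.μ ≤ 4 * k⁻¹ * (vY D * C) := by
  have P := pn2 hD X
  have A := h.toAdm
  have t := T.tf (G := X.G)
  have e1 := en_id P h t.ts t.d0
  have l := T.lb_eT hδ A hC
  have j := hw.bdd_mul (c := 1) t.ts.sm.continuous.aestronglyMeasurable
    (.of_forall fun _ => (Real.norm_of_nonneg ct_mem.1).trans_le ct_mem.2)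
  have e3 := integral_mono ((ts_wk P h t.ts).int X.G.F) (j.add (l.1.const_mul (4 * k⁻¹)))
    fun x => by
      simp only [Pi.add_apply, e]
      by_cases o : x ∈ O X.K 2
      · have b := mul_le_mul_of_nonneg_left (wk_pt (ρ := ⟨fun _ _ => 0, fun _ _ => 0, fun _ _ => 0⟩)
          (n := n) hD hδ A hk hq o (add_zero _).symm (add_zero _).symm)
          (ct_mem (p := some a) (q := some a') (d := 3) (s := X.K.τ x)).1
        simp only [norm_zero] at b
        linarith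
      · simp only [show θc a a' (X.K.τ x) = 0 from t.ts.zero o, zero_mul, mul_zero, add_zero, le_rfl]
  simp only [Pi.add_apply] at e3
  rw [integral_add j (l.1.const_mul _), integral_const_mul] at e3
  rw [T.Dθ] at e1
  linarith [mul_le_mul_of_nonneg_left l.2 (show 0 ≤ 4 * k⁻¹ by positivity)]

/-- the energy inequality on the cylinder -/
theorem en_cyl (hD : D.OK) (hT : ∃ C, D.Z.Tame C) (hN : N.OK D) : ∃ sz : YW I3 Y → ℝ,
    ∀ q, Sml sz q → ∀ (c : Cfg (Y × ℝ) (Option κ) lam 0) (l : ℝ),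
      c.Sol D.B D.G (N.pt D.nk q : Pt _ _ _ 0 0) → Integrable (en D.Z c Prod.snd) D.Z.μ →
      Integrable (c.m.kd D.B D.Z c.W) D.Z.μ → Integrable (wq N D c) D.Z.μ →
      Tendsto (fun n : ℕ => ∫ x, deriv (ct (some (-n)) (some n) 0) x.2 *
        ⟪dY D.Z c Prod.snd x, c.Φ x⟫_ℝ ∂D.Z.μ) atTop (𝓝 l) →
      ∫ x, en D.Z c Prod.snd x ∂D.Z.μ ≤
        16 * Real.pi ^ 2 * c.kap D.B D.G + l - 2 * ∫ x, wq N D c x ∂D.Z.μ := by
  obtain ⟨C, C1, hC⟩ := exists_ew hD hN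
  obtain ⟨_, hT⟩ := hT
  have v := vY_nonneg D
  have k1 : 1 ≤ 16 * (vY D * C) + 1 := le_add_of_nonneg_left (by positivity)
  refine ⟨fun T => (16 * (vY D * C) + 1) * sk T, fun q hq c l h i1 i2 i3 hl => ?_⟩
  have e : (nkZ hD hT).K.τ = Prod.snd := nk_τ D
  have hE := hC _ 0 (nkZ hD hT) c _ (∫ x, en D.Z c Prod.snd x ∂D.Z.μ) h.toAdm (amb_Z hT) (by
    simp only [nk_cut, one_mul, nk_τ]; exact ⟨i1, le_rfl⟩)
  have j := i3.fun_neg.fun_add (i1.div_const 4)
  have key := le_of_tendsto' (b := 4 * (16 * (vY D * C) + 1)⁻¹ *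
      (vY D * (C * ∫ x, en D.Z c Prod.snd x ∂D.Z.μ))) ((((tend_ct i1).sub
      ((tend_ct i2).const_mul (8 * Real.pi ^ 2))).sub (hl.div_const 2)).sub (tend_ct j)) fun n => by
    have := en_loc (X := nkZ hD hT) (a := -n - 3) (a' := n + 3) h hD hN.δ0 k1 hq
      ⟨fun _ => nofun, fun _ => nofun⟩ hE j fun x => by rw [e]; rfl
    rw [e] at this
    rw [← θc_eq]
    exact this
  have E0 : 0 ≤ ∫ x, en D.Z c Prod.snd x ∂D.Z.μ := integral_nonneg fun x => en_nonneg _ _ _ _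
  have b1 : (16 * (vY D * C) + 1)⁻¹ * (vY D * C) ≤ 1 / 16 := by
    rw [inv_mul_le_iff₀ (by linarith)]; linarith
  rw [integral_add i3.fun_neg (i1.div_const 4), integral_neg, integral_div] at key
  have : c.kap D.B D.G = ∫ x, c.m.kd D.B D.Z c.W x ∂D.Z.μ := rfl
  rw [this]
  nlinarith [mul_le_mul_of_nonneg_right b1 E0]

/-- **POS** -/
theorem pos (hT : TmpStmt I3 Y κ lam) (hW : WrkStmt I3 Y κ lam) (hR : DirStmt I3 Y κ lam) :
    PosStmt I3 Y κ lam := fun N D hD h3 hN => by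
  have Z := Eqv71.okZ hD h3
  obtain ⟨sz, H⟩ := en_cyl hD Z.tame hN
  refine ⟨sz, fun q hq c γ γ' ζ ζ' d d0 a a' h l l' => ?_⟩
  obtain ⟨β, d', α, φ, u, v, T, ⟨g, ξ, e⟩, e0, e1⟩ := hT D hD Z.tame c γ γ' ζ ζ' d d0 h.toAdm a a' l l'
  obtain ⟨i1, i2, t⟩ := hR D hD β d' α φ u v T
  obtain ⟨i3, w⟩ := hW N D hD Z.tame hN (lgZ hN) β d' α φ u v T
  have k := H q hq _ _ ((Z.pt hN q).sol_iso Z h T.gd.adm e) i1 i2 i3 t
  have A := Eqv71.ad0 h.toAdm
  have A' := Eqv71.ad0 T.gd.adm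
  rw [funext (Z.en_iso A A' e)] at i1
  simp only [Z.en_iso A A' e, Z.kap_iso A A' e, w] at k
  have m0 := Z.lv_iso hN (Eqv71.ad0 (T.lad false).adm) (Eqv71.ad0 a.adm) e0
  have m1 := Z.lv_iso hN (Eqv71.ad0 (T.lad true).adm) (Eqv71.ad0 a'.adm) e1
  have p : 0 < Real.pi ^ 2 := by positivity
  have k' : ∫ x, en D.Z c Prod.snd x ∂D.Z.μ ≤ 16 * Real.pi ^ 2 * N.tE D c γ γ' := by
    rw [ND.tE, m0, m1, lv_eq, lv_eq, mul_add]
    refine k.trans_eq ?_
    field_simp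
    ring
  obtain ⟨_, hZ⟩ := Z.tame
  have := Sob92.openPos D.Z.toPre
  have s := ((pn2 hD (nkZ hD hZ)).sm_en h.toAdm).continuous
  rw [show (nkZ hD hZ).K.τ = Prod.snd from nk_τ D] at s
  refine ⟨i1, k', fun ⟨x, hx⟩ => pos_of_mul_pos_right (a := 16 * Real.pi ^ 2) (lt_of_lt_of_le
    (integral_pos_of_integrable_nonneg_nonzero s i1 (fun _ => en_nonneg _ _ _ _) hx) k') ?_⟩
  positivity

end Crest.Agent.X212.Dgr80
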