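import Crest.Agent.X212.Dgr80.En0

/-!
# Row 212, DGR (helper80): the translation estimate for the densities of a neck, uniformly
-/

set_option autoImplicit false
set_option linter.unusedSectionVars false
noncomputable section
open scoped Manifold ContDiff Topology InnerProductSpace Classical
open MeasureTheory Set Function Filter

namespace Crest.Agent.X212.Dgr80
open An Wz78 Nd18 Cyf70 Nka63
open Mp86 (NK PkSz)
open Cyc79 (Cy)

variable {E3 : Type} [NormedAddCommGroup E3] [NormedSpace ℝ E3] [FiniteDimensional ℝ E3]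
  [MeasurableSpace E3] [BorelSpace E3]
  {H3 : Type} [TopologicalSpace H3] {I3 : ModelWithCorners ℝ E3 H3} [I3.Boundaryless]
  {Y : Type} [TopologicalSpace Y] [ChartedSpace H3 Y] [IsManifold I3 ∞ Y] [T2Space Y]
  [MeasurableSpace Y] [BorelSpace Y] [SecondCountableTopology Y] [CompactSpace Y]
  {κ : Type} [Fintype κ] {lam : Type} [Fintype lam] {D : YD I3 Y κ lam} {S : ℝ} {r : ℕ}

theorem pr_la (X : NK D S) {w : List (La Y)} (h : ∀ t ∈ w, laOK I3 t) :
    ∀ t ∈ w.map X.K.la, Cyc79.Pr X.G.F none (O X.K 2) t :=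
  List.forall_mem_map.2 fun t ht => by
    cases t with
    | mul f => exact fun x hx => D_ext_none_zero X.K (h _ ht) hx
    | G => trivial

theorem pr_ext (X : NK D S) {s : Y → Eu lam} (h : Sm I3 s) :
    ∀ x ∈ O X.K 2, nab X.I X.G.F.e X.G.a none (X.K.ext s) x = 0 := fun x hx => by
  have k := O_sub X.K zero_le_two hx
  have e : X.G.a none x = 0 := by
    rw [← X.K.ψ.right_inv k, X.K.a _ _ (X.K.ψ.map_target k)]; rfl
  rw [nab, e, zero_apply, add_zero]
  exact D_ext_none_zero X.K h hx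

variable (hD : D.OK)
include hD

theorem pn2 (X : NK D S) : PN X.B X.G X.K.τ none (O X.K 2) := pn X.K hD X.hB X.hG one_le_two

theorem pr_lt (X : NK D S) {u : List (YL Y)} (h : ∀ t ∈ u, YL.OK I3 t) :
    ∀ t ∈ u.map X.K.lt, LtPr none (O X.K 2) X.G.F t :=
  List.forall_mem_map.2 fun t ht => by
    have P := (pn2 hD X).toPrd
    cases t with
    | mul f => exact fun x hx => D_ext_none_zero X.K (h _ ht) hx
    | cl g =>
      intro x hx a
      cases g with
      | none => exact P.D_zero (fun y hy => P.dτ y hy a) hx none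
      | some g =>
        have hg : Sm I3 g := h _ ht g rfl
        cases a with
        | none => exact P.D_zero (fun y hy => D_ext_none_zero X.K hg hy) hx none
        | some a =>
          rw [Nk.fn, D_ext_some X.K hg]
          exact D_ext_none_zero X.K (D.F.sm_D hg a) hx
    | im => trivial
    | G => trivial

variable (r) in
/-- the translation estimate on the neck `X` -/
abbrev TrX (X : NK D S) (d : Den X.M (Option κ) lam r) (k : ℝ) : Prop :=
  ∀ c, Gd X.B X.G c → RD.Tr X.G.F none (O X.K 2) (xA X.G.F c X.K.τ) (xP X.G.F c X.K.τ) k (d.rd c)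

omit hD in
theorem tr_cut {d : ∀ X : NK D S, Den X.M (Option κ) lam r} (h : ∃ k, ∀ X, TrX r X (d X) k) :
    ∀ᶠ k in atTop, ∀ X : NK D S, TrX r X (dcut X.K.χ (d X)) k :=
  let ⟨_, h⟩ := h
  (eventually_ge_atTop _).mono fun _ hk X c hc => ((h X c hc).cut (isOpen_O X.K) X.K.cb_χ (fun x =>
    (abs_of_nonneg (χ_mem X.K x).1).trans_le (χ_mem X.K x).2) fun _ => χ_one X.K).mono hk

theorem tr_pk {T : ∀ X : NK D S, Pk X.M lam} (hT : ∀ᶠ n : ℕ in atTop, ∀ X, PkSz X.G n (T X))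
    (oT : ∀ X, (T X).OK X.G.F) (pT : ∀ X, (T X).Pr none (O X.K 2) X.G) {u v : List (YL Y)}
    (hu : ∀ t ∈ u, YL.OK I3 t) (hv : ∀ t ∈ v, YL.OK I3 t) : ∀ᶠ k in atTop, ∀ X : NK D S,
      TrX r X (dcut X.K.χ (Den.sw X.G.F (T X) (u.map X.K.lt) (v.map X.K.lt))) k := by
  obtain ⟨n, n1, a, b, c⟩ := ((eventually_ge_atTop 1).and (hT.and ((Mp86.sw_sz hD hu).and
    (Mp86.sw_sz (S := S) hD hv)))).exists
  exact tr_cut ⟨_, fun X _ h => h.tr_sw (pn2 hD X) n1 (oT X) (X.K.ok_sw hu) (X.K.ok_sw hv) (a X)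
    (b X) (c X) (pT X) (pr_lt hD X hu) (pr_lt hD X hv)⟩

theorem tr_cyc (hS : 0 < S) {d : Cy Y} (hd : d.OK D.F) {w : List (La Y)}
    (hw : ∀ t ∈ w, laOK I3 t) : ∀ᶠ k in atTop, ∀ (X : NK D S) (c : Cfg X.M (Option κ) lam r),
      Gd X.B X.G c → RS.Tr X.G.F (c.m.adW c.W) (QP X.G.F c.m.pg) none (O X.K 2) (xA X.G.F c X.K.τ)
        (xP X.G.F c X.K.τ) k ((((X.K.cyc d).sed X.G.F).wd X.G.F (w.map X.K.la)).rs c) := by
  have o := fun t ht => laOK_of (hd.w t ht)
  have o' := fun t ht => laOK_of (hd.w' t ht)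
  obtain ⟨n, a, b, c, e⟩ := ((Mp86.sep_sz (S := S) hD hd.sep).and
    ((Mp86.ll_sz (D := D) (S := S) o).and ((Mp86.ll_sz (D := D) (S := S) o').and
      (Mp86.ll_sz (D := D) (S := S) hw)))).exists
  obtain ⟨k, k1, k2, k3⟩ := ((eventually_ge_atTop (Cyc79.kT (Cyc79.kB S n) (n + 3))).and
    ((eventually_ge_atTop (n : ℝ)).and (eventually_ge_atTop (1 : ℝ)))).exists
  exact (eventually_ge_atTop _).mono fun _ hk X _ h => (h.tr_cy (pn2 hD X) X.l4 hS (ok_cyc X.K hd)
    ⟨a X, (b X).1, (c X).1⟩ ⟨fun _ => D_ext_none_zero X.K hd.sep.1.choose_spec.1,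
      fun _ => D_ext_none_zero X.K hd.sep.2.1.choose_spec.1, pr_la X o, pr_la X o'⟩ k1 k2 k3
    (X.K.ok_las hw) (e X).1 (pr_la X hw)).mono hk

theorem tr_dg {N : ND Y lam} (hN : N.OK D) (hS : 0 < S) (j : N.J) :
    ∀ᶠ k in atTop, ∀ X : NK D S, TrX r X ((N.dg X.K).d j) k := by
  rcases j with j | j | j
  · have := hN.d0 j
    simp only [ND.dg, Sum.elim_inl]
    generalize N.d0 j = d at this
    cases d with
    | sw a b =>
      exact tr_pk hD (T := fun _ => .one) (.of_forall fun _ _ => trivial) (fun _ => trivial)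
        (fun _ => trivial) this.1 this.2
    | cy d w d' w' =>
      obtain ⟨k, k1, a, b⟩ := ((eventually_ge_atTop (1 : ℝ)).and ((tr_cyc (r := r) hD hS this.1
        this.2.1).and (tr_cyc (r := r) hD hS this.2.2.1 this.2.2.2))).exists
      exact tr_cut ⟨_, fun X c h => h.tr_sed (pn2 hD X) k1 (a X c h) (b X c h)⟩
  · exact tr_pk hD (T := fun X => .re (X.K.ext (N.d2 j).s)) (Mp86.sc_ext hD (hN.d2 j).1)
      (fun X => X.K.cb_ext (hN.d2 j).1) (fun X => pr_ext X (hN.d2 j).1) (hN.d2 j).2.1 (hN.d2 j).2.2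
  · exact tr_pk hD (T := fun X => .im (X.K.ext (N.d2 j).s)) (Mp86.sc_ext hD (hN.d2 j).1)
      (fun X => X.K.cb_ext (hN.d2 j).1) (fun X => pr_ext X (hN.d2 j).1) (hN.d2 j).2.1 (hN.d2 j).2.2

end Crest.Agent.X212.Dgr80
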