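import Crest.Agent.X212.Cyc79.Ub

/-!
# Row 212, LOC-K (helper80): local boundedness from a local Sobolev inequality
-/

set_option autoImplicit false
set_option linter.unusedSectionVars false
noncomputable section
open scoped Manifold ContDiff Topology InnerProductSpace
open MeasureTheory Set Function Filter

namespace Crest.Agent.X212.Dgr80.Uk
open An Mp86 Cyc79
open Wz78 (lap)
open Cht98 (L4On)

variable {E : Type} [NormedAddCommGroup E] [NormedSpace ℝ E] [FiniteDimensional ℝ E]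
  [MeasurableSpace E] [BorelSpace E]
  {HM : Type} [TopologicalSpace HM] {I : ModelWithCorners ℝ E HM} [I.Boundaryless]
  {M : Type} [TopologicalSpace M] [ChartedSpace HM M] [IsManifold I ∞ M]
  [MeasurableSpace M] [T2Space M] [BorelSpace M] [SecondCountableTopology M]
  {ι : Type} [Fintype ι] {V : Type} [NormedAddCommGroup V] [InnerProductSpace ℝ V]
  {F : Fr I M ι} {A : ι → M → V →L[ℝ] V} {ψ U φ ζ η w σ : M → ℝ} {N S β : ℝ} {s : M → V}
  {O : Set M}

/-- the Sobolev inequality behind the cut-off function `η` -/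
def LC (F : Fr I M ι) (η : M → ℝ) (S : ℝ) : Prop := Continuous η ∧
  ∀ v : M → ℝ, Sm I v → HasCompactSupport v → √(∫ x, (η x * v x) ^ 4 ∂F.μ) ≤ S * F.ip 1 v v

theorem lc_of (h : L4On F.toPre O S) (hS : 0 ≤ S) (hη : Cu F N η) (h1 : ∀ x, |η x| ≤ 1)
    (hO : tsupport η ⊆ O) : LC F η (S * (2 + 2 * N)) := ⟨hη.sm.continuous, fun v hv hc => by
  have s1 : Sm I fun x => η x * v x := hη.sm.mul hv
  have c1 : HasCompactSupport fun x => η x * v x := hc.mul_left
  refine (h _ s1 c1 ((tsupport_mul_subset_left (f := η) (g := v)).trans hO)).trans ?_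
  rw [mul_assoc]
  refine mul_le_mul_of_nonneg_left ?_ hS
  have i : ∀ {u : M → ℝ}, Sm I u → HasCompactSupport u → Integrable (fun x => u x ^ 2) F.μ ∧
      (Integrable (fun x => ∑ a, F.D a u x ^ 2) F.μ) ∧
      F.ip 1 u u = ∫ x, (u x ^ 2 + ∑ a, F.D a u x ^ 2) ∂F.μ := fun {u} a b => by
    have j := fun k => integ_pow (F := F) (F.sm_D a k).continuous (F.hcs_D b k) two_ne_zero
    have j0 := integ_pow (F := F) a.continuous b two_ne_zero
    refine ⟨j0, integrable_finsetSum _ fun k _ => j k, ?_⟩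
    rw [integral_add j0 (integrable_finsetSum _ fun k _ => j k), integral_finsetSum _ fun k _ => j k]
    simp only [Pre.ip, real_inner_self_eq_norm_sq, Real.norm_eq_abs, sq_abs]
  obtain ⟨a1, a2, a3⟩ := i s1 c1
  obtain ⟨b1, b2, b3⟩ := i hv hc
  rw [a3, b3, ← integral_const_mul]
  refine integral_mono (a1.add a2) ((b1.add b2).const_mul _) fun x => ?_
  have e : ∑ a, F.D a (fun x => η x * v x) x ^ 2 ≤
      ∑ a, (2 * v x ^ 2 * F.D a η x ^ 2 + 2 * F.D a v x ^ 2) := Finset.sum_le_sum fun a _ => by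
    rw [show F.D a (fun x => η x * v x) x = F.D a η x * v x + η x * F.D a v x from
      Mp86.dv_mul (md1 hη.sm x) (md1 hv x)]
    have : η x ^ 2 ≤ 1 := (sq_le_one_iff_abs_le_one _).2 (h1 x)
    nlinarith [sq_nonneg (F.D a η x * v x - η x * F.D a v x),
      mul_le_mul_of_nonneg_right this (sq_nonneg (F.D a v x))]
  rw [Finset.sum_add_distrib, ← Finset.mul_sum, ← Finset.mul_sum] at e
  have : η x ^ 2 ≤ 1 := (sq_le_one_iff_abs_le_one _).2 (h1 x)
  have N0 := (gr_nn F η x).trans (hη.gr x)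
  beta_reduce
  nlinarith [mul_le_mul_of_nonneg_right this (sq_nonneg (v x)), gr_nn F v x,
    mul_le_mul_of_nonneg_left (hη.gr x) (sq_nonneg (v x)), mul_nonneg N0 (gr_nn F v x)]⟩

theorem step (h : Mp86.Eng F w σ) {t ε : ℝ} (hS : LC F η S) (hη : ∀ x, 0 < w x → η x = 1)
    (hS0 : 0 ≤ S) (hβ0 : 0 ≤ β)
    (hi : Integrable (fun x => σ x ^ 4) F.μ) (hβ : ∫ x, σ x ^ 4 ∂F.μ ≤ β ^ 4)
    (ht : 0 < t) (hε : 0 < ε) {A : Set M} (hA : MeasurableSet A) (hA' : F.μ A ≠ ⊤)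
    (hout : ∀ x ∉ A, w x ≤ t ∨ σ x ≤ t) {T : ℝ} (hT : t + ε < T) :
    (T - t - ε) ^ 4 * F.μ.real {x | T < w x} ≤ (S * β) ^ 4 * F.μ.real A ^ 2 := by
  obtain ⟨v, a1, a2, a3, a4, a5, a6⟩ := h.energy ht hε
  have vc := a1.continuous
  have i4 : Integrable (fun x => v x ^ 4) F.μ := integ_pow vc a2 (by norm_num)
  have j1 : Integrable (fun x => v x * σ x) F.μ :=
    (vc.mul h.cont).integrable_of_hasCompactSupport a2.mul_right
  have j2 : Integrable (fun x => (v x * σ x) ^ 2) F.μ :=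
    integ_pow (vc.mul h.cont) a2.mul_right two_ne_zero
  have j3 : Integrable (fun x => A.indicator (fun _ => (1 : ℝ)) x ^ 2) F.μ := by
    refine ((integrable_indicator_iff hA).2 (integrableOn_const (C := (1 : ℝ)) hA')).congr
      (.of_forall fun x => ?_)
    by_cases hx : x ∈ A <;> simp [hx]
  have j4 : Integrable (fun x => v x * σ x * A.indicator (fun _ => (1 : ℝ)) x) F.μ := by
    refine (j1.indicator hA).congr (.of_forall fun x => ?_)
    by_cases hx : x ∈ A <;> simp [hx]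
  have b1 : ∫ x, v x * (σ x - t) ∂F.μ ≤ ∫ x, v x * σ x * A.indicator (fun _ => (1 : ℝ)) x ∂F.μ := by
    refine integral_mono ((vc.mul (h.cont.sub continuous_const)).integrable_of_hasCompactSupport
      a2.mul_right) j4 fun x => ?_
    by_cases hx : x ∈ A
    · simp only [indicator_of_mem hx]; nlinarith [a3 x]
    · simp only [indicator_of_notMem hx]
      rcases hout x hx with h1 | h1
      · simp [a4 x h1]
      · nlinarith [a3 x]
  have b2 := int_cs j2 j3 j4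
  have b3 : ∫ x, A.indicator (fun _ => (1 : ℝ)) x ^ 2 ∂F.μ = F.μ.real A := by
    rw [← integral_indicator_one hA]
    exact integral_congr_ae (.of_forall fun x => by by_cases hx : x ∈ A <;> simp [hx])
  have b4 := int_cs (μ := F.μ) (f := fun x => v x ^ 2) (g := fun x => σ x ^ 2)
    (i4.congr (.of_forall fun x => by ring)) (hi.congr (.of_forall fun x => by ring))
    (j2.congr (.of_forall fun x => by ring))
  simp only [← pow_mul, ← mul_pow, Nat.reduceMul] at b4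
  have b5 := hS.2 v a1 a2
  have ee : ∀ x, η x * v x = v x := fun x => (le_or_gt (w x) t).elim (fun k => by simp [a4 x k])
    fun k => by rw [hη x (ht.trans k), one_mul]
  simp only [ee] at b5
  set X := ∫ x, v x ^ 4 ∂F.μ with hX
  have X0 : 0 ≤ X := integral_nonneg fun x => by positivity
  have b6 : √(∫ x, σ x ^ 4 ∂F.μ) ≤ β ^ 2 := Real.sqrt_le_iff.2 ⟨by positivity, by linarith⟩
  have b7 : √(∫ x, (v x * σ x) ^ 2 ∂F.μ) ≤ √(√X) * β := by
    refine Real.sqrt_le_iff.2 ⟨by positivity, ?_⟩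
    rw [mul_pow, Real.sq_sqrt (Real.sqrt_nonneg _)]
    exact b4.trans (mul_le_mul_of_nonneg_left b6 (Real.sqrt_nonneg _))
  rw [b3] at b2
  have b8 : √(√X) ≤ S * β * √(F.μ.real A) := by
    refine le_of_sq_le_mul (by positivity) ?_
    rw [Real.sq_sqrt (Real.sqrt_nonneg _)]
    have := mul_le_mul_of_nonneg_left (a6.trans (b1.trans (b2.trans
      (mul_le_mul_of_nonneg_right b7 (Real.sqrt_nonneg _))))) hS0
    nlinarith
  have b9 : X ≤ (S * β) ^ 4 * F.μ.real A ^ 2 := by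
    have h1 := pow_le_pow_left₀ (Real.sqrt_nonneg _) b8 4
    have h2 : √(√X) ^ 4 = X := by
      rw [show 4 = 2 * 2 from rfl, pow_mul, Real.sq_sqrt (Real.sqrt_nonneg _), Real.sq_sqrt X0]
    have h3 : √(F.μ.real A) ^ 4 = F.μ.real A ^ 2 := by
      rw [show 4 = 2 * 2 from rfl, pow_mul, Real.sq_sqrt measureReal_nonneg]
    rwa [h2, mul_pow, h3] at h1
  refine le_trans (cheb i4 (by linarith)
    fun x (hx : T < w x) => ?_).2 b9
  linarith [a5 x]

theorem sup_le [F.μ.IsOpenPosMeasure] (h : Mp86.Eng F w σ) (hS : LC F η S)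
    (hη : ∀ x, 0 < w x → η x = 1)
    (hS0 : 0 < S) (hβ0 : 0 < β) (hi : Integrable (fun x => σ x ^ 4) F.μ)
    (hβ : ∫ x, σ x ^ 4 ∂F.μ ≤ β ^ 4) (x : M) : w x ≤ (3 + 8 * S ^ 2) * β := by
  have wc := h.sm.continuous
  have ms : ∀ t, MeasurableSet {x | t < w x} := fun t =>
    (isOpen_lt continuous_const wc).measurableSet
  have fin : ∀ t > 0, F.μ {x | t < w x} ≠ ⊤ := fun t ht =>
    ((measure_mono fun x (hx : t < w x) => hx.le).trans_lt (h.cpt t ht).measure_lt_top).ne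
  have mσ : MeasurableSet {x | β < σ x} := (isOpen_lt continuous_const h.cont).measurableSet
  obtain ⟨c1, c2⟩ := cheb (A := {x | β < σ x}) hi hβ0 fun x (hx : β < σ x) => hx.le
  have c3 : F.μ.real {x | β < σ x} ≤ 1 :=
    le_of_mul_le_mul_left (by linarith) (pow_pos hβ0 4)
  have c4 := step h hS hη hS0.le hβ0.le hi hβ hβ0 hβ0 mσ c1
    (fun x hx => Or.inr (not_lt.1 hx)) (T := 3 * β) (by linarith)
  have c5 : F.μ.real {x | 3 * β < w x} ≤ S ^ 4 := by
    have h1 : F.μ.real {x | β < σ x} ^ 2 ≤ 1 := pow_le_one₀ measureReal_nonneg c3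
    refine le_of_mul_le_mul_left ?_ (pow_pos hβ0 4)
    rw [show 3 * β - β - β = β by ring] at c4
    nlinarith [mul_le_mul_of_nonneg_left h1 (show 0 ≤ (S * β) ^ 4 by positivity)]
  set d := 8 * S ^ 2 * β with hd
  have d0 : 0 < d := by positivity
  let t : ℕ → ℝ := fun k => 3 * β + d * (1 - (1 / 2) ^ k)
  have p0 : ∀ k : ℕ, 0 < (1 / 2 : ℝ) ^ k := fun k => by positivity
  have p1 : ∀ k : ℕ, (1 / 2 : ℝ) ^ k ≤ 1 := fun k => pow_le_one₀ (by norm_num) (by norm_num)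
  have t0 : ∀ k, 0 < t k := fun k => by
    have := mul_nonneg d0.le (sub_nonneg.2 (p1 k))
    simp only [t]; linarith
  have key := iter_zero (a := fun k => F.μ.real {x | t k < w x}) (q := (1 / (2 * S)) ^ 4)
    (fun _ => measureReal_nonneg) (by positivity) (by
      have h1 : t 0 = 3 * β := by simp [t]
      have h2 : (1 / (2 * S)) ^ 4 * S ^ 4 * 16 = 1 := by field_simp; norm_num
      simp only [h1]
      nlinarith [mul_le_mul_of_nonneg_left c5 (show 0 ≤ (1 / (2 * S)) ^ 4 by positivity)])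
    fun k => by
      have e1 : t (k + 1) - t k - d * (1 / 2) ^ k / 4 = d * (1 / 2) ^ k / 4 := by
        simp only [t]; ring
      have q0 : 0 < d * (1 / 2) ^ k / 4 := by positivity
      have h1 := step h hS hη hS0.le hβ0.le hi hβ (t0 k) q0 (ms _) (fin _ (t0 k))
        (fun x hx => Or.inl (not_lt.1 hx)) (T := t (k + 1)) (by linarith)
      rw [e1] at h1
      refine le_of_mul_le_mul_left (h1.trans_eq ?_) (pow_pos q0 4)
      have h2 : ((1 / 2 : ℝ) ^ k) ^ 4 * 16 ^ k = 1 := by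
        rw [← pow_mul, mul_comm k, pow_mul, ← mul_pow]; norm_num
      have h3 : (S * β) ^ 4 = (d / 4) ^ 4 * (1 / (2 * S)) ^ 4 := by rw [hd]; field_simp; norm_num
      rw [h3]
      linear_combination (-(d / 4) ^ 4 * (1 / (2 * S)) ^ 4 * F.μ.real {x | t k < w x} ^ 2) * h2
  have z : F.μ.real {x | 3 * β + d < w x} ≤ 0 := by
    have lim : Tendsto (fun k : ℕ => F.μ.real {x | t 0 < w x} * (1 / 16 : ℝ) ^ k) atTop (𝓝 0) := by
      simpa using (tendsto_pow_atTop_nhds_zero_of_lt_one (r := (1 / 16 : ℝ)) (by norm_num)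
        (by norm_num)).const_mul (F.μ.real {x | t 0 < w x})
    refine ge_of_tendsto' lim fun k => le_trans (measureReal_mono
      (fun x (hx : 3 * β + d < w x) => ?_) (fin _ (t0 k))) (key k)
    have := mul_pos d0 (p0 k)
    show 3 * β + d * (1 - (1 / 2) ^ k) < w x
    linarith
  have z2 : F.μ {x | 3 * β + d < w x} = 0 :=
    (measureReal_eq_zero_iff (fin _ (by positivity))).1 (le_antisymm z measureReal_nonneg)
  have z3 := (isOpen_lt continuous_const wc).measure_eq_zero_iff F.μ |>.1 z2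
  refine le_of_not_gt fun hx => (z3 ▸ (show x ∈ {x | 3 * β + d < w x} from ?_) : x ∈ (∅ : Set M))
  show 3 * β + d < w x
  linarith

theorem l4_le (h : Mp86.Eng F w σ) {t ε : ℝ} (hS : LC F η S) (hS0 : 0 ≤ S) (hβ0 : 0 ≤ β)
    (hi : Integrable (fun x => σ x ^ 2) F.μ) (hβ : ∫ x, σ x ^ 2 ∂F.μ ≤ β ^ 2)
    (ht : 0 < t) (hε : 0 < ε) :
    ∃ v : M → ℝ, Continuous v ∧ HasCompactSupport v ∧ (∀ x, w x - t - ε ≤ v x) ∧
      ∫ x, (η x * v x) ^ 4 ∂F.μ ≤ (S * β ^ 2) ^ 2 := by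
  obtain ⟨v, a1, a2, a3, -, a5, a6⟩ := h.energy ht hε
  have vc := a1.continuous
  have j1 : Integrable (fun x => v x * σ x) F.μ :=
    (vc.mul h.cont).integrable_of_hasCompactSupport a2.mul_right
  have b1 : ∫ x, v x * (σ x - t) ∂F.μ ≤ ∫ x, v x * σ x ∂F.μ :=
    integral_mono ((vc.mul (h.cont.sub continuous_const)).integrable_of_hasCompactSupport
      a2.mul_right) j1 fun x => by nlinarith [a3 x]
  have b2 := int_cs (integ_pow vc a2 two_ne_zero) hi j1
  have b3 : ∫ x, v x ^ 2 ∂F.μ ≤ F.ip 1 v v := by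
    simp only [Pre.ip, real_inner_self_eq_norm_sq, Real.norm_eq_abs, sq_abs]
    exact le_add_of_nonneg_right (Finset.sum_nonneg fun a _ => integral_nonneg fun x => sq_nonneg _)
  have b4 : √(∫ x, σ x ^ 2 ∂F.μ) ≤ β := Real.sqrt_le_iff.2 ⟨hβ0, hβ⟩
  have b5 : √(F.ip 1 v v) ≤ β := by
    refine le_of_sq_le_mul hβ0 ?_
    rw [Real.sq_sqrt (F.ip_nonneg 1 v), mul_comm]
    exact a6.trans (b1.trans (b2.trans (mul_le_mul (Real.sqrt_le_sqrt b3) b4 (Real.sqrt_nonneg _)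
      (Real.sqrt_nonneg _))))
  have b6 := (Real.sqrt_le_iff.1 b5).2
  exact ⟨v, vc, a2, a5,
    (Real.sqrt_le_iff.1 ((hS.2 v a1 a2).trans (mul_le_mul_of_nonneg_left b6 hS0))).2⟩

theorem fat {g c : M → ℝ} {B : ℝ} (hg : Continuous g) (g0 : ∀ x, 0 ≤ g x) (hc : Continuous c)
    (hη : Continuous η) (h : ∀ δ > 0, ∃ v : M → ℝ, Continuous v ∧ HasCompactSupport v ∧
      (∀ x, g x - c x * δ ≤ v x) ∧ ∫ x, (η x * v x) ^ 4 ∂F.μ ≤ B) :
    Integrable (fun x => (η x * g x) ^ 4) F.μ ∧ ∫ x, (η x * g x) ^ 4 ∂F.μ ≤ B := by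
  let δ : ℕ → ℝ := fun n => 1 / (n + 1)
  have δ0 : ∀ n, 0 < δ n := fun n => Nat.one_div_pos_of_nat
  have fc : ∀ n, Continuous fun x => (η x * max (g x - c x * δ n) 0) ^ 4 := fun n => by fun_prop
  have key : ∀ n, Integrable (fun x => (η x * max (g x - c x * δ n) 0) ^ 4) F.μ ∧
      ∫ x, (η x * max (g x - c x * δ n) 0) ^ 4 ∂F.μ ≤ B := fun n => by
    obtain ⟨v, a1, a2, a3, a5⟩ := h _ (δ0 n)
    have i4 : Integrable (fun x => (η x * v x) ^ 4) F.μ :=
      integ_pow (hη.mul a1) a2.mul_left (by norm_num)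
    have le : ∀ x, (η x * max (g x - c x * δ n) 0) ^ 4 ≤ (η x * v x) ^ 4 := fun x => by
      rw [mul_pow, mul_pow]
      refine mul_le_mul_of_nonneg_left ?_ (by positivity)
      rcases le_total (g x - c x * δ n) 0 with h1 | h1
      · rw [max_eq_right h1]; simp; positivity
      · rw [max_eq_left h1]
        exact pow_le_pow_left₀ h1 (a3 x) 4
    have i5 := i4.mono' (fc n).aestronglyMeasurable (.of_forall fun x => by
      rw [Real.norm_of_nonneg (by positivity)]; exact le x)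
    exact ⟨i5, (integral_mono i5 i4 le).trans a5⟩
  refine fatou (f := fun n x => (η x * max (g x - c x * δ n) 0) ^ 4)
    (by fun_prop : Continuous fun x => (η x * g x) ^ 4).measurable (fun x => by positivity)
    (fun n => (fc n).measurable) (fun n => (key n).1) (fun n x => by positivity)
    (fun n => (key n).2) fun x => ?_
  have := ((((tendsto_one_div_add_atTop_nhds_zero_nat (𝕜 := ℝ)).const_mul (c x)).const_sub
    (g x)).max (tendsto_const_nhds (x := (0 : ℝ)))).const_mul (η x) |>.pow 4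
  rwa [mul_zero, sub_zero, max_eq_left (g0 x)] at this

theorem wt_l4 (h : Wt F w) (hA : Mc I A) (hS : LC F η S)
    (hS0 : 0 ≤ S) (hβ0 : 0 ≤ β) (hi : Integrable (fun x => (w x * ‖s x‖) ^ 2) F.μ)
    (hβ : ∫ x, (w x * ‖s x‖) ^ 2 ∂F.μ ≤ β ^ 2) :
    Integrable (fun x => (η x * (w x * ‖F.res A s x‖)) ^ 4) F.μ ∧
      ∫ x, (η x * (w x * ‖F.res A s x‖)) ^ 4 ∂F.μ ≤ (S * (2 * β) ^ 2) ^ 2 := by
  rcases res_cases F A s with hu | hu
  swap
  · simp only [hu.2, Pi.zero_apply, norm_zero, mul_zero]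
    exact ⟨by simp, by simp; positivity⟩
  refine fat (c := fun x => w x + 2) (h.sm.continuous.mul hu.1.continuous.norm)
    (fun x => mul_nonneg (h.pos x).le (norm_nonneg _)) (h.sm.continuous.add continuous_const) hS.1
    fun δ δ0 => ?_
  obtain ⟨v, a1, a2, a3, a5⟩ := l4_le (h.en_res hA hu δ0) (β := 2 * β) hS hS0
    (by linarith) (by simpa only [mul_pow (2 : ℝ)] using hi.const_mul _)
    (by
      simp only [mul_pow (2 : ℝ), integral_const_mul]
      exact mul_le_mul_of_nonneg_left hβ (by norm_num)) δ0 δ0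
  exact ⟨v, a1, a2, fun x => by
    linarith [a3 x, mul_le_mul_of_nonneg_left (norm_le_sqrt (F.res A s x) δ) (h.pos x).le], a5⟩

theorem eng_lc (h : Mp86.Eng F w σ) (h0 : ∀ x, 0 ≤ w x) (hS : LC F η S) (hS0 : 0 ≤ S)
    (hβ0 : 0 ≤ β) (hi : Integrable (fun x => σ x ^ 2) F.μ) (hβ : ∫ x, σ x ^ 2 ∂F.μ ≤ β ^ 2) :
    Integrable (fun x => (η x * w x) ^ 4) F.μ ∧ ∫ x, (η x * w x) ^ 4 ∂F.μ ≤ (S * β ^ 2) ^ 2 :=
  fat (c := fun _ => 2) h.sm.continuous h0 continuous_const hS.1 fun δ δ0 =>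
    let ⟨v, a1, a2, a3, a5⟩ := l4_le h hS hS0 hβ0 hi hβ δ0 δ0
    ⟨v, a1, a2, fun x => by linarith [a3 x], a5⟩

theorem sup_wt' (hl : Lw F (1 / 16) (1 / 4) ψ) (hψ : Tendsto ψ (cocompact M) atBot) (hA : Mc I A)
    (hS : LC F η S) (e0 : ∀ x, ζ x ≠ 0 → η x = 1) (hS0 : 0 < S) {ζ' : M → ℝ} (hζ : Cu F N ζ) (hζ' : Cu F N ζ') (hN : 0 < N)
    (h1 : ∀ x, |ζ x| ≤ 1) (h1' : ∀ x, |ζ' x| ≤ 1) (e1 : ∀ x, ζ x ≠ 0 → s x = 0)
    (e2 : ∀ x, ζ' x ≠ 0 → ζ x = 1) (hβ0 : 0 < β)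
    (hi : Integrable (fun x => Real.exp (ψ x) * ‖s x‖ ^ 2) F.μ)
    (hβ : ∫ x, Real.exp (ψ x) * ‖s x‖ ^ 2 ∂F.μ ≤ β) (x : M) :
    Real.exp (ψ x) * (ζ' x * ζ' x * ‖F.res A s x‖ ^ 2) ≤ kL S N * β := by
  have := Sob92.openPos F.toPre
  have hW := hl.wt hψ
  have hW' := ((hl.mul (t := 1 / 2) (by norm_num)).mono (by norm_num) (by norm_num)).wt
    (hψ.const_mul_atBot (by norm_num))
  have ee : ∀ x, Real.exp (1 / 2 * ψ x) ^ 2 = Real.exp (ψ x) := fun x => by
    rw [← Real.exp_nat_mul]; congr 1; push_cast; ring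
  obtain ⟨i1, l1⟩ := wt_l4 hW' (s := s) (β := √β) hA hS hS0.le (Real.sqrt_nonneg _)
    (by simpa only [mul_pow, ee] using hi)
    (by simpa only [mul_pow, ee, Real.sq_sqrt hβ0.le] using hβ)
  obtain ⟨t, ht, ht'⟩ := res_rhs F A s
  set v := F.res A s
  obtain ⟨C, hC⟩ := ht.2.1
  have eq : ∀ x, ζ x ≠ 0 → v x + lap I F.e F.dv A v x = 0 := fun x hx => by
    rw [ht.2.2, ← norm_le_zero_iff, ← norm_zero (E := V), ← e1 x hx]; exact ht' x
  have sn : Sm I fun y => ‖v y‖ ^ 2 := fun y => cm_normSq (ht.1 y)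
  have bd : ∀ {ζ : M → ℝ}, (∀ x, |ζ x| ≤ 1) → ∀ x, ζ x * ζ x * ‖v x‖ ^ 2 ≤ C ^ 2 := fun {ζ} h x => by
    have a1 : ζ x * ζ x ≤ 1 := by nlinarith [abs_le.1 (h x)]
    nlinarith [pow_le_pow_left₀ (norm_nonneg _) (hC x) 2, sq_nonneg ‖v x‖]
  have nn : ∀ (ζ : M → ℝ) x, 0 ≤ ζ x * ζ x * ‖v x‖ ^ 2 := fun ζ x =>
    mul_nonneg (mul_self_nonneg _) (sq_nonneg _)
  have E1 := hW.en (f := fun x => ζ x * ζ x * ‖v x‖ ^ 2) 
    (σ := fun x => 10 * N * (η x ^ 2 * ‖v x‖ ^ 2)) ((hζ.sm.mul hζ.sm).mul sn) (nn ζ) (bd h1)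
    (continuous_const.mul ((hS.1.pow 2).mul sn.continuous))
    fun x => sub_cut hA ht.1 hζ h1 (by positivity) fun hx => ⟨eq x hx, by simp [e0 x hx]⟩
  have r1 : ∀ x, (2 * (Real.exp (ψ x) * (10 * N * (η x ^ 2 * ‖v x‖ ^ 2)))) ^ 2 =
      (20 * N) ^ 2 * (η x * (Real.exp (1 / 2 * ψ x) * ‖v x‖)) ^ 4 := fun x => by rw [← ee]; ring
  obtain ⟨i2, l2⟩ := eng_lc (β := 20 * N * (S * 4 * β)) E1
    (fun x => mul_nonneg (Real.exp_pos _).le (nn ζ x)) hS hS0.le (by positivity)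
    (by simpa only [r1] using i1.const_mul _) (by
      simp only [r1, integral_const_mul]
      rw [mul_pow (20 * N)]
      refine mul_le_mul_of_nonneg_left (l1.trans_eq ?_) (sq_nonneg _)
      rw [mul_pow 2, Real.sq_sqrt hβ0.le]; ring)
  have e3 : ∀ x, η x * (Real.exp (ψ x) * (ζ x * ζ x * ‖v x‖ ^ 2)) =
      Real.exp (ψ x) * (ζ x * ζ x * ‖v x‖ ^ 2) := fun x => by
    by_cases k : ζ x = 0
    exacts [by simp [k], by rw [e0 x k, one_mul]]
  simp only [e3] at i2 l2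
  have E2 := hW.en (f := fun x => ζ' x * ζ' x * ‖v x‖ ^ 2) (σ := fun x => 10 * N * (ζ x * ζ x * ‖v x‖ ^ 2))
    ((hζ'.sm.mul hζ'.sm).mul sn) (nn ζ') (bd h1')
    (continuous_const.mul ((hζ.sm.mul hζ.sm).mul sn).continuous)
    fun x => sub_cut hA ht.1 hζ' h1' (mul_nonneg (by positivity) (nn ζ x)) fun hx =>
      ⟨eq x (by rw [e2 x hx]; exact one_ne_zero), by simp [e2 x hx]⟩
  have r2 : ∀ x, (2 * (Real.exp (ψ x) * (10 * N * (ζ x * ζ x * ‖v x‖ ^ 2)))) ^ 4 =
      (20 * N) ^ 4 * (Real.exp (ψ x) * (ζ x * ζ x * ‖v x‖ ^ 2)) ^ 4 := fun x => by ring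
  refine (sup_le E2 (β := 20 * N * √S * (20 * N * (S * 4 * β))) hS
    (fun y hy => e0 y (by rw [e2 y fun k => by simp [k] at hy]; exact one_ne_zero)) hS0 (by positivity)
    (by simpa only [r2] using i2.const_mul _) ?_ x).trans_eq (by rw [kL]; ring)
  simp only [r2, integral_const_mul]
  refine (mul_le_mul_of_nonneg_left l2 (by positivity)).trans_eq ?_
  rw [mul_pow (20 * N * √S), mul_pow (20 * N) (√S), show 4 = 2 * 2 from rfl, pow_mul (√S),
    Real.sq_sqrt hS0.le]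
  ring

/-- **weighted local boundedness**, uniformly in the connection -/
theorem sup_w' {C : ℕ → ℝ} (hT : F.Tame C) (hA : Mc I A) (hU : Wu F U)
    (hS : LC F η S) (eη : ∀ x, ζ x ≠ 0 → η x = 1) (hS0 : 0 < S) {ζ' : M → ℝ} (hζ : Cu F N ζ) (hζ' : Cu F N ζ') (hN : 0 < N)
    (h1 : ∀ x, |ζ x| ≤ 1) (h1' : ∀ x, |ζ' x| ≤ 1) (e1 : ∀ x, ζ x ≠ 0 → s x = 0)
    (e2 : ∀ x, ζ' x ≠ 0 → ζ x = 1) (hs : Continuous s) (hc : HasCompactSupport s) (x : M) :
    ‖ζ' x • F.res A s x‖ ^ 2 ≤ 6 * kL S N * U x * ∫ y, (U y)⁻¹ * ‖s y‖ ^ 2 ∂F.μ := by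
  obtain ⟨ψ, g, l, g0, l0, hψ, hl⟩ := exists_lw hT
  obtain ⟨B, hB⟩ := (hc.isCompact.insert x).exists_bound_of_continuousOn
    hψ.sm.continuous.continuousOn
  have B0 : 0 ≤ B := (norm_nonneg _).trans (hB x (mem_insert _ _))
  have p := hU.pos x
  have k0 := kL_nonneg hS0.le hN.le
  set ε := (8 * (1 + g + l + B))⁻¹ with hε
  have ε0 : 0 < ε := by positivity
  have e0 : ε * (1 + g + l + B) = 1 / 8 := by rw [hε]; field_simp
  have a1 : ε ≤ 1 / 8 := by nlinarith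
  have a2 : ε * g ≤ 1 / 8 := by nlinarith
  have L := ((hψ.mul ε0.le).add (hU.add p.le).lw).mono (g' := 1 / 16) (l' := 1 / 4)
    (by nlinarith) (by nlinarith)
  have ex : ∀ y, Real.exp (ε * ψ y + -Real.log (U y + U x)) = Real.exp (ε * ψ y) * (U y + U x)⁻¹ :=
    fun y => by rw [Real.exp_add, Real.exp_neg, Real.exp_log (by linarith [hU.pos y])]
  have b1 : ∀ y ∈ insert x (tsupport s), 7 / 8 ≤ Real.exp (ε * ψ y) ∧ Real.exp (ε * ψ y) ≤ 8 / 7 :=
    fun y hy => by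
      have c1 := abs_le.1 (hB y hy)
      have c2 := Real.add_one_le_exp (ε * ψ y)
      have c3 := Real.add_one_le_exp (-(ε * ψ y))
      refine ⟨by nlinarith, ?_⟩
      have c4 : Real.exp (ε * ψ y) * Real.exp (-(ε * ψ y)) = 1 := by rw [← Real.exp_add]; simp
      have c5 : 7 / 8 ≤ Real.exp (-(ε * ψ y)) := by nlinarith
      nlinarith [mul_le_mul_of_nonneg_left c5 (Real.exp_pos (ε * ψ y)).le]
  have uc := hU.sm.continuous
  have ci : Continuous fun y => (U y)⁻¹ * ‖s y‖ ^ 2 :=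
    (uc.inv₀ fun y => (hU.pos y).ne').mul (hs.norm.pow 2)
  have hc2 : ∀ f : M → ℝ, HasCompactSupport fun y => f y * ‖s y‖ ^ 2 := fun f =>
    hc.mono fun y hy h => hy (by simp [h])
  have i0 := ci.integrable_of_hasCompactSupport (μ := F.μ) (hc2 _)
  have i1 := ((Real.continuous_exp.comp L.sm.continuous).mul
    (hs.norm.pow 2)).integrable_of_hasCompactSupport (μ := F.μ) (hc2 _)
  have J0 : 0 ≤ ∫ y, (U y)⁻¹ * ‖s y‖ ^ 2 ∂F.μ :=
    integral_nonneg fun y => mul_nonneg (inv_nonneg.2 (hU.pos y).le) (sq_nonneg _)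
  refine le_of_forall_pos_le_add fun δ hδ => ?_
  have key := sup_wt' (β := 8 / 7 * ∫ y, (U y)⁻¹ * ‖s y‖ ^ 2 ∂F.μ + δ / (6 * (kL S N + 1) * U x))
    L (tendsto_atBot_add_right_of_ge' _ (-Real.log (U x)) (hl.const_mul_atBot ε0)
      (.of_forall fun y => neg_le_neg (Real.log_le_log p (by linarith [hU.pos y]))))
    hA hS eη hS0 hζ hζ' hN h1 h1' e1 e2 (by positivity) i1 (le_add_of_le_of_nonneg (by
      rw [← integral_const_mul]
      refine integral_mono i1 (i0.const_mul _) fun y => ?_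
      by_cases hy : y ∈ tsupport s
      · simp only [ex, ← mul_assoc]
        have := hU.pos y
        gcongr
        · exact (b1 y (.inr hy)).2
        · linarith
      · simp [image_eq_zero_of_notMem_tsupport hy]) (by positivity)) x
  rw [ex, mul_assoc, ← two_mul, mul_inv] at key
  rw [norm_smul, mul_pow, Real.norm_eq_abs, sq_abs, sq (ζ' x)]
  set Y := ζ' x * ζ' x * ‖F.res A s x‖ ^ 2
  have Y0 : 0 ≤ Y := mul_nonneg (mul_self_nonneg _) (sq_nonneg _)
  have f1 : 7 / 8 * (2⁻¹ * (U x)⁻¹ * Y) ≤ _ :=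
    (mul_le_mul_of_nonneg_right (b1 x (.inl rfl)).1 (by positivity)).trans key
  have f2 := mul_le_mul_of_nonneg_left f1 p.le
  have f3 : U x * (kL S N * (δ / (6 * (kL S N + 1) * U x))) ≤ δ / 6 := by
    rw [show U x * (kL S N * (δ / (6 * (kL S N + 1) * U x))) = δ / 6 * (kL S N / (kL S N + 1)) by
      field_simp]
    exact mul_le_of_le_one_right (by positivity) ((div_le_one (by positivity)).2 (by linarith))
  rw [show U x * (7 / 8 * (2⁻¹ * (U x)⁻¹ * Y)) = 7 / 16 * Y by field_simp; ring] at f2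
  nlinarith [mul_nonneg (mul_nonneg k0 p.le) J0]

open Sob92 Wz78
variable {κ : Type} [Fintype κ] [DecidableEq κ] {A : ι → M → En κ} {p : M → En κ}
  {f f' ζ' : M → ℝ}

theorem bs_lc (h : Pq F A p) (hU : Wu F U) (hS : LC F η S) (e0 : ∀ x, ζ x ≠ 0 → η x = 1)
    (hS0 : 0 < S) (hζ : Cu F N ζ)
    (hζ' : Cu F N ζ') (hN : 0 < N) (h1 : ∀ x, |ζ x| ≤ 1) (h1' : ∀ x, |ζ' x| ≤ 1)
    (e1 : ∀ x, ζ x ≠ 0 → f' x = 0) (e2 : ∀ x, ζ' x ≠ 0 → ζ x = 1) (e3 : ∀ x, f x ≠ 0 → ζ' x = 1)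
    (hf' : Continuous f') {m : ℝ} (hm : ∀ x, f' x ^ 2 ≤ m * U x) (z : M) :
    ‖bs F A p f f' z‖ ^ 2 ≤ 3 * (f z ^ 2 * (6 * kL S N * U z * m)) := by
  have m0 : 0 ≤ m := nonneg_of_mul_nonneg_left ((sq_nonneg _).trans (hm z)) (hU.pos z) |> fun h => h
  have k0 := kL_nonneg hS0.le hN.le
  have c0 : 0 ≤ f z ^ 2 * (6 * kL S N * U z * m) := by have := hU.pos z; positivity
  rcases fld_cases F.toPre (fun u z => f z • F.res A (fun y => f' y • p y (u y)) z) with k | k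
  swap
  · rw [bs, k.2]; simpa using c0
  refine (norm_of_ct (h.sym z) (fun g => ?_) (fun g => ?_) c0).trans
    (mul_le_mul_of_nonneg_right (h.rk z) c0)
  · refine H_eq (f := fun g => p z (ct g (bs F A p f f' z))) (g := fun g => ct g (bs F A p f f' z))
      ((p z).continuous.comp (cont_ct _)) (cont_ct _) (fun u => ?_) g
    simp only [bs, k.2 u z, map_smul]
    rw [Mp86.res_fix h.bmp h.mc h.sm ⟨1, fun x => ContinuousLinearMap.opNorm_le_bound _ zero_le_one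
      fun v => by simpa using h.norm_le x v⟩ (fun x a => ?_) fun x => ?_]
    · have := h.par a x
      rw [nabE, ← add_sub_assoc, sub_eq_zero] at this
      exact this
    · rw [map_smul, ← mul_apply_eq_comp, h.idem]
  · refine (F.dense_toH 0 _).induction_on g (isClosed_le ((cont_ct _).norm.pow 2) (by fun_prop))
      fun u => ?_
    simp only [bs, k.2 u z]
    by_cases hz : f z = 0
    · simp [hz]
    have cs : Continuous fun y => f' y • p y (u.1 y) :=
      hf'.smul (h.sm.clm_apply u.2.1).continuous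
    have hc : HasCompactSupport fun y => f' y • p y (u.1 y) :=
      u.2.2.1.mono fun y hy e => hy (by simp [e])
    have k1 := sup_w' h.tame.choose_spec h.mc hU hS e0 hS0 hζ hζ' hN h1 h1'
      (fun x hx => by simp [e1 x hx]) e2 cs hc z
    rw [e3 z hz, one_smul] at k1
    rw [norm_smul, mul_pow, Real.norm_eq_abs, sq_abs, mul_assoc, mul_assoc _ m, sq_toH,
      ← integral_const_mul]
    have := hU.pos z
    refine mul_le_mul_of_nonneg_left (k1.trans (mul_le_mul_of_nonneg_left (integral_mono_of_nonneg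
      (.of_forall fun y => mul_nonneg (inv_nonneg.2 (hU.pos y).le) (sq_nonneg _))
      (((u.2.1.continuous.norm.pow 2).integrable_of_hasCompactSupport
        (u.2.2.1.mono fun y hy e => hy (by simp [e]))).const_mul m) (.of_forall fun y => ?_))
      (by positivity))) (sq_nonneg _)
    beta_reduce
    rw [inv_mul_le_iff₀ (hU.pos y), norm_smul, mul_pow, Real.norm_eq_abs, sq_abs, ← mul_assoc,
      mul_comm (U y)]
    exact mul_le_mul (hm y) (pow_le_pow_left₀ (norm_nonneg _) (h.norm_le y _) 2) (sq_nonneg _)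
      ((sq_nonneg _).trans (hm y))

/-- the local bound of the base fields -/
def kU (S N : ℝ) : ℝ :=
  √(3 * (N ^ 2 * (6 * kL (S * (2 + 2 * (2 * (mS * 4) ^ 2 * N))) (2 * (mS * 4) ^ 2 * N) * 1 * N ^ 2)))

/-- **the base field is bounded** by the Sobolev constant of `O` -/
theorem bs_loc (h : Pq F A p) (hO : IsClosed O) (hS : L4On F.toPre O S) (hS0 : 0 < S) (N1 : 1 ≤ N)
    (hf : ∀ x, |f x| ≤ N) (hc : Continuous f') (hf' : ∀ x, |f' x| ≤ N) (a : Cu F N φ)
    (b : ∀ x, f x ≠ 0 → 1 ≤ φ x) (c : ∀ x, f' x ≠ 0 → φ x ≤ 0) (o : ∀ x ∉ O, φ x ≤ 0) (z : M) :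
    ‖bs F A p f f' z‖ ≤ kU S N := by
  have m1 := one_le_mS
  have g : ∀ {t : ℝ} {x}, cf 4 t φ x ≠ 0 → t < φ x := fun hx =>
    not_le.1 fun e => hx (cf_zero (by norm_num) e)
  have k := bs_lc (f := f) h wu_one (lc_of hS hS0.le (a.cf (k := 4) (by norm_num) 0) (cf_abs _ _)
      (closure_minimal (fun x hx => by_contra fun e => (g hx).not_ge (o x e)) hO))
    (fun x hx => cf_one (by linarith [g hx])) (by positivity) (a.cf (k := 4) (by norm_num) (1 / 4))
    (a.cf (k := 4) (by norm_num) (1 / 2)) (by positivity) (cf_abs _ _) (cf_abs _ _)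
    (fun x hx => by_contra fun e => by linarith [g hx, c x e])
    (fun x hx => cf_one (by linarith [g hx]))
    (fun x hx => cf_one (by linarith [b x hx])) hc (m := N ^ 2)
    (fun x => by rw [mul_one]; exact sq_le_sq' (abs_le.1 (hf' x)).1 (abs_le.1 (hf' x)).2) z
  have k0 := kL_nonneg (S := S * (2 + 2 * (2 * (mS * 4) ^ 2 * N))) (N := 2 * (mS * 4) ^ 2 * N)
    (by positivity) (by positivity)
  refine Real.le_sqrt_of_sq_le (k.trans ?_)
  gcongr 3 * (?_ * _)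
  exact sq_le_sq' (abs_le.1 (hf z)).1 (abs_le.1 (hf z)).2

end Crest.Agent.X212.Dgr80.Uk
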