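import Crest.Agent.X212.Dgr80.Uk0
import Crest.Agent.X212.Dgr80.Tk

/-!
# Row 212, LOC-K (helper80): the bounds of the cyclic seeds from a bound of the base fields
-/

set_option autoImplicit false
set_option linter.unusedSectionVars false
noncomputable section
open scoped Manifold ContDiff Topology InnerProductSpace
open MeasureTheory Set Function Filter

namespace Crest.Agent.X212.Dgr80.Uk
open An Sob92 Wz78 Cyc79
open Mp86 (Mc Bumps Dom LaSz LLSz SB LaC sm_res)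
open Wrd81 (wd)

variable {E : Type} [NormedAddCommGroup E] [NormedSpace ℝ E] [FiniteDimensional ℝ E]
  [MeasurableSpace E] [BorelSpace E]
  {HM : Type} [TopologicalSpace HM] {I : ModelWithCorners ℝ E HM} [I.Boundaryless]
  {M : Type} [TopologicalSpace M] [ChartedSpace HM M] [IsManifold I ∞ M]
  [MeasurableSpace M] [T2Space M] [BorelSpace M] [SecondCountableTopology M]
  {ι : Type} [Fintype ι] {F : Fr I M ι} {lam : Type} [Fintype lam] {r : ℕ} {B : Base M ι lam}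
  {G : Geo I M ι lam} {c : Cfg M ι lam r} {d : Cy M} {n : ℕ} {R S k : ℝ}

/-- a bound of the two base fields -/
structure BB (F : Fr I M ι) (c : Cfg M ι lam r) (d : Cy M) (k : ℝ) : Prop where
  l : ∀ z, ‖bf F c d.f' d.f z‖ ≤ k
  r : ∀ z, ‖bf F c d.f d.f' z‖ ≤ k

section sz
variable (hd : d.Sz F n) (h : Pq F (c.m.adW c.W) c.m.pg) (hS : BB F c d (kB S n))
include hd h hS

theorem norm_W {w : List (La M)} (hw : LLSz n w) (x : M) :
    ‖wv F c (bf F c d.f' d.f) (w ++ Cyc79.xw d.f d.f') x‖ ≤ kB S n ^ (n + 3) * kB S n :=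
  (hd.W _ hw).wd h.bmp (h.mcA _) hd.one hS.l x

/-- **the seed is bounded**, uniformly in the configuration -/
theorem norm_s (x : M) : ‖(d.sed F).s c x‖ ≤ 2 * (kB S n ^ (n + 3) * kB S n) ^ 2 :=
  (norm_pg _ _).trans ((norm_tp _ _ _).trans (by
    have := hd.one (S := S)
    rw [sq, ← mul_assoc]
    gcongr
    exacts [norm_rr F c, norm_W hd h hS hd.w x, norm_W hd h hS hd.w' x]))

theorem dom_gh {w w' : List (La M)} (hw : LLSz n w) (hw' : LLSz n w') {l : M → c.m.A}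
    (hl : ∀ x, ‖l x‖ ≤ R) :
    Dom F (kD (kB S n) n * R ^ 2) fun x => ‖gh F c d.f d.f' w w' (adl F c l) x‖ ^ 2 := by
  have k1 := hd.one (S := S)
  have a1 := dom_gc (r := rr F c) h.bmp (h.mcA _) k1 (norm_rr F c) hS.l
    (hd.W _ hw).2 (norm_adl hl (norm_W hd h hS hw'))
  have a2 := dom_gc (r := rr F c) h.bmp (h.mcA _) k1 (norm_rr F c) hS.r
    (hd.xw _).2.2 ((hd.W _ hw).bk h.bmp (h.mcA _) k1 (norm_adl hl
      ((Cy.Sz.wl _ hw').wd h.bmp (h.mcA _) k1 hS.r)))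
  refine ((a1.mul zero_le_two).add (a2.mul zero_le_two)).mono ?_ fun x => Mp86.normSq_add_le _ _
  have k2 : 1 ≤ 4 * kB S n ^ 2 := by nlinarith
  have e1 := pow_le_pow_right₀ k2 (hd.W (S := S) (Vc F c) hw).1
  have e2 := pow_le_pow_right₀ k2 (hd.xw (S := S) (Vc F c)).2.1
  rw [kD, add_mul]
  refine add_le_add ((mul_le_mul_of_nonneg_left (mul_le_mul_of_nonneg_right
    (mul_le_mul_of_nonneg_left e1 (by norm_num)) (sq_nonneg _)) zero_le_two).trans_eq (by ring))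
    ((mul_le_mul_of_nonneg_left (mul_le_mul_of_nonneg_right
    (mul_le_mul_of_nonneg_left e2 (by norm_num)) (sq_nonneg _)) zero_le_two).trans_eq (by ring))

/-- **the gradient is dominated**, uniformly in the configuration -/
theorem dom_sA {l : M → c.m.A} (hl : ∀ x, ‖l x‖ ≤ R) :
    Dom F (4 * kD (kB S n) n * R ^ 2) fun x => ‖(d.sed F).sA c l x‖ ^ 2 :=
  (((dom_gh hd h hS hd.w' hd.w hl).mul zero_le_two).add
    ((dom_gh hd h hS hd.w hd.w' hl).mul zero_le_two)).mono (le_of_eq (by ring)) fun x => by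
    have := Mp86.normSq_add_le (gh F c d.f d.f' d.w' d.w (adl F c l) x)
      (-gh F c d.f d.f' d.w d.w' (adl F c l) x)
    rwa [← sub_eq_add_neg, norm_neg] at this

end sz

theorem sb_cy (hB : B.OK I) (hT : ∃ C, G.F.Tame C) {N : ℕ} (hd : d.Sz G.F N)
    (hS : ∀ c : Cfg M ι lam r, c.Adm B G → BB G.F c d (kB S N))
    (hc : ∀ t ∈ d.w, LaC t) (hc' : ∀ t ∈ d.w', LaC t) :
    SB (r := r) B G (d.sed G.F) (1 + 2 * (Cyc79.kB S N ^ (N + 3) * Cyc79.kB S N) ^ 2 +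
      4 * Cyc79.kD (Cyc79.kB S N) N) := by
  have a1 : 0 ≤ Cyc79.kD (Cyc79.kB S N) N := by unfold Cyc79.kD; positivity
  have a2 := sq_nonneg (Cyc79.kB S N ^ (N + 3) * Cyc79.kB S N)
  have p := fun (c : Cfg M ι lam r) (a : c.Adm B G) => Cyc79.pq_conn hB hT a.ok a.conn
  refine ⟨by linarith, fun c a => ?_, fun c a x => (norm_s hd (p c a) (hS c a) x).trans (by linarith),
    fun _ _ => rfl, fun c a l C hl => (dom_sA hd (p c a) (hS c a) hl).mono (by gcongr; linarith)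
      fun _ => le_rfl⟩
  have e : ∀ w : List (La M), (∀ t ∈ w, LaC t) → Continuous
      (Cyc79.wv G.F c (Cyc79.bf G.F c d.f' d.f) (w ++ Cyc79.xw d.f d.f')) := fun w hw => by
    induction w with
    | nil => exact hd.sep.c.smul (sm_res _ _ _).continuous
    | cons t w ih =>
      cases t with
      | mul f => exact Continuous.smul (hw (.mul f) (by simp)) (ih fun s hs => hw s (by simp [hs]))
      | G => exact (sm_res _ _ _).continuous
  exact (p c a).sm.continuous.clm_apply ((ContinuousLinearMap.adjoint.continuous.comp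
    ((Cyc79.rr G.F c).flip.continuous.comp (e _ hc))).clm_apply (e _ hc'))

variable [DecidableEq ι] {τ : M → ℝ} {a₀ : ι} {O : Set M}

theorem cy_tr (h : CO B G c) (hd : d.OK G.F) (hn : d.Sz G.F n) (hS : BB G.F c d (kB S n))
    (hp : d.Par G.F a₀ O) (hdv : ∀ x ∈ O, G.F.dv a₀ x = 0)
    (hc : ∀ x ∈ O, ∀ a l, G.F.c a₀ a l x = 0) {α : M → Fm ι c.m.A} (φ : M → c.m.V) (sα : Sm I α)
    (hα : ∀ x ∈ O, ∀ a, α x a = c.m.Fg G.F c.W x (a₀, a)) {Q : (M → c.m.A) → Prop}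
    (hQ : ∀ u, Q u → G.F.Cb u) (hq : Q ((d.sed G.F).s c)) :
    RS.Tr G.F (c.m.adW c.W) Q a₀ O α φ (kT (kB S n) (n + 3)) (d.rs G.F c) := by
  have k1 := hn.one (S := S)
  refine ⟨hq, fun x => (norm_s hn h.pq hS x).trans (le_add_of_nonneg_left (by positivity)),
    fun l hl => Cy.sm_sA h hd (hQ l hl), fun _ _ => contMDiff_const, fun l R θ ζ hl hR hθ => ?_⟩
  have m : ∀ {w : List (SL M (Vc G.F c))} {j}, WL (kB S n) j w → j ≤ n + 3 →
    WL (kB S n) (n + 3) w := fun h e => ⟨h.1.trans e, h.2⟩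
  have H : Ht G.F (c.m.adW c.W) c.m.pg (fun x => adR _ (c.m.pg x (l x))) d.f d.f' d.w d.w'
      (rr G.F c) a₀ O α (kB S n) (2 * |R|) (n + 3) :=
    ⟨h.hs hd.sep hd.w hd.w' (hQ l hl), hdv, hc, sα,
      fun u hu x hx a => by rw [hα x hx]; exact h.curv_qi hu a₀ a x, hp.f, hp.f', hp.w, hp.w', k1,
      by positivity, hS.l, hS.r,
      fun x => (norm_adR _).trans (by linarith [norm_pg x (l x), hR x, le_abs_self R]),
      m (Cy.Sz.wl _ hn.w) (by omega), m (Cy.Sz.wl _ hn.w') (by omega), hn.W _ hn.w, hn.W _ hn.w',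
      m (hn.xw _).2 (by omega)⟩
  have e := H.tr hθ
  simp only [Cy.rs, Cy.nab_s h hd (cb_sm (hQ l hl))]
  simp only [Cy.sed, Pi.zero_apply, inner_zero_right, add_zero, gh_eq]
  refine e.trans ?_
  rw [← mul_assoc (kT _ _)]
  refine mul_le_mul_of_nonneg_right ?_ (nz_nonneg (F := G.F))
  rw [kT, ← sq_abs R]
  set k := kB S n
  set y := k ^ (n + 3)
  have a1 : (y * (2 * |R| * (y * k))) ^ 2 + k ^ 2 ≤ ((y * (2 * (y * k))) ^ 2 + k ^ 2) * (|R| ^ 2 + 1) := by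
    nlinarith [sq_nonneg (y * (2 * (y * k))), sq_nonneg (k * |R|)]
  have a2 := mul_le_mul_of_nonneg_left a1
    (show 0 ≤ 280 * ((n + 3 : ℕ) : ℝ) * k ^ (2 * (n + 3)) by positivity)
  have a3 := mul_le_mul_of_nonneg_left (show 2 * |R| ≤ |R| ^ 2 + 1 by nlinarith [sq_nonneg (|R| - 1)])
    (show 0 ≤ k * (y * (y * (y * k))) by positivity)
  nlinarith [show 0 ≤ 2 * (y * k) ^ 2 * (|R| ^ 2 + 1) by positivity]

theorem tr_cy (h : Gd B G c) (P : PN B G τ a₀ O) (hS : BB G.F c d (kB S n)) (hd : d.OK G.F)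
    (sd : d.Sz G.F n) (pd : d.Par G.F a₀ O) (hk : Cyc79.kT (Cyc79.kB S n) (n + 3) ≤ k)
    (hn : (n : ℝ) ≤ k) (k1 : 1 ≤ k) {w : List (La M)} (ht : ∀ t ∈ w, t.OK G.F) (hs : LLSz n w)
    (hp : ∀ t ∈ w, Pr G.F a₀ O t) : RS.Tr G.F (c.m.adW c.W) (QP G.F c.m.pg) a₀ O (xA G.F c τ)
      (xP G.F c τ) (kw k n) (((d.sed G.F).wd G.F w).rs c) := by
  rw [rs_wd]
  exact (((cy_tr h.toCO hd sd hS pd P.dv P.c1 _ (P.sm_xA h.adm)
    (fun x hx => P.toPrd.xA_eq c hx) (fun _ hu => hu.1) (h.q_cy hd)).mono hk).wd (h.tzA P) k1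
    (Gd.tl_la hn ht hs hp)).mono (Gd.kw_mono k1 (by rw [List.length_map]; exact hs.1))

end Crest.Agent.X212.Dgr80.Uk
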